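import Vale.Agent.P238.MathlibUsed
import Vale.Agent.P238.Defs
attribute [-instance] ProperSMul.toContinuousSMul IsTopologicalTorsor.toContinuousSMul IdemSemiring.toCanonicallyOrderedAdd IdemSemiring.toMulLeftMono IdemSemiring.toMulRightMono AddQuantale.instAddLeftMono AddQuantale.instAddRightMono Quantale.instMulLeftMono Quantale.instMulRightMono FiniteDimensional.rclike_to_real IsScalarTower.complexToReal FiniteDimensional.complexToReal

set_option linter.all false

section

section

set_option linter.unusedSectionVars false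

namespace Vale.Agent.P238

open Finset

noncomputable section

/-- Uniform average of a real function on a finite type. -/
def ex {X : Type*} [Fintype X] (F : X → ℝ) : ℝ := (∑ x, F x) / (Fintype.card X : ℝ)

section ex
variable {X Y : Type*} [Fintype X] [Fintype Y]

lemma ex_add (F G : X → ℝ) : ex (fun x => F x + G x) = ex F + ex G := by
  simp only [ex, sum_add_distrib, add_div]

lemma ex_sub (F G : X → ℝ) : ex (fun x => F x - G x) = ex F - ex G := by
  simp only [ex, sum_sub_distrib, sub_div]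

lemma ex_mul_left (c : ℝ) (F : X → ℝ) : ex (fun x => c * F x) = c * ex F := by
  simp only [ex, ← mul_sum, mul_div_assoc]

lemma ex_mul_right (c : ℝ) (F : X → ℝ) : ex (fun x => F x * c) = ex F * c := by
  simp only [ex, ← sum_mul, div_mul_eq_mul_div]

lemma ex_sum {ι : Type*} (s : Finset ι) (F : ι → X → ℝ) :
    ex (fun x => ∑ i ∈ s, F i x) = ∑ i ∈ s, ex (F i) := by
  unfold ex
  rw [Finset.sum_comm, Finset.sum_div]

lemma ex_nonneg {F : X → ℝ} (h : ∀ x, 0 ≤ F x) : 0 ≤ ex F :=
  div_nonneg (Finset.sum_nonneg fun x _ => h x) (Nat.cast_nonneg _)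

lemma ex_mono {F G : X → ℝ} (h : ∀ x, F x ≤ G x) : ex F ≤ ex G :=
  div_le_div_of_nonneg_right (Finset.sum_le_sum fun x _ => h x) (Nat.cast_nonneg _)

lemma ex_const [Nonempty X] (c : ℝ) : ex (fun _ : X => c) = c := by
  unfold ex
  rw [Finset.sum_const, Finset.card_univ, nsmul_eq_mul]
  field_simp

lemma ex_congr {F G : X → ℝ} (h : ∀ x, F x = G x) : ex F = ex G := by
  have : F = G := funext h
  rw [this]

lemma ex_equiv (e : X ≃ Y) (F : Y → ℝ) : ex (fun x => F (e x)) = ex F := by
  unfold ex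
  rw [Fintype.card_congr e, e.sum_comp]

lemma ex_comm (F : X → Y → ℝ) : ex (fun x => ex (fun y => F x y)) = ex (fun y => ex (fun x => F x y)) := by
  unfold ex
  rw [← Finset.sum_div, ← Finset.sum_div, Finset.sum_comm]
  ring

lemma ex_prod (F : X × Y → ℝ) : ex F = ex (fun x => ex (fun y => F (x, y))) := by
  unfold ex
  rw [Fintype.sum_prod_type, ← Finset.sum_div, Fintype.card_prod]
  push_cast
  rw [div_div, mul_comm]

/-- Cauchy-Schwarz. -/
lemma ex_mul_sq_le (F G : X → ℝ) :
    (ex (fun x => F x * G x)) ^ 2 ≤ ex (fun x => F x ^ 2) * ex (fun x => G x ^ 2) := by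
  unfold ex
  rw [div_pow, div_mul_div_comm, ← sq]
  exact div_le_div_of_nonneg_right (Finset.sum_mul_sq_le_sq_mul_sq _ _ _) (by positivity)

end ex

section walsh
variable {ι : Type*} [Fintype ι] [DecidableEq ι]

/-- The Walsh character of a set of coordinates. -/
def chi (A : Finset ι) (x : ι → Bool) : ℝ := ∏ p ∈ A, (if x p then -1 else 1)

/-- Walsh-Fourier coefficient. -/
def fc (f : (ι → Bool) → ℝ) (A : Finset ι) : ℝ := ex (fun x => f x * chi A x)

/-- flip one coordinate -/
def flip (p : ι) (x : ι → Bool) : ι → Bool := Function.update x p (!(x p))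

lemma flip_flip (p : ι) (x : ι → Bool) : flip p (flip p x) = x := by
  funext q
  by_cases h : q = p
  · subst h; simp [flip]
  · simp [flip, h]

def flipEquiv (p : ι) : (ι → Bool) ≃ (ι → Bool) where
  toFun := flip p
  invFun := flip p
  left_inv := flip_flip p
  right_inv := flip_flip p

lemma ex_flip (p : ι) (F : (ι → Bool) → ℝ) : ex (fun x => F (flip p x)) = ex F :=
  ex_equiv (flipEquiv p) F

lemma chi_flip (p : ι) (A : Finset ι) (x : ι → Bool) :
    chi A (flip p x) = (if p ∈ A then -1 else 1) * chi A x := by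
  unfold chi
  by_cases h : p ∈ A
  · rw [← Finset.mul_prod_erase A _ h, ← Finset.mul_prod_erase A _ h, if_pos h]
    have : ∏ q ∈ A.erase p, (if flip p x q then (-1 : ℝ) else 1) = ∏ q ∈ A.erase p, (if x q then (-1 : ℝ) else 1) := by
      apply Finset.prod_congr rfl
      intro q hq
      have : q ≠ p := Finset.ne_of_mem_erase hq
      simp [flip, this]
    rw [this]
    have h2 : (if flip p x p then (-1 : ℝ) else 1) = - (if x p then (-1 : ℝ) else 1) := by
      by_cases hx : x p <;> simp [flip, hx]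
    rw [h2]; ring
  · rw [if_neg h, one_mul]
    apply Finset.prod_congr rfl
    intro q hq
    have : q ≠ p := fun e => h (e ▸ hq)
    simp [flip, this]

lemma chi_mul_self (A : Finset ι) (x : ι → Bool) : chi A x * chi A x = 1 := by
  unfold chi
  rw [← Finset.prod_mul_distrib]
  apply Finset.prod_eq_one
  intro p _
  by_cases h : x p <;> simp [h]

lemma chi_empty (x : ι → Bool) : chi (∅ : Finset ι) x = 1 := by simp [chi]

lemma ex_chi_mul (A B : Finset ι) : ex (fun x => chi A x * chi B x) = if A = B then 1 else 0 := by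
  split_ifs with h
  · subst h
    rw [ex_congr (fun x => chi_mul_self A x), ex_const]
  · -- some coordinate in symmetric difference
    have : ∃ p, ¬ (p ∈ A ↔ p ∈ B) := by
      by_contra hc
      push Not at hc
      exact h (Finset.ext hc)
    obtain ⟨p, hp⟩ := this
    have h1 := ex_flip p (fun x => chi A x * chi B x)
    have h2 : ex (fun x => chi A (flip p x) * chi B (flip p x)) = - ex (fun x => chi A x * chi B x) := by
      rw [← neg_one_mul, ← ex_mul_left]
      apply ex_congr
      intro x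
      rw [chi_flip, chi_flip]
      by_cases hA : p ∈ A <;> by_cases hB : p ∈ B
      · exact absurd (by simp [hA, hB]) hp
      · simp only [hA, ↓reduceIte, neg_mul, one_mul, hB]
      · simp only [hA, ↓reduceIte, one_mul, hB, neg_mul, mul_neg]
      · exact absurd (by simp [hA, hB]) hp
    linarith only [h1, h2]

/-- sum over all characters: the dual orthogonality. -/
lemma sum_chi_mul (x y : ι → Bool) :
    ∑ A : Finset ι, chi A x * chi A y = if x = y then (Fintype.card (ι → Bool) : ℝ) else 0 := by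
  have h1 : ∑ A : Finset ι, chi A x * chi A y
      = ∏ p : ι, (1 + (if x p then (-1 : ℝ) else 1) * (if y p then (-1 : ℝ) else 1)) := by
    rw [Finset.prod_one_add, ← Finset.powerset_univ]
    apply Finset.sum_congr rfl
    intro A _
    unfold chi
    rw [Finset.prod_mul_distrib]
  rw [h1]
  split_ifs with h
  · subst h
    have : ∀ p : ι, (1 + (if x p then (-1 : ℝ) else 1) * (if x p then (-1 : ℝ) else 1)) = 2 := by
      intro p
      by_cases hx : x p <;> simp [hx] <;> norm_num
    rw [Finset.prod_congr rfl (fun p _ => this p)]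
    simp only [prod_const, card_univ, Fintype.card_pi, Fintype.card_bool, Nat.cast_pow, Nat.cast_ofNat]
  · obtain ⟨p, hp⟩ := Function.ne_iff.mp h
    apply Finset.prod_eq_zero (Finset.mem_univ p)
    rcases hx : x p <;> rcases hy : y p <;> simp_all

/-- Parseval. -/
lemma parseval (f : (ι → Bool) → ℝ) : ∑ A : Finset ι, (fc f A) ^ 2 = ex (fun x => (f x) ^ 2) := by
  have hN : (Fintype.card (ι → Bool) : ℝ) ≠ 0 := by positivity
  unfold fc ex
  have h1 : ∀ A : Finset ι, ((∑ x, f x * chi A x) / (Fintype.card (ι → Bool) : ℝ)) ^ 2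
      = (∑ x, ∑ y, f x * f y * (chi A x * chi A y)) / (Fintype.card (ι → Bool) : ℝ) ^ 2 := by
    intro A
    rw [div_pow, sq (∑ x, f x * chi A x), Finset.sum_mul_sum]
    congr 1
    apply Finset.sum_congr rfl; intro x _
    apply Finset.sum_congr rfl; intro y _
    ring
  rw [Finset.sum_congr rfl (fun A _ => h1 A), ← Finset.sum_div, Finset.sum_comm]
  have h2 : ∀ x, ∑ A : Finset ι, ∑ y, f x * f y * (chi A x * chi A y)
      = (f x) ^ 2 * (Fintype.card (ι → Bool) : ℝ) := by
    intro x
    rw [Finset.sum_comm]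
    have : ∀ y, ∑ A : Finset ι, f x * f y * (chi A x * chi A y) = f x * f y * (if x = y then (Fintype.card (ι → Bool) : ℝ) else 0) := by
      intro y
      rw [← Finset.mul_sum, sum_chi_mul]
    rw [Finset.sum_congr rfl (fun y _ => this y)]
    simp only [mul_ite, mul_zero, Finset.sum_ite_eq, Finset.mem_univ, if_true]
    ring
  rw [Finset.sum_congr rfl (fun x _ => h2 x), ← Finset.sum_mul, sq (Fintype.card (ι → Bool) : ℝ)]
  field_simp

lemma fc_empty (f : (ι → Bool) → ℝ) : fc f ∅ = ex f := by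
  unfold fc
  simp [chi_empty]

lemma fc_sub (f g : (ι → Bool) → ℝ) (A : Finset ι) : fc (fun x => f x - g x) A = fc f A - fc g A := by
  unfold fc
  rw [← ex_sub]
  apply ex_congr; intro x; ring

lemma fc_flip (f : (ι → Bool) → ℝ) (p : ι) (A : Finset ι) :
    fc (fun x => f (flip p x)) A = (if p ∈ A then -1 else 1) * fc f A := by
  unfold fc
  rw [← ex_flip p, ← ex_mul_left]
  apply ex_congr; intro x
  simp only []
  rw [flip_flip, chi_flip]; ring

/-- composing with a permutation of the coordinates -/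
lemma fc_perm (f : (ι → Bool) → ℝ) (π : Equiv.Perm ι) (A : Finset ι) :
    fc (fun x => f (x ∘ π)) A = fc f (A.map π.symm.toEmbedding) := by
  unfold fc
  rw [← ex_equiv (Equiv.arrowCongr π (Equiv.refl Bool)) (fun x => f (x ∘ π) * chi A x)]
  apply ex_congr
  intro x
  have h1 : (Equiv.arrowCongr π (Equiv.refl Bool)) x ∘ π = x := by
    funext p
    simp [Equiv.arrowCongr]
  have h2 : chi A ((Equiv.arrowCongr π (Equiv.refl Bool)) x) = chi (A.map π.symm.toEmbedding) x := by
    unfold chi
    rw [Finset.prod_map]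
    apply Finset.prod_congr rfl
    intro p _
    simp [Equiv.arrowCongr]
  show f ((Equiv.arrowCongr π (Equiv.refl Bool)) x ∘ π) * chi A ((Equiv.arrowCongr π (Equiv.refl Bool)) x) = _
  rw [h1, h2]

/-- L2 distance of `f` and `f` composed with a coordinate permutation. -/
lemma ex_sub_perm_sq (f : (ι → Bool) → ℝ) (π : Equiv.Perm ι) :
    ex (fun x => (f x - f (x ∘ π)) ^ 2) = ∑ A : Finset ι, (fc f A - fc f (A.map π.symm.toEmbedding)) ^ 2 := by
  rw [← parseval]
  apply Finset.sum_congr rfl
  intro A _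
  rw [fc_sub, fc_perm]

end walsh

end

end Vale.Agent.P238
end
end

section

section

set_option linter.unusedSectionVars false

namespace Vale.Agent.P238

/-- rotation by `r` inside the level-`l` block number `j`, on positions -/
def rhoN (l j r p : ℕ) : ℕ := if p / 2 ^ l = j then 2 ^ l * j + (p % 2 ^ l + r) % 2 ^ l else p

lemma rhoN_of_ne {l j r p : ℕ} (h : p / 2 ^ l ≠ j) : rhoN l j r p = p := by
  simp [rhoN, h]

lemma rhoN_of_eq {l j r p : ℕ} (h : p / 2 ^ l = j) :
    rhoN l j r p = 2 ^ l * j + (p % 2 ^ l + r) % 2 ^ l := by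
  simp [rhoN, h]

lemma rhoN_div (l j r p : ℕ) : rhoN l j r p / 2 ^ l = p / 2 ^ l := by
  by_cases h : p / 2 ^ l = j
  · rw [rhoN_of_eq h, h, Nat.mul_add_div (by positivity), Nat.div_eq_of_lt (Nat.mod_lt _ (by positivity)),
      add_zero]
  · rw [rhoN_of_ne h]

lemma rhoN_mod {l j r p : ℕ} (h : p / 2 ^ l = j) : rhoN l j r p % 2 ^ l = (p % 2 ^ l + r) % 2 ^ l := by
  rw [rhoN_of_eq h, Nat.mul_add_mod, Nat.mod_mod]

lemma rhoN_inv {l j r p : ℕ} (hr : r ≤ 2 ^ l) : rhoN l j (2 ^ l - r) (rhoN l j r p) = p := by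
  by_cases h : p / 2 ^ l = j
  · have h1 : rhoN l j r p / 2 ^ l = j := by rw [rhoN_div, h]
    rw [rhoN_of_eq h1, rhoN_mod h, Nat.mod_add_mod, add_assoc, Nat.add_sub_cancel' hr,
      Nat.add_mod_right, Nat.mod_mod, ← h, Nat.div_add_mod]
  · rw [rhoN_of_ne (p := p) h, rhoN_of_ne h]

lemma rhoN_inv' {l j r p : ℕ} (hr : r ≤ 2 ^ l) : rhoN l j r (rhoN l j (2 ^ l - r) p) = p := by
  have h := rhoN_inv (l := l) (j := j) (r := 2 ^ l - r) (p := p) (Nat.sub_le _ _)
  rwa [Nat.sub_sub_self hr] at h

lemma rhoN_lt {k l j r p : ℕ} (hl : l ≤ k) (hp : p < 2 ^ k) : rhoN l j r p < 2 ^ k := by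
  have h1 : rhoN l j r p / 2 ^ l < 2 ^ (k - l) := by
    rw [rhoN_div, Nat.div_lt_iff_lt_mul (by positivity), ← pow_add, Nat.sub_add_cancel hl]
    exact hp
  rwa [Nat.div_lt_iff_lt_mul (by positivity), ← pow_add, Nat.sub_add_cancel hl] at h1

/-- The permutation of the `2 ^ k` positions rotating the level-`l` block number `j` by `r`. -/
def rho (k l j r : ℕ) : Equiv.Perm (Fin (2 ^ k)) :=
  if h : l ≤ k ∧ r ≤ 2 ^ l then
    { toFun := fun p => ⟨rhoN l j r p, rhoN_lt h.1 p.2⟩
      invFun := fun p => ⟨rhoN l j (2 ^ l - r) p, rhoN_lt h.1 p.2⟩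
      left_inv := fun p => by apply Fin.ext; exact rhoN_inv h.2
      right_inv := fun p => by apply Fin.ext; exact rhoN_inv' h.2 }
  else Equiv.refl _

lemma rho_apply {k l j r : ℕ} (hl : l ≤ k) (hr : r ≤ 2 ^ l) (p : Fin (2 ^ k)) :
    ((rho k l j r p : Fin (2 ^ k)) : ℕ) = rhoN l j r p := by
  simp only [rho, hl, hr, and_self, ↓reduceDIte, Equiv.coe_fn_mk]

lemma rho_symm_apply {k l j r : ℕ} (hl : l ≤ k) (hr : r ≤ 2 ^ l) (p : Fin (2 ^ k)) :
    (((rho k l j r).symm p : Fin (2 ^ k)) : ℕ) = rhoN l j (2 ^ l - r) p := by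
  simp only [rho, hl, hr, and_self, ↓reduceDIte, Equiv.symm_mk, Equiv.coe_fn_mk]

end Vale.Agent.P238
end
end

section

section

set_option linter.unusedSectionVars false

namespace Vale.Agent.P238

open Finset

noncomputable section

/-- number of elements sharing their fibre with another element -/
lemma card_multi_le (S : Finset ℕ) (g : ℕ → ℕ) :
    (S.filter (fun q => ∃ q' ∈ S, q' ≠ q ∧ g q' = g q)).card + 2 * (S.image g).card ≤ 2 * S.card := by
  classical
  set M := S.filter (fun q => ∃ q' ∈ S, q' ≠ q ∧ g q' = g q) with hM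
  have hMS : M ⊆ S := Finset.filter_subset _ _
  have h1 : M.card = ∑ b ∈ S.image g, (M.filter (fun q => g q = b)).card :=
    Finset.card_eq_sum_card_fiberwise (fun q hq => Finset.mem_image_of_mem g (hMS hq))
  have h2 : S.card = ∑ b ∈ S.image g, (S.filter (fun q => g q = b)).card :=
    Finset.card_eq_sum_card_fiberwise (fun q hq => Finset.mem_image_of_mem g hq)
  have h3 : (S.image g).card = ∑ _b ∈ S.image g, 1 := by simp
  rw [h1, h2, h3, Finset.mul_sum, Finset.mul_sum, ← Finset.sum_add_distrib]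
  apply Finset.sum_le_sum
  intro b hb
  obtain ⟨q0, hq0, hq0b⟩ := Finset.mem_image.mp hb
  have hpos : 1 ≤ (S.filter (fun q => g q = b)).card :=
    Finset.card_pos.mpr ⟨q0, Finset.mem_filter.mpr ⟨hq0, hq0b⟩⟩
  have hle : (M.filter (fun q => g q = b)).card ≤ (S.filter (fun q => g q = b)).card :=
    Finset.card_le_card (Finset.filter_subset_filter _ hMS)
  by_cases h : 2 ≤ (S.filter (fun q => g q = b)).card
  · omega
  · have h1' : (S.filter (fun q => g q = b)).card = 1 := by omega
    obtain ⟨a, ha⟩ := Finset.card_eq_one.mp h1'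
    have : M.filter (fun q => g q = b) = ∅ := by
      rw [Finset.filter_eq_empty_iff]
      intro q hq hqb
      rw [hM, Finset.mem_filter] at hq
      obtain ⟨hqS, q', hq'S, hne, hg⟩ := hq
      have e1 : q ∈ ({a} : Finset ℕ) := ha ▸ Finset.mem_filter.mpr ⟨hqS, hqb⟩
      have e2 : q' ∈ ({a} : Finset ℕ) := ha ▸ Finset.mem_filter.mpr ⟨hq'S, hg.trans hqb⟩
      rw [Finset.mem_singleton] at e1 e2
      exact hne (e2.trans e1.symm)
    rw [this, Finset.card_empty]
    omega

/-- number of level-`i` blocks hit by `A` -/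
def Nb {k : ℕ} (i : ℕ) (A : Finset (Fin (2 ^ k))) : ℕ := (A.image (fun p : Fin (2 ^ k) => (p : ℕ) / 2 ^ i)).card

/-- normalised sum of block variances at level `i` -/
def Vb {k : ℕ} (i : ℕ) (f : (Fin (2 ^ k) → Bool) → ℝ) : ℝ :=
  ∑ A : Finset (Fin (2 ^ k)), (fc f A) ^ 2 * (Nb i A : ℝ)

/-- `j` is bad for `A`. -/
def Bad {k : ℕ} (i s j : ℕ) (A : Finset (Fin (2 ^ k))) : Prop :=
  (∃ p ∈ A, (p : ℕ) / 2 ^ (i + 1) = j) ∧
  (¬ ∀ p ∈ A, (p : ℕ) / 2 ^ (i + s) = j / 2 ^ (s - 1) → (p : ℕ) / 2 ^ i = 2 * j) ∧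
  (¬ ∀ p ∈ A, (p : ℕ) / 2 ^ (i + s) = j / 2 ^ (s - 1) → (p : ℕ) / 2 ^ i = 2 * j + 1)

lemma div_pow_add (p a b : ℕ) : p / 2 ^ (a + b) = p / 2 ^ a / 2 ^ b := by
  rw [pow_add, Nat.div_div_eq_div_mul]

lemma card_bad_le {k i s : ℕ} (hs : 1 ≤ s) (A : Finset (Fin (2 ^ k))) (t : Finset ℕ)
    [DecidablePred fun j => Bad i s j A] :
    (t.filter (fun j => Bad i s j A)).card + 2 * Nb (i + s) A ≤ 2 * Nb i A := by
  classical
  set S : Finset ℕ := A.image (fun p : Fin (2 ^ k) => (p : ℕ) / 2 ^ i) with hS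
  have hN : Nb (i + s) A = (S.image (fun q => q / 2 ^ s)).card := by
    unfold Nb
    rw [hS, Finset.image_image]
    congr 1
    apply Finset.image_congr
    intro p _
    simp only [Function.comp]
    rw [div_pow_add]
  have hN' : Nb i A = S.card := rfl
  rw [hN, hN']
  refine le_trans ?_ (card_multi_le S (fun q => q / 2 ^ s))
  apply Nat.add_le_add_right
  -- injection from bad j to multi q
  have hex : ∀ j ∈ t.filter (fun j => Bad i s j A), ∃ q ∈ S.filter (fun q => ∃ q' ∈ S, q' ≠ q ∧ q' / 2 ^ s = q / 2 ^ s), q / 2 = j := by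
    intro j hj
    rw [Finset.mem_filter] at hj
    obtain ⟨-, ⟨p, hpA, hpj⟩, hL, hR⟩ := hj
    have hpi : (p : ℕ) / 2 ^ i / 2 = j := by
      rw [← hpj, div_pow_add, pow_one]
    have hJ : ((p : ℕ) / 2 ^ i) / 2 ^ s = j / 2 ^ (s - 1) := by
      rw [← hpi, Nat.div_div_eq_div_mul ((p : ℕ) / 2 ^ i) 2, ← pow_succ', Nat.sub_add_cancel hs]
    have hcase : (p : ℕ) / 2 ^ i = 2 * j ∨ (p : ℕ) / 2 ^ i = 2 * j + 1 := by omega
    refine ⟨(p : ℕ) / 2 ^ i, ?_, hpi⟩
    rw [Finset.mem_filter]
    refine ⟨Finset.mem_image_of_mem _ hpA, ?_⟩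
    rcases hcase with hc | hc
    · push Not at hL
      obtain ⟨p', hp'A, hp'J, hp'ne⟩ := hL
      refine ⟨(p' : ℕ) / 2 ^ i, Finset.mem_image_of_mem _ hp'A, ?_, ?_⟩
      · rw [hc]; exact hp'ne
      · rw [hJ, ← hp'J, div_pow_add]
    · push Not at hR
      obtain ⟨p', hp'A, hp'J, hp'ne⟩ := hR
      refine ⟨(p' : ℕ) / 2 ^ i, Finset.mem_image_of_mem _ hp'A, ?_, ?_⟩
      · rw [hc]; exact hp'ne
      · rw [hJ, ← hp'J, div_pow_add]
  choose! q hq hqj using hex
  apply Finset.card_le_card_of_injOn q hq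
  intro a ha b hb hab
  rw [← hqj a ha, ← hqj b hb, hab]

/-- the half-swap of the level-`i+1` block `j` -/
def swp (k i j : ℕ) : Equiv.Perm (Fin (2 ^ k)) := rho k (i + 1) j (2 ^ i)

lemma two_pow_succ_sub (i : ℕ) : 2 ^ (i + 1) - 2 ^ i = 2 ^ i := by
  rw [pow_succ]; omega

lemma swp_symm {k i j : ℕ} (hi : i + 1 ≤ k) : (swp k i j).symm = swp k i j := by
  ext p
  have h2 : 2 ^ i ≤ 2 ^ (i + 1) := Nat.pow_le_pow_right (by norm_num) (Nat.le_succ i)
  unfold swp
  rw [rho_symm_apply hi h2, rho_apply hi h2, two_pow_succ_sub]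

lemma rhoN_swap_left {i j p : ℕ} (h : p / 2 ^ i = 2 * j) : rhoN (i + 1) j (2 ^ i) p = p + 2 ^ i := by
  have hj : p / 2 ^ (i + 1) = j := by rw [div_pow_add, pow_one, h]; omega
  rw [rhoN_of_eq hj]
  have hp : p = 2 ^ i * (2 * j) + p % 2 ^ i := by rw [← h, Nat.div_add_mod]
  have hmod : p % 2 ^ (i + 1) = p % 2 ^ i := by
    have h1 := Nat.div_add_mod p (2 ^ (i + 1))
    rw [hj] at h1
    have h2 : 2 ^ (i + 1) * j = 2 ^ i * (2 * j) := by rw [pow_succ]; ring
    omega
  have hlt : p % 2 ^ i < 2 ^ i := Nat.mod_lt _ (by positivity)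
  have h3 : 2 ^ (i + 1) = 2 ^ i + 2 ^ i := by rw [pow_succ]; ring
  rw [hmod, Nat.mod_eq_of_lt (by omega)]
  have h2 : 2 ^ (i + 1) * j = 2 ^ i * (2 * j) := by rw [pow_succ]; ring
  (clear * - hp h2; omega)

lemma rhoN_swap_right {i j p : ℕ} (h : p / 2 ^ i = 2 * j + 1) :
    rhoN (i + 1) j (2 ^ i) p + 2 ^ i = p := by
  have hj : p / 2 ^ (i + 1) = j := by rw [div_pow_add, pow_one, h]; omega
  rw [rhoN_of_eq hj]
  have hp : p = 2 ^ i * (2 * j + 1) + p % 2 ^ i := by rw [← h, Nat.div_add_mod]
  have h2 : 2 ^ (i + 1) * j = 2 ^ i * (2 * j) := by rw [pow_succ]; ring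
  have h4 : 2 ^ i * (2 * j + 1) = 2 ^ i * (2 * j) + 2 ^ i := by ring
  have hlt : p % 2 ^ i < 2 ^ i := Nat.mod_lt _ (by positivity)
  have hmod : p % 2 ^ (i + 1) = p % 2 ^ i + 2 ^ i := by
    have h1 := Nat.div_add_mod p (2 ^ (i + 1))
    rw [hj] at h1
    omega
  have h3 : 2 ^ (i + 1) = 2 ^ i + 2 ^ i := by rw [pow_succ]; ring
  have h5 : (p % 2 ^ i + 2 ^ i + 2 ^ i) % 2 ^ (i + 1) = p % 2 ^ i := by
    rw [add_assoc, ← h3, Nat.add_mod_right, Nat.mod_eq_of_lt (by omega)]
  rw [hmod, h5]
  (clear * - hp h2 h4; omega)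

/-- a rotation of a level-`l` block by `2 ^ i` moves a point which is not in the last
level-`i` subblock by `+ 2 ^ i`. -/
lemma rhoN_add {l i J p : ℕ} (hJ : p / 2 ^ l = J) (hlt : p % 2 ^ l + 2 ^ i < 2 ^ l) :
    rhoN l J (2 ^ i) p = p + 2 ^ i := by
  rw [rhoN_of_eq hJ, Nat.mod_eq_of_lt hlt, ← hJ]
  have := Nat.div_add_mod p (2 ^ l)
  omega

lemma rhoN_sub {l i J p : ℕ} (hJ : p / 2 ^ l = J) (hil : 2 ^ i ≤ 2 ^ l) (hlt : 2 ^ i ≤ p % 2 ^ l) :
    rhoN l J (2 ^ l - 2 ^ i) p + 2 ^ i = p := by
  rw [rhoN_of_eq hJ]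
  have h0 : p % 2 ^ l < 2 ^ l := Nat.mod_lt _ (by positivity)
  have h1 : p % 2 ^ l + (2 ^ l - 2 ^ i) = (p % 2 ^ l - 2 ^ i) + 2 ^ l := by
    generalize p % 2 ^ l = c at *
    generalize 2 ^ l = a at *
    generalize 2 ^ i = b at *
    omega
  rw [h1, Nat.add_mod_right, Nat.mod_eq_of_lt (lt_of_le_of_lt (Nat.sub_le _ _) h0), ← hJ]
  have := Nat.div_add_mod p (2 ^ l)
  generalize p % 2 ^ l = c at *
  generalize 2 ^ l * (p / 2 ^ l) = a at *
  generalize 2 ^ i = b at *
  omega

lemma mod_pow_add (p i s : ℕ) : p % 2 ^ (i + s) = p % 2 ^ i + 2 ^ i * (p / 2 ^ i % 2 ^ s) := by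
  rw [pow_add, Nat.mod_mul]

lemma even_mod_pow {j s : ℕ} (hs : 1 ≤ s) : 2 * j % 2 ^ s + 2 ≤ 2 ^ s := by
  obtain ⟨t, rfl⟩ : ∃ t, s = t + 1 := ⟨s - 1, by omega⟩
  have h1 : 2 * j % 2 ^ (t + 1) = 2 * (j % 2 ^ t) := by
    rw [pow_succ', Nat.mul_mod_mul_left]
  have h2 : j % 2 ^ t < 2 ^ t := Nat.mod_lt _ (by positivity)
  rw [h1, pow_succ']
  omega

lemma odd_mod_pow {j s : ℕ} (hs : 1 ≤ s) : 1 ≤ (2 * j + 1) % 2 ^ s := by
  obtain ⟨t, rfl⟩ : ∃ t, s = t + 1 := ⟨s - 1, by omega⟩
  by_contra h
  have h0 : (2 * j + 1) % 2 ^ (t + 1) = 0 := by omega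
  have h1 : 2 ∣ 2 * j + 1 := (dvd_pow_self 2 (Nat.succ_ne_zero t)).trans (Nat.dvd_of_mod_eq_zero h0)
  omega

lemma swap_eq_left {l i s j p : ℕ} (hs : 1 ≤ s) (hl : l = i + s)
    (hL : p / 2 ^ l = j / 2 ^ (s - 1) → p / 2 ^ i = 2 * j) :
    rhoN (i + 1) j (2 ^ i) p = rhoN l (j / 2 ^ (s - 1)) (2 ^ i) p := by
  subst hl
  by_cases hJ : p / 2 ^ (i + s) = j / 2 ^ (s - 1)
  · have hp := hL hJ
    rw [rhoN_swap_left hp]
    rw [rhoN_add hJ]
    rw [mod_pow_add, hp]
    have h1 := even_mod_pow (j := j) hs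
    have h2 : p % 2 ^ i < 2 ^ i := Nat.mod_lt _ (by positivity)
    have h3 : 2 ^ i * (2 * j % 2 ^ s) + 2 ^ i * 2 ≤ 2 ^ (i + s) := by
      rw [← mul_add, pow_add]
      exact Nat.mul_le_mul_left _ h1
    generalize 2 ^ i * (2 * j % 2 ^ s) = a at *
    generalize 2 ^ (i + s) = b at *
    generalize p % 2 ^ i = c at *
    generalize 2 ^ i = d at *
    omega
  · have h1 : p / 2 ^ (i + 1) ≠ j := by
      intro h
      apply hJ
      rw [← h, div_pow_add p i s, div_pow_add p i 1, Nat.div_div_eq_div_mul (p / 2 ^ i), pow_one,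
        ← pow_succ', Nat.sub_add_cancel hs]
    rw [rhoN_of_ne h1, rhoN_of_ne hJ]

lemma swap_eq_right {l i s j p : ℕ} (hs : 1 ≤ s) (hl : l = i + s)
    (hR : p / 2 ^ l = j / 2 ^ (s - 1) → p / 2 ^ i = 2 * j + 1) :
    rhoN (i + 1) j (2 ^ i) p = rhoN l (j / 2 ^ (s - 1)) (2 ^ l - 2 ^ i) p := by
  subst hl
  by_cases hJ : p / 2 ^ (i + s) = j / 2 ^ (s - 1)
  · have hp := hR hJ
    have h0 := rhoN_swap_right hp
    have h4 : 2 ^ i ≤ p % 2 ^ (i + s) := by
      rw [mod_pow_add, hp]
      have h1 := odd_mod_pow (j := j) hs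
      have h3 : 2 ^ i * 1 ≤ 2 ^ i * ((2 * j + 1) % 2 ^ s) := Nat.mul_le_mul_left _ h1
      omega
    have h5 := rhoN_sub hJ (Nat.pow_le_pow_right (by norm_num) (Nat.le_add_right i s)) h4
    omega
  · have h1 : p / 2 ^ (i + 1) ≠ j := by
      intro h
      apply hJ
      rw [← h, div_pow_add p i s, div_pow_add p i 1, Nat.div_div_eq_div_mul (p / 2 ^ i), pow_one,
        ← pow_succ', Nat.sub_add_cancel hs]
    rw [rhoN_of_ne h1, rhoN_of_ne hJ]

lemma map_congr_emb {k : ℕ} {A : Finset (Fin (2 ^ k))} {σ τ : Equiv.Perm (Fin (2 ^ k))}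
    (h : ∀ p ∈ A, σ p = τ p) : A.map σ.toEmbedding = A.map τ.toEmbedding := by
  ext q
  simp only [Finset.mem_map, Equiv.coe_toEmbedding]
  constructor
  · rintro ⟨p, hp, rfl⟩; exact ⟨p, hp, (h p hp).symm⟩
  · rintro ⟨p, hp, rfl⟩; exact ⟨p, hp, h p hp⟩

/-- if no element of `A` lies in block `j`, the swap does not move `A`. -/
lemma swp_map_of_not_hit {k i j : ℕ} (hi : i + 1 ≤ k) {A : Finset (Fin (2 ^ k))}
    (h : ¬ ∃ p ∈ A, (p : ℕ) / 2 ^ (i + 1) = j) : A.map (swp k i j).toEmbedding = A := by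
  have h2 : 2 ^ i ≤ 2 ^ (i + 1) := Nat.pow_le_pow_right (by norm_num) (Nat.le_succ i)
  have : A.map (swp k i j).toEmbedding = A.map (Equiv.refl _ : Equiv.Perm (Fin (2 ^ k))).toEmbedding := by
    apply map_congr_emb
    intro p hp
    apply Fin.ext
    have : (p : ℕ) / 2 ^ (i + 1) ≠ j := fun e => h ⟨p, hp, e⟩
    unfold swp
    rw [rho_apply hi h2, rhoN_of_ne this]
    rfl
  rw [this]
  ext q
  simp

lemma bad_swp {k i s j : ℕ} (hs : 1 ≤ s) (hi : i + 1 ≤ k) {A : Finset (Fin (2 ^ k))}
    (h : Bad i s j A) : Bad i s j (A.map (swp k i j).toEmbedding) := by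
  have h2 : 2 ^ i ≤ 2 ^ (i + 1) := Nat.pow_le_pow_right (by norm_num) (Nat.le_succ i)
  have hJ : ∀ p : Fin (2 ^ k), ((swp k i j p : Fin (2 ^ k)) : ℕ) / 2 ^ (i + s) = (p : ℕ) / 2 ^ (i + s) := by
    intro p
    have e : i + s = (i + 1) + (s - 1) := by omega
    unfold swp
    rw [rho_apply hi h2, e, div_pow_add, rhoN_div, ← div_pow_add]
  have hout : ∀ p : Fin (2 ^ k), (p : ℕ) / 2 ^ (i + 1) ≠ j → swp k i j p = p := by
    intro p hp
    apply Fin.ext
    unfold swp
    rw [rho_apply hi h2, rhoN_of_ne hp]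
  have hleft : ∀ p : Fin (2 ^ k), (p : ℕ) / 2 ^ i = 2 * j → ((swp k i j p : Fin (2 ^ k)) : ℕ) / 2 ^ i = 2 * j + 1 := by
    intro p hp
    unfold swp
    rw [rho_apply hi h2, rhoN_swap_left hp, Nat.add_div_right _ (by positivity), hp]
  have hright : ∀ p : Fin (2 ^ k), (p : ℕ) / 2 ^ i = 2 * j + 1 → ((swp k i j p : Fin (2 ^ k)) : ℕ) / 2 ^ i = 2 * j := by
    intro p hp
    have h3 := rhoN_swap_right hp
    have h4 : (rhoN (i + 1) j (2 ^ i) (p : ℕ) + 2 ^ i) / 2 ^ i = 2 * j + 1 := by rw [h3, hp]
    rw [Nat.add_div_right _ (by positivity)] at h4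
    unfold swp
    rw [rho_apply hi h2]
    omega
  have hcase : ∀ p : Fin (2 ^ k), (p : ℕ) / 2 ^ (i + 1) = j → (p : ℕ) / 2 ^ i = 2 * j ∨ (p : ℕ) / 2 ^ i = 2 * j + 1 := by
    intro p hp
    rw [div_pow_add, pow_one] at hp
    omega
  obtain ⟨⟨p, hp, hpj⟩, hL, hR⟩ := h
  refine ⟨⟨swp k i j p, Finset.mem_map_of_mem _ hp, ?_⟩, ?_, ?_⟩
  · unfold swp
    rw [rho_apply hi h2, rhoN_div, hpj]
  · intro hL'
    apply hR
    intro q hq hqJ
    have h5 := hL' (swp k i j q) (Finset.mem_map_of_mem _ hq) (by rw [hJ]; exact hqJ)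
    by_cases hqj : (q : ℕ) / 2 ^ (i + 1) = j
    · rcases hcase q hqj with h6 | h6
      · rw [hleft q h6] at h5; omega
      · exact h6
    · rw [hout q hqj] at h5
      exfalso; apply hqj
      rw [div_pow_add, pow_one, h5]; omega
  · intro hR'
    apply hL
    intro q hq hqJ
    have h5 := hR' (swp k i j q) (Finset.mem_map_of_mem _ hq) (by rw [hJ]; exact hqJ)
    by_cases hqj : (q : ℕ) / 2 ^ (i + 1) = j
    · rcases hcase q hqj with h6 | h6
      · exact h6
      · rw [hright q h6] at h5; omega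
    · rw [hout q hqj] at h5
      exfalso; apply hqj
      rw [div_pow_add, pow_one, h5]; omega

lemma swp_swp {k i j : ℕ} (hi : i + 1 ≤ k) (A : Finset (Fin (2 ^ k))) :
    (A.map (swp k i j).toEmbedding).map (swp k i j).toEmbedding = A := by
  rw [Finset.map_map]
  have : (swp k i j).toEmbedding.trans (swp k i j).toEmbedding = (Equiv.refl (Fin (2 ^ k))).toEmbedding := by
    ext p
    have := (swp k i j).symm_apply_apply p
    rw [swp_symm hi] at this
    simp [this]
  rw [this]
  ext q; simp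

/-- **Scale inequality.** -/
theorem scale_ineq {k i s : ℕ} (hs : 1 ≤ s) (his : i + s ≤ k) (f : (Fin (2 ^ k) → Bool) → ℝ) :
    ∑ j ∈ range (2 ^ (k - (i + 1))), ex (fun x => (f x - f (x ∘ rho k (i + 1) j (2 ^ i))) ^ 2)
    ≤ ∑ J ∈ range (2 ^ (k - (i + s))),
        (ex (fun x => (f x - f (x ∘ rho k (i + s) J (2 ^ i))) ^ 2)
          + ex (fun x => (f x - f (x ∘ rho k (i + s) J (2 ^ (i + s) - 2 ^ i))) ^ 2))
      + 8 * (Vb i f - Vb (i + s) f) := by
  classical
  have hi : i + 1 ≤ k := by omega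
  have h2 : 2 ^ i ≤ 2 ^ (i + 1) := Nat.pow_le_pow_right (by norm_num) (Nat.le_succ i)
  have h2s : 2 ^ i ≤ 2 ^ (i + s) := Nat.pow_le_pow_right (by norm_num) (Nat.le_add_right i s)
  set a : Finset (Fin (2 ^ k)) → ℝ := fc f with ha
  set D1 : ℕ → Finset (Fin (2 ^ k)) → ℝ := fun J A =>
    (a A - a (A.map (rho k (i + s) J (2 ^ i)).symm.toEmbedding)) ^ 2 with hD1
  set D2 : ℕ → Finset (Fin (2 ^ k)) → ℝ := fun J A =>
    (a A - a (A.map (rho k (i + s) J (2 ^ (i + s) - 2 ^ i)).symm.toEmbedding)) ^ 2 with hD2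
  set t : ℕ → Finset (Fin (2 ^ k)) → ℝ := fun j A =>
    (a A - a (A.map (swp k i j).toEmbedding)) ^ 2 with ht
  have hD1n : ∀ J A, 0 ≤ D1 J A := fun J A => sq_nonneg _
  have hD2n : ∀ J A, 0 ≤ D2 J A := fun J A => sq_nonneg _
  -- Fourier expansions
  have e1 : ∀ j, ex (fun x => (f x - f (x ∘ rho k (i + 1) j (2 ^ i))) ^ 2) = ∑ A, t j A := by
    intro j
    rw [ex_sub_perm_sq]
    apply Finset.sum_congr rfl
    intro A _
    have : (rho k (i + 1) j (2 ^ i)).symm = swp k i j := swp_symm hi
    rw [this]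
  have e2 : ∀ J, ex (fun x => (f x - f (x ∘ rho k (i + s) J (2 ^ i))) ^ 2) = ∑ A, D1 J A :=
    fun J => ex_sub_perm_sq _ _
  have e3 : ∀ J, ex (fun x => (f x - f (x ∘ rho k (i + s) J (2 ^ (i + s) - 2 ^ i))) ^ 2) = ∑ A, D2 J A :=
    fun J => ex_sub_perm_sq _ _
  simp only [e1, e2, e3]
  set rg := range (2 ^ (k - (i + 1))) with hrg
  set rG := range (2 ^ (k - (i + s))) with hrG
  -- pointwise bound
  set hit : ℕ → Finset (Fin (2 ^ k)) → Prop := fun j A => ∃ p ∈ A, (p : ℕ) / 2 ^ (i + 1) = j with hhit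
  have hpt : ∀ j A, t j A ≤
      (if hit j A ∧ ¬ Bad i s j A then D1 (j / 2 ^ (s - 1)) A + D2 (j / 2 ^ (s - 1)) A else 0)
      + (if Bad i s j A then 2 * (a A) ^ 2 + 2 * (a (A.map (swp k i j).toEmbedding)) ^ 2 else 0) := by
    intro j A
    by_cases hB : Bad i s j A
    · rw [if_neg (by (clear * - hB; tauto)), if_pos hB, zero_add]
      have := sq_nonneg (a A + a (A.map (swp k i j).toEmbedding))
      simp only [ht]
      linarith
    · rw [if_neg hB, add_zero]
      by_cases hh : hit j A
      · rw [if_pos ⟨hh, hB⟩]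
        have hB' : (∀ p ∈ A, (p : ℕ) / 2 ^ (i + s) = j / 2 ^ (s - 1) → (p : ℕ) / 2 ^ i = 2 * j) ∨
          (∀ p ∈ A, (p : ℕ) / 2 ^ (i + s) = j / 2 ^ (s - 1) → (p : ℕ) / 2 ^ i = 2 * j + 1) := by
          by_contra hc
          rw [not_or] at hc
          exact hB ⟨hh, hc.1, hc.2⟩
        rcases hB' with hL | hR
        · have : t j A = D2 (j / 2 ^ (s - 1)) A := by
            simp only [ht, hD2]
            congr 3
            apply map_congr_emb
            intro p hp
            apply Fin.ext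
            unfold swp
            rw [rho_apply hi h2, rho_symm_apply his (Nat.sub_le _ _), Nat.sub_sub_self h2s]
            exact swap_eq_left hs rfl (hL p hp)
          rw [this]
          linarith only [hD1n (j / 2 ^ (s - 1)) A]
        · have : t j A = D1 (j / 2 ^ (s - 1)) A := by
            simp only [ht, hD1]
            congr 3
            apply map_congr_emb
            intro p hp
            apply Fin.ext
            unfold swp
            rw [rho_apply hi h2, rho_symm_apply his h2s]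
            exact swap_eq_right hs rfl (hR p hp)
          rw [this]
          linarith only [hD2n (j / 2 ^ (s - 1)) A]
      · rw [if_neg (fun h => hh h.1)]
        simp only [ht]
        rw [swp_map_of_not_hit hi hh]
        simp
  -- sum of the first part over j
  have hfirst : ∀ A, ∑ j ∈ rg, (if hit j A ∧ ¬ Bad i s j A then D1 (j / 2 ^ (s - 1)) A + D2 (j / 2 ^ (s - 1)) A else 0)
      ≤ ∑ J ∈ rG, (D1 J A + D2 J A) := by
    intro A
    rw [← Finset.sum_filter]
    set U := rg.filter (fun j => hit j A ∧ ¬ Bad i s j A) with hU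
    have hinj : Set.InjOn (fun j => j / 2 ^ (s - 1)) (U : Set ℕ) := by
      intro j1 hj1 j2 hj2 he
      simp only [hU, Finset.coe_filter, Set.mem_ofPred_eq] at hj1 hj2
      obtain ⟨-, ⟨p1, hp1, hp1j⟩, hB1⟩ := hj1
      obtain ⟨-, ⟨p2, hp2, hp2j⟩, hB2⟩ := hj2
      simp only at he
      have hB' : (∀ p ∈ A, (p : ℕ) / 2 ^ (i + s) = j1 / 2 ^ (s - 1) → (p : ℕ) / 2 ^ i = 2 * j1) ∨
          (∀ p ∈ A, (p : ℕ) / 2 ^ (i + s) = j1 / 2 ^ (s - 1) → (p : ℕ) / 2 ^ i = 2 * j1 + 1) := by
        by_contra hc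
        rw [not_or] at hc
        exact hB1 ⟨⟨p1, hp1, hp1j⟩, hc.1, hc.2⟩
      have hp2J : (p2 : ℕ) / 2 ^ (i + s) = j1 / 2 ^ (s - 1) := by
        have e : i + s = (i + 1) + (s - 1) := by omega
        rw [he, e, div_pow_add, hp2j]
      have hp2j' : (p2 : ℕ) / 2 ^ i / 2 = j2 := by rw [← hp2j, div_pow_add, pow_one]
      rcases hB' with hL | hR
      · have := hL p2 hp2 hp2J
        omega
      · have := hR p2 hp2 hp2J
        omega
    have himg : U.image (fun j => j / 2 ^ (s - 1)) ⊆ rG := by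
      intro J hJ
      obtain ⟨j, hj, rfl⟩ := Finset.mem_image.mp hJ
      have hj' : j < 2 ^ (k - (i + 1)) := Finset.mem_range.mp (Finset.mem_filter.mp hj).1
      rw [hrG, Finset.mem_range, Nat.div_lt_iff_lt_mul (by positivity), ← pow_add]
      have e : k - (i + s) + (s - 1) = k - (i + 1) := by omega
      rw [e]; exact hj'
    calc ∑ j ∈ U, (D1 (j / 2 ^ (s - 1)) A + D2 (j / 2 ^ (s - 1)) A)
        = ∑ J ∈ U.image (fun j => j / 2 ^ (s - 1)), (D1 J A + D2 J A) := by
          rw [Finset.sum_image (fun x hx y hy h => hinj hx hy h)]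
      _ ≤ ∑ J ∈ rG, (D1 J A + D2 J A) :=
          Finset.sum_le_sum_of_subset_of_nonneg himg (fun J _ _ => add_nonneg (hD1n J A) (hD2n J A))
  -- sum of the second part
  have hsecond : ∑ A, ∑ j ∈ rg, (if Bad i s j A then 2 * (a A) ^ 2 + 2 * (a (A.map (swp k i j).toEmbedding)) ^ 2 else 0)
      ≤ 8 * (Vb i f - Vb (i + s) f) := by
    have hbij : ∀ j, ∑ A : Finset (Fin (2 ^ k)), (if Bad i s j A then (a (A.map (swp k i j).toEmbedding)) ^ 2 else 0)
        = ∑ A : Finset (Fin (2 ^ k)), (if Bad i s j A then (a A) ^ 2 else 0) := by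
      intro j
      refine Finset.sum_nbij' (fun A => A.map (swp k i j).toEmbedding) (fun A => A.map (swp k i j).toEmbedding) ?_ ?_ ?_ ?_ ?_
      · intro A _; exact Finset.mem_univ _
      · intro A _; exact Finset.mem_univ _
      · intro A _; exact swp_swp hi A
      · intro A _; exact swp_swp hi A
      · intro A _
        have : Bad i s j A ↔ Bad i s j (A.map (swp k i j).toEmbedding) := by
          constructor
          · exact bad_swp hs hi
          · intro h
            have := bad_swp hs hi h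
            rwa [swp_swp hi A] at this
        by_cases h : Bad i s j A
        · rw [if_pos h, if_pos (this.mp h)]
        · rw [if_neg h, if_neg (fun h' => h (this.mpr h'))]
    have hs1 : ∀ j, ∑ A : Finset (Fin (2 ^ k)), (if Bad i s j A then 2 * (a A) ^ 2 + 2 * (a (A.map (swp k i j).toEmbedding)) ^ 2 else 0)
        = ∑ A : Finset (Fin (2 ^ k)), (if Bad i s j A then 4 * (a A) ^ 2 else 0) := by
      intro j
      have e : ∀ A : Finset (Fin (2 ^ k)), (if Bad i s j A then 2 * (a A) ^ 2 + 2 * (a (A.map (swp k i j).toEmbedding)) ^ 2 else 0)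
        = 2 * (if Bad i s j A then (a A) ^ 2 else 0) + 2 * (if Bad i s j A then (a (A.map (swp k i j).toEmbedding)) ^ 2 else 0) := by
        intro A; split_ifs <;> ring
      rw [Finset.sum_congr rfl (fun A _ => e A), Finset.sum_add_distrib, ← Finset.mul_sum, ← Finset.mul_sum,
        hbij j, ← add_mul, Finset.mul_sum]
      apply Finset.sum_congr rfl
      intro A _
      split_ifs <;> ring
    rw [Finset.sum_comm, Finset.sum_congr rfl (fun j _ => hs1 j), Finset.sum_comm]
    have hs2 : ∀ A : Finset (Fin (2 ^ k)), ∑ j ∈ rg, (if Bad i s j A then 4 * (a A) ^ 2 else 0)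
        ≤ 8 * ((a A) ^ 2 * (Nb i A : ℝ) - (a A) ^ 2 * (Nb (i + s) A : ℝ)) := by
      intro A
      rw [← Finset.sum_filter, Finset.sum_const, nsmul_eq_mul]
      have h := card_bad_le (k := k) (i := i) (s := s) hs A rg
      have h' : ((rg.filter (fun j => Bad i s j A)).card : ℝ) + 2 * (Nb (i + s) A : ℝ) ≤ 2 * (Nb i A : ℝ) := by
        exact_mod_cast h
      nlinarith only [h']
    calc ∑ A : Finset (Fin (2 ^ k)), ∑ j ∈ rg, (if Bad i s j A then 4 * (a A) ^ 2 else 0)
        ≤ ∑ A : Finset (Fin (2 ^ k)), 8 * ((a A) ^ 2 * (Nb i A : ℝ) - (a A) ^ 2 * (Nb (i + s) A : ℝ)) :=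
          Finset.sum_le_sum (fun A _ => hs2 A)
      _ = 8 * (Vb i f - Vb (i + s) f) := by
          unfold Vb
          rw [← Finset.mul_sum, Finset.sum_sub_distrib]
  calc ∑ j ∈ rg, ∑ A, t j A
      ≤ ∑ j ∈ rg, ∑ A, ((if hit j A ∧ ¬ Bad i s j A then D1 (j / 2 ^ (s - 1)) A + D2 (j / 2 ^ (s - 1)) A else 0)
      + (if Bad i s j A then 2 * (a A) ^ 2 + 2 * (a (A.map (swp k i j).toEmbedding)) ^ 2 else 0)) :=
        Finset.sum_le_sum (fun j _ => Finset.sum_le_sum (fun A _ => hpt j A))
    _ = ∑ A, ∑ j ∈ rg, (if hit j A ∧ ¬ Bad i s j A then D1 (j / 2 ^ (s - 1)) A + D2 (j / 2 ^ (s - 1)) A else 0)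
        + ∑ A, ∑ j ∈ rg, (if Bad i s j A then 2 * (a A) ^ 2 + 2 * (a (A.map (swp k i j).toEmbedding)) ^ 2 else 0) := by
        rw [Finset.sum_comm, ← Finset.sum_add_distrib]
        apply Finset.sum_congr rfl
        intro A _
        rw [Finset.sum_add_distrib]
    _ ≤ ∑ A, ∑ J ∈ rG, (D1 J A + D2 J A) + 8 * (Vb i f - Vb (i + s) f) :=
        add_le_add (Finset.sum_le_sum (fun A _ => hfirst A)) hsecond
    _ = ∑ J ∈ rG, (∑ A, D1 J A + ∑ A, D2 J A) + 8 * (Vb i f - Vb (i + s) f) := by
        rw [Finset.sum_comm]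
        congr 1
        apply Finset.sum_congr rfl
        intro J _
        rw [Finset.sum_add_distrib]

end

end Vale.Agent.P238
end
end

section

section

set_option linter.unusedSectionVars false

namespace Vale.Agent.P238

open Finset

noncomputable section

/-- replace the content of the level-`i` block `j` of `x` by `w` -/
def upd {k : ℕ} (i j : ℕ) (x : Fin (2 ^ k) → Bool) (w : Fin (2 ^ i) → Bool) : Fin (2 ^ k) → Bool :=
  fun p => if (p : ℕ) / 2 ^ i = j then w ⟨(p : ℕ) % 2 ^ i, Nat.mod_lt _ (by positivity)⟩ else x p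

/-- position number `q` of the level-`i` block `j` (junk if out of range) -/
def pos (k i j : ℕ) (q : Fin (2 ^ i)) : Fin (2 ^ k) :=
  if h : 2 ^ i * j + (q : ℕ) < 2 ^ k then ⟨2 ^ i * j + q, h⟩ else ⟨0, by positivity⟩

lemma pos_lt {k i j : ℕ} (hi : i ≤ k) (hj : j < 2 ^ (k - i)) (q : Fin (2 ^ i)) :
    2 ^ i * j + (q : ℕ) < 2 ^ k := by
  have h1 : 2 ^ i * (j + 1) ≤ 2 ^ k := by
    calc 2 ^ i * (j + 1) ≤ 2 ^ i * 2 ^ (k - i) := Nat.mul_le_mul_left _ hj
      _ = 2 ^ k := by rw [← pow_add, Nat.add_sub_cancel' hi]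
  have := q.2
  calc 2 ^ i * j + (q : ℕ) < 2 ^ i * j + 2 ^ i := by omega
    _ = 2 ^ i * (j + 1) := by ring
    _ ≤ 2 ^ k := h1

lemma pos_val {k i j : ℕ} (hi : i ≤ k) (hj : j < 2 ^ (k - i)) (q : Fin (2 ^ i)) :
    (pos k i j q : ℕ) = 2 ^ i * j + q := by
  simp [pos, pos_lt hi hj q]

lemma pos_div {k i j : ℕ} (hi : i ≤ k) (hj : j < 2 ^ (k - i)) (q : Fin (2 ^ i)) :
    (pos k i j q : ℕ) / 2 ^ i = j := by
  rw [pos_val hi hj, Nat.mul_add_div (by positivity), Nat.div_eq_of_lt q.2, add_zero]

lemma pos_mod {k i j : ℕ} (hi : i ≤ k) (hj : j < 2 ^ (k - i)) (q : Fin (2 ^ i)) :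
    (pos k i j q : ℕ) % 2 ^ i = q := by
  rw [pos_val hi hj, Nat.mul_add_mod, Nat.mod_eq_of_lt q.2]

/-- content of the level-`i` block `j` -/
def blk {k : ℕ} (i j : ℕ) (x : Fin (2 ^ k) → Bool) : Fin (2 ^ i) → Bool := fun q => x (pos k i j q)

lemma blk_upd {k i j : ℕ} (hi : i ≤ k) (hj : j < 2 ^ (k - i)) (x : Fin (2 ^ k) → Bool)
    (w : Fin (2 ^ i) → Bool) : blk i j (upd i j x w) = w := by
  funext q
  unfold blk upd
  rw [if_pos (pos_div hi hj q)]
  congr 1
  apply Fin.ext
  exact pos_mod hi hj q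

lemma pos_of_div {k i j : ℕ} (hi : i ≤ k) (p : Fin (2 ^ k)) (h : (p : ℕ) / 2 ^ i = j) :
    pos k i j ⟨(p : ℕ) % 2 ^ i, Nat.mod_lt _ (by positivity)⟩ = p := by
  have hj : j < 2 ^ (k - i) := by
    rw [← h, Nat.div_lt_iff_lt_mul (by positivity), ← pow_add, Nat.sub_add_cancel hi]
    exact p.2
  apply Fin.ext
  rw [pos_val hi hj, ← h]
  exact Nat.div_add_mod _ _

lemma upd_upd_blk {k i j : ℕ} (hi : i ≤ k) (x : Fin (2 ^ k) → Bool)
    (w : Fin (2 ^ i) → Bool) : upd i j (upd i j x w) (blk i j x) = x := by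
  funext p
  unfold upd
  by_cases h : (p : ℕ) / 2 ^ i = j
  · rw [if_pos h]
    unfold blk
    rw [pos_of_div hi p h]
  · rw [if_neg h, if_neg h]

/-- the measure preserving exchange of block content -/
def exch {k i j : ℕ} (hi : i ≤ k) (hj : j < 2 ^ (k - i)) :
    ((Fin (2 ^ k) → Bool) × (Fin (2 ^ i) → Bool)) ≃ ((Fin (2 ^ k) → Bool) × (Fin (2 ^ i) → Bool)) where
  toFun y := (upd i j y.1 y.2, blk i j y.1)
  invFun y := (upd i j y.1 y.2, blk i j y.1)
  left_inv := fun y => by
    simp only [blk_upd hi hj, upd_upd_blk hi]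
  right_inv := fun y => by
    simp only [blk_upd hi hj, upd_upd_blk hi]

lemma ex_upd {k i j : ℕ} (hi : i ≤ k) (hj : j < 2 ^ (k - i)) (F : (Fin (2 ^ k) → Bool) → ℝ) :
    ex (fun x => ex (fun w : Fin (2 ^ i) → Bool => F (upd i j x w))) = ex F := by
  have h1 := ex_equiv (exch hi hj) (fun y : (Fin (2 ^ k) → Bool) × (Fin (2 ^ i) → Bool) => F y.1)
  rw [ex_prod, ex_prod] at h1
  simp only [exch, Equiv.coe_fn_mk] at h1
  rw [h1]
  apply ex_congr
  intro x
  rw [ex_const]

lemma upd_comp_rho {k i j r : ℕ} (hi : i ≤ k) (hr : r ≤ 2 ^ i) (x : Fin (2 ^ k) → Bool)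
    (w : Fin (2 ^ i) → Bool) :
    upd i j x w ∘ rho k i j r = upd i j x (w ∘ rho i i 0 r) := by
  funext p
  simp only [Function.comp, upd]
  have hdiv : ((rho k i j r p : Fin (2 ^ k)) : ℕ) / 2 ^ i = (p : ℕ) / 2 ^ i := by
    rw [rho_apply hi hr, rhoN_div]
  by_cases h : (p : ℕ) / 2 ^ i = j
  · rw [if_pos (hdiv.trans h), if_pos h]
    congr 1
    apply Fin.ext
    simp only
    rw [rho_apply hi hr, rhoN_mod h, rho_apply le_rfl hr]
    have h0 : (p : ℕ) % 2 ^ i / 2 ^ i = 0 := Nat.div_eq_of_lt (Nat.mod_lt _ (by positivity))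
    rw [rhoN_of_eq h0, Nat.mod_mod]
    simp only [Nat.mod_add_mod, mul_zero, zero_add]
  · rw [if_neg (fun e => h (hdiv.symm.trans e)), if_neg h]
    congr 1
    apply Fin.ext
    rw [rho_apply hi hr, rhoN_of_ne h]

lemma upd_flip {k i j : ℕ} (hi : i ≤ k) (hj : j < 2 ^ (k - i)) (x : Fin (2 ^ k) → Bool)
    (w : Fin (2 ^ i) → Bool) (q : Fin (2 ^ i)) :
    upd i j x (flip q w) = flip (pos k i j q) (upd i j x w) := by
  funext p
  by_cases h : (p : ℕ) / 2 ^ i = j
  · by_cases h2 : p = pos k i j q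
    · subst h2
      simp only [upd, flip, Function.update_self]
      rw [if_pos (pos_div hi hj q), if_pos (pos_div hi hj q)]
      have : (⟨(pos k i j q : ℕ) % 2 ^ i, Nat.mod_lt _ (by positivity)⟩ : Fin (2 ^ i)) = q :=
        Fin.ext (pos_mod hi hj q)
      rw [this]; simp
    · have h3 : (⟨(p : ℕ) % 2 ^ i, Nat.mod_lt _ (by positivity)⟩ : Fin (2 ^ i)) ≠ q := by
        intro e
        apply h2
        rw [← e, pos_of_div hi p h]
      simp only [flip]
      rw [Function.update_of_ne h2]
      simp only [upd]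
      rw [if_pos h, if_pos h, Function.update_of_ne h3]
  · have h2 : p ≠ pos k i j q := by
      intro e; apply h; rw [e]; exact pos_div hi hj q
    simp only [flip]
    rw [Function.update_of_ne h2]
    simp only [upd]
    rw [if_neg h, if_neg h]

end

end Vale.Agent.P238
end
end

section

section

set_option linter.unusedSectionVars false

namespace Vale.Agent.P238
open Finset
noncomputable section

variable {ι : Type*} [Fintype ι] [DecidableEq ι]

lemma chi_insert {p : ι} {A : Finset ι} (h : p ∉ A) (x : ι → Bool) :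
    chi (insert p A) x = (if x p then -1 else 1) * chi A x := by
  unfold chi
  rw [Finset.prod_insert h]

lemma bonami_aux (S : Finset ι) : ∀ (c : Finset ι → ℝ) (d : ℕ),
    (∀ A, c A ≠ 0 → A ⊆ S) → (∀ A, d < A.card → c A = 0) →
    ex (fun x : ι → Bool => (∑ A : Finset ι, c A * chi A x) ^ 4)
      ≤ 9 ^ d * (ex (fun x : ι → Bool => (∑ A : Finset ι, c A * chi A x) ^ 2)) ^ 2 := by
  induction S using Finset.induction_on with
  | empty =>
    intro c d hc _
    have h1 : ∀ x : ι → Bool, ∑ A : Finset ι, c A * chi A x = c ∅ := by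
      intro x
      rw [Finset.sum_eq_single ∅]
      · simp [chi_empty]
      · intro A _ hA
        have : c A = 0 := by
          by_contra h
          exact hA (Finset.subset_empty.mp (hc A h))
        rw [this, zero_mul]
      · intro h; exact absurd (Finset.mem_univ _) h
    simp only [h1]
    rw [ex_const, ex_const]
    have : (1 : ℝ) ≤ 9 ^ d := one_le_pow₀ (by norm_num)
    have h2 : 0 ≤ (c ∅ ^ 2) ^ 2 := by (clear * -; positivity)
    nlinarith
  | insert p S hp ih =>
    intro c d hc hd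
    set c0 : Finset ι → ℝ := fun A => if p ∈ A then 0 else c A with hc0
    set c1 : Finset ι → ℝ := fun A => if p ∈ A then 0 else c (insert p A) with hc1
    set q0 : (ι → Bool) → ℝ := fun x => ∑ A : Finset ι, c0 A * chi A x with hq0
    set q1 : (ι → Bool) → ℝ := fun x => ∑ A : Finset ι, c1 A * chi A x with hq1
    have hq : ∀ x : ι → Bool, ∑ A : Finset ι, c A * chi A x = q0 x + (if x p then -1 else 1) * q1 x := by
      intro x
      have e1 : ∑ A : Finset ι, c A * chi A x
          = ∑ A : Finset ι, c0 A * chi A x + ∑ A : Finset ι, (if p ∈ A then c A * chi A x else 0) := by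
        rw [← Finset.sum_add_distrib]
        apply Finset.sum_congr rfl
        intro A _
        simp only [hc0]
        split_ifs <;> simp
      have e2 : ∑ A : Finset ι, (if p ∈ A then c A * chi A x else 0)
          = ∑ A : Finset ι, (if x p then -1 else 1) * (c1 A * chi A x) := by
        rw [← Finset.sum_filter]
        have e3 : ∑ A : Finset ι, (if x p then -1 else 1) * (c1 A * chi A x)
            = ∑ A ∈ univ.filter (fun A : Finset ι => p ∉ A), (if x p then -1 else 1) * (c1 A * chi A x) := by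
          rw [Finset.sum_filter]
          apply Finset.sum_congr rfl
          intro A _
          simp only [hc1]
          split_ifs <;> (clear * -; simp_all)
        rw [e3]
        refine Finset.sum_nbij' (fun A => A.erase p) (fun A => insert p A) ?_ ?_ ?_ ?_ ?_
        · intro A hA; simp
        · intro A hA; simp
        · intro A hA
          exact Finset.insert_erase (Finset.mem_filter.mp hA).2
        · intro A hA
          exact Finset.erase_insert (Finset.mem_filter.mp hA).2
        · intro A hA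
          have hpA : p ∈ A := (Finset.mem_filter.mp hA).2
          have hne : p ∉ A.erase p := Finset.notMem_erase p A
          have e4 : chi A x = (if x p then -1 else 1) * chi (A.erase p) x := by
            rw [← chi_insert hne, Finset.insert_erase hpA]
          simp only [hc1, if_neg hne, Finset.insert_erase hpA]
          rw [e4]; ring
      rw [e1, e2, ← Finset.mul_sum]
    have hflip : ∀ (e : Finset ι → ℝ), (∀ A, p ∈ A → e A = 0) → ∀ x : ι → Bool,
        ∑ A : Finset ι, e A * chi A (flip p x) = ∑ A : Finset ι, e A * chi A x := by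
      intro e he x
      apply Finset.sum_congr rfl
      intro A _
      rw [chi_flip]
      by_cases h : p ∈ A
      · rw [he A h]; ring
      · rw [if_neg h, one_mul]
    have hq0f : ∀ x, q0 (flip p x) = q0 x := hflip c0 (fun A h => by simp [hc0, h])
    have hq1f : ∀ x, q1 (flip p x) = q1 x := hflip c1 (fun A h => by simp [hc1, h])
    have hsym : ∀ F : (ι → Bool) → ℝ, ex F = (1 / 2) * ex (fun x => F x + F (flip p x)) := by
      intro F
      rw [ex_add, ex_flip]; ring
    have hsgn : ∀ x : ι → Bool, (if flip p x p then (-1 : ℝ) else 1) = - (if x p then (-1 : ℝ) else 1) := by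
      intro x
      by_cases hx : x p <;> simp [flip, hx]
    have hsg2 : ∀ x : ι → Bool, (if x p then (-1 : ℝ) else 1) ^ 2 = 1 := by
      intro x; split_ifs <;> norm_num
    have hE4 : ex (fun x : ι → Bool => (∑ A : Finset ι, c A * chi A x) ^ 4)
        = ex (fun x => q0 x ^ 4) + 6 * ex (fun x => q0 x ^ 2 * q1 x ^ 2) + ex (fun x => q1 x ^ 4) := by
      simp only [hq]
      rw [hsym]
      simp only [hq0f, hq1f, hsgn]
      rw [← ex_mul_left, ← ex_mul_left, ← ex_add, ← ex_add]
      apply ex_congr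
      intro x
      have := hsg2 x
      generalize (if x p then (-1 : ℝ) else 1) = e at *
      have e4 : e ^ 4 = 1 := by
        calc e ^ 4 = (e ^ 2) ^ 2 := by ring
          _ = 1 := by rw [this]; norm_num
      calc 1 / 2 * ((q0 x + e * q1 x) ^ 4 + (q0 x + -e * q1 x) ^ 4)
          = q0 x ^ 4 + 6 * (e ^ 2 * (q0 x ^ 2 * q1 x ^ 2)) + e ^ 4 * q1 x ^ 4 := by ring
        _ = _ := by rw [this, e4]; ring
    have hE2 : ex (fun x : ι → Bool => (∑ A : Finset ι, c A * chi A x) ^ 2)
        = ex (fun x => q0 x ^ 2) + ex (fun x => q1 x ^ 2) := by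
      simp only [hq]
      rw [hsym]
      simp only [hq0f, hq1f, hsgn]
      rw [← ex_mul_left, ← ex_add]
      apply ex_congr
      intro x
      have := hsg2 x
      generalize (if x p then (-1 : ℝ) else 1) = e at *
      calc 1 / 2 * ((q0 x + e * q1 x) ^ 2 + (q0 x + -e * q1 x) ^ 2)
          = q0 x ^ 2 + e ^ 2 * q1 x ^ 2 := by ring
        _ = _ := by rw [this]; ring
    have h0S : ∀ A, c0 A ≠ 0 → A ⊆ S := by
      intro A hA
      simp only [hc0] at hA
      by_cases h : p ∈ A
      · simp [h] at hA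
      · rw [if_neg h] at hA
        have := hc A hA
        intro v hv
        rcases Finset.mem_insert.mp (this hv) with rfl | h2
        · exact absurd hv h
        · exact h2
    have h1S : ∀ A, c1 A ≠ 0 → A ⊆ S := by
      intro A hA
      simp only [hc1] at hA
      by_cases h : p ∈ A
      · simp [h] at hA
      · rw [if_neg h] at hA
        have := hc _ hA
        intro v hv
        rcases Finset.mem_insert.mp (this (Finset.mem_insert_of_mem hv)) with rfl | h2
        · exact absurd hv h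
        · exact h2
    have h0d : ∀ A, d < A.card → c0 A = 0 := by
      intro A hA
      simp only [hc0]
      split_ifs
      · rfl
      · exact hd A hA
    have IH0 := ih c0 d h0S h0d
    set a := ex (fun x => q0 x ^ 2) with ha
    set b := ex (fun x => q1 x ^ 2) with hb
    have ha0 : 0 ≤ a := ex_nonneg fun x => sq_nonneg _
    have hb0 : 0 ≤ b := ex_nonneg fun x => sq_nonneg _
    have hmid0 : 0 ≤ ex (fun x => q0 x ^ 2 * q1 x ^ 2) := ex_nonneg fun x => by (clear * -; positivity)
    have hCS : (ex (fun x => q0 x ^ 2 * q1 x ^ 2)) ^ 2 ≤ ex (fun x => q0 x ^ 4) * ex (fun x => q1 x ^ 4) := by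
      have h := ex_mul_sq_le (fun x => q0 x ^ 2) (fun x => q1 x ^ 2)
      have e1 : (fun x => (q0 x ^ 2) ^ 2) = fun x => q0 x ^ 4 := by funext x; ring
      have e2 : (fun x => (q1 x ^ 2) ^ 2) = fun x => q1 x ^ 4 := by funext x; ring
      rwa [e1, e2] at h
    rw [hE4, hE2]
    rcases Nat.eq_zero_or_pos d with hd0 | hdpos
    · -- degree zero: q1 = 0
      have hq1z : ∀ x, q1 x = 0 := by
        intro x
        apply Finset.sum_eq_zero
        intro A _
        have : c1 A = 0 := by
          simp only [hc1]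
          split_ifs with h
          · rfl
          · apply hd
            rw [Finset.card_insert_of_notMem h]; omega
        rw [this, zero_mul]
      have hz1 : ex (fun x => q0 x ^ 2 * q1 x ^ 2) = 0 := by
        simp only [hq1z]; simp only [ex, ne_eq, OfNat.ofNat_ne_zero, not_false_eq_true, zero_pow, mul_zero, sum_const_zero, Fintype.card_pi, Fintype.card_bool, prod_const, card_univ, Nat.cast_pow, Nat.cast_ofNat, zero_div]
      have hz2 : ex (fun x => q1 x ^ 4) = 0 := by
        simp only [hq1z]; simp only [ex, ne_eq, OfNat.ofNat_ne_zero, not_false_eq_true, zero_pow, sum_const_zero, Fintype.card_pi, Fintype.card_bool, prod_const, card_univ, Nat.cast_pow, Nat.cast_ofNat, zero_div]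
      rw [hz1, hz2]
      have h9 : (0:ℝ) ≤ 9 ^ d := by positivity
      have : 9 ^ d * a ^ 2 ≤ 9 ^ d * (a + b) ^ 2 :=
        mul_le_mul_of_nonneg_left (by nlinarith only [ha0, hb0]) h9
      linarith only [IH0, this]
    · obtain ⟨e, rfl⟩ : ∃ e, d = e + 1 := ⟨d - 1, by omega⟩
      have h1d : ∀ A, e < A.card → c1 A = 0 := by
        intro A hA
        simp only [hc1]
        split_ifs with h
        · rfl
        · apply hd
          rw [Finset.card_insert_of_notMem h]; omega
      have IH1 := ih c1 e h1S h1d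
      have h9e : (0 : ℝ) < 9 ^ e := by positivity
      have hmid : ex (fun x => q0 x ^ 2 * q1 x ^ 2) ≤ 3 * 9 ^ e * (a * b) := by
        have h3 : (ex (fun x => q0 x ^ 2 * q1 x ^ 2)) ^ 2 ≤ (3 * 9 ^ e * (a * b)) ^ 2 := by
          calc _ ≤ ex (fun x => q0 x ^ 4) * ex (fun x => q1 x ^ 4) := hCS
            _ ≤ (9 ^ (e + 1) * a ^ 2) * (9 ^ e * b ^ 2) :=
              mul_le_mul IH0 IH1 (ex_nonneg fun x => by (clear * -; positivity)) (by (clear * -; positivity))
            _ = (3 * 9 ^ e * (a * b)) ^ 2 := by rw [pow_succ]; ring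
        exact le_of_sq_le_sq h3 (by (clear * - ha0 hb0; positivity))
      have hfin : 9 ^ (e + 1) * a ^ 2 + 6 * (3 * 9 ^ e * (a * b)) + 9 ^ e * b ^ 2 ≤ 9 ^ (e + 1) * (a + b) ^ 2 := by
        rw [pow_succ]
        have : 0 ≤ 9 ^ e * b ^ 2 := by (clear * -; positivity)
        nlinarith only [this]
      calc _ ≤ 9 ^ (e + 1) * a ^ 2 + 6 * (3 * 9 ^ e * (a * b)) + 9 ^ e * b ^ 2 := by
            have e1 : ex (fun x => q0 x ^ 4) ≤ 9 ^ (e + 1) * a ^ 2 := IH0
            have e2 : ex (fun x => q1 x ^ 4) ≤ 9 ^ e * b ^ 2 := IH1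
            linarith only [IH0, IH1, hmid]
        _ ≤ _ := hfin

theorem bonami (c : Finset ι → ℝ) (d : ℕ)
    (hc : ∀ A, d < A.card → c A = 0) :
    ex (fun x : ι → Bool => (∑ A : Finset ι, c A * chi A x) ^ 4)
      ≤ 9 ^ d * (ex (fun x : ι → Bool => (∑ A : Finset ι, c A * chi A x) ^ 2)) ^ 2 :=
  bonami_aux Finset.univ c d (fun A _ => Finset.subset_univ A) hc

end
end Vale.Agent.P238
end
end

section

section

set_option linter.unusedSectionVars false

namespace Vale.Agent.P238
open Finset
noncomputable section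

section aux
variable {X : Type*} [Fintype X]

lemma ex_abs_le (F : X → ℝ) : |ex F| ≤ ex (fun x => |F x|) := by
  unfold ex
  rw [abs_div, Nat.abs_cast]
  exact div_le_div_of_nonneg_right (Finset.abs_sum_le_sum_abs _ _) (Nat.cast_nonneg _)

lemma sq_ex_le [Nonempty X] (F : X → ℝ) : (ex F) ^ 2 ≤ ex (fun x => F x ^ 2) := by
  have h := ex_mul_sq_le F (fun _ => (1 : ℝ))
  simp only [mul_one, one_pow] at h
  rwa [ex_const, mul_one] at h

/-- the interpolation form of Hoelder's inequality -/
lemma holder4 (h u : X → ℝ) :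
    (ex (fun x => h x * u x)) ^ 4 ≤ (ex (fun x => |h x|)) ^ 2 * ex (fun x => h x ^ 2) * ex (fun x => u x ^ 4) := by
  have h1 : (ex (fun x => h x * u x)) ^ 2 ≤ ex (fun x => |h x|) * ex (fun x => |h x| * u x ^ 2) := by
    have h2 := ex_mul_sq_le (fun x => Real.sqrt |h x|) (fun x => Real.sqrt |h x| * |u x|)
    have e1 : (fun x => Real.sqrt |h x| * (Real.sqrt |h x| * |u x|)) = fun x => |h x * u x| := by
      funext x
      rw [← mul_assoc, Real.mul_self_sqrt (abs_nonneg _), abs_mul]
    have e2 : (fun x => Real.sqrt |h x| ^ 2) = fun x => |h x| := by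
      funext x; rw [Real.sq_sqrt (abs_nonneg _)]
    have e3 : (fun x => (Real.sqrt |h x| * |u x|) ^ 2) = fun x => |h x| * u x ^ 2 := by
      funext x; rw [mul_pow, Real.sq_sqrt (abs_nonneg _), sq_abs]
    rw [e1, e2, e3] at h2
    refine le_trans ?_ h2
    rw [← sq_abs (ex fun x => h x * u x)]
    exact pow_le_pow_left₀ (abs_nonneg _) (ex_abs_le _) 2
  have h3 : (ex (fun x => |h x| * u x ^ 2)) ^ 2 ≤ ex (fun x => h x ^ 2) * ex (fun x => u x ^ 4) := by
    have h4 := ex_mul_sq_le (fun x => |h x|) (fun x => u x ^ 2)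
    have e1 : (fun x => |h x| ^ 2) = fun x => h x ^ 2 := by funext x; rw [sq_abs]
    have e2 : (fun x => (u x ^ 2) ^ 2) = fun x => u x ^ 4 := by funext x; ring
    rw [e1, e2] at h4
    exact h4
  have ha : 0 ≤ ex (fun x => |h x|) := ex_nonneg fun x => abs_nonneg _
  have hb : 0 ≤ ex (fun x => |h x| * u x ^ 2) := ex_nonneg fun x => by positivity
  calc (ex (fun x => h x * u x)) ^ 4 = ((ex (fun x => h x * u x)) ^ 2) ^ 2 := by ring
    _ ≤ (ex (fun x => |h x|) * ex (fun x => |h x| * u x ^ 2)) ^ 2 :=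
        pow_le_pow_left₀ (sq_nonneg _) h1 2
    _ = (ex (fun x => |h x|)) ^ 2 * (ex (fun x => |h x| * u x ^ 2)) ^ 2 := by ring
    _ ≤ (ex (fun x => |h x|)) ^ 2 * (ex (fun x => h x ^ 2) * ex (fun x => u x ^ 4)) :=
        mul_le_mul_of_nonneg_left h3 (sq_nonneg _)
    _ = _ := by ring

end aux

variable {ι : Type*} [Fintype ι] [DecidableEq ι]

/-- half the discrete derivative -/
def Dv (p : ι) (h : (ι → Bool) → ℝ) (x : ι → Bool) : ℝ := (h x - h (flip p x)) / 2

lemma fc_Dv (p : ι) (h : (ι → Bool) → ℝ) (A : Finset ι) :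
    fc (Dv p h) A = if p ∈ A then fc h A else 0 := by
  have h1 : fc (Dv p h) A = (fc h A - fc (fun x => h (flip p x)) A) / 2 := by
    rw [← fc_sub]
    show ex (fun x => (h x - h (flip p x)) / 2 * chi A x) = ex (fun x => (h x - h (flip p x)) * chi A x) / 2
    have : (fun x => (h x - h (flip p x)) / 2 * chi A x) = fun x => ((h x - h (flip p x)) * chi A x) * (1 / 2) := by
      funext x; ring
    rw [this, ex_mul_right]; ring
  rw [h1, fc_flip]
  split_ifs <;> ring

lemma fc_sum_chi (c : Finset ι → ℝ) (A : Finset ι) :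
    fc (fun x => ∑ B : Finset ι, c B * chi B x) A = c A := by
  unfold fc
  have : (fun x : ι → Bool => (∑ B : Finset ι, c B * chi B x) * chi A x)
      = fun x => ∑ B : Finset ι, c B * (chi B x * chi A x) := by
    funext x
    rw [Finset.sum_mul]
    apply Finset.sum_congr rfl; intro B _; ring
  rw [this, ex_sum]
  have : ∀ B ∈ (univ : Finset (Finset ι)), ex (fun x : ι → Bool => c B * (chi B x * chi A x)) = if B = A then c B else 0 := by
    intro B _
    rw [ex_mul_left, ex_chi_mul]
    split_ifs <;> simp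
  rw [Finset.sum_congr rfl this]
  simp

/-- bilinear Parseval against a chi polynomial -/
lemma ex_mul_sum_chi (h : (ι → Bool) → ℝ) (c : Finset ι → ℝ) :
    ex (fun x => h x * ∑ B : Finset ι, c B * chi B x) = ∑ B : Finset ι, c B * fc h B := by
  have : (fun x : ι → Bool => h x * ∑ B : Finset ι, c B * chi B x)
      = fun x => ∑ B : Finset ι, c B * (h x * chi B x) := by
    funext x
    rw [Finset.mul_sum]
    apply Finset.sum_congr rfl; intro B _; ring
  rw [this, ex_sum]
  apply Finset.sum_congr rfl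
  intro B _
  rw [ex_mul_left]
  rfl

/-- level inequality for one coordinate -/
lemma level_one (g : (ι → Bool) → ℝ) (p : ι) (T : ℕ) :
    (∑ A : Finset ι, if p ∈ A ∧ A.card ≤ T then (fc g A) ^ 2 else 0) ^ 2
      ≤ 9 ^ T * (ex (fun x => |Dv p g x|)) ^ 2 * ex (fun x => Dv p g x ^ 2) := by
  classical
  set c : Finset ι → ℝ := fun A => if p ∈ A ∧ A.card ≤ T then fc g A else 0 with hc
  set u : (ι → Bool) → ℝ := fun x => ∑ B : Finset ι, c B * chi B x with hu
  set U : ℝ := ∑ A : Finset ι, if p ∈ A ∧ A.card ≤ T then (fc g A) ^ 2 else 0 with hU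
  have h1 : ex (fun x => u x ^ 2) = U := by
    rw [← parseval]
    apply Finset.sum_congr rfl
    intro A _
    rw [fc_sum_chi]
    simp only [hc]
    split_ifs <;> simp
  have h2 : ex (fun x => Dv p g x * u x) = U := by
    rw [ex_mul_sum_chi]
    apply Finset.sum_congr rfl
    intro A _
    rw [fc_Dv]
    simp only [hc]
    by_cases ha : p ∈ A
    · by_cases hb : A.card ≤ T
      · simp [ha, hb, sq]
      · simp [hb]
    · simp [ha]
  have h3 := holder4 (Dv p g) u
  rw [h2] at h3
  have h4 : ex (fun x => u x ^ 4) ≤ 9 ^ T * U ^ 2 := by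
    have := bonami c T (fun A hA => by
      simp only [hc]
      rw [if_neg]
      rintro ⟨-, h⟩
      omega)
    rw [← h1]
    exact this
  have hU0 : 0 ≤ U := Finset.sum_nonneg fun A _ => by split_ifs <;> (clear * -; positivity)
  have ha : 0 ≤ (ex (fun x => |Dv p g x|)) ^ 2 * ex (fun x => Dv p g x ^ 2) :=
    mul_nonneg (sq_nonneg _) (ex_nonneg fun x => sq_nonneg _)
  have h5 : U ^ 4 ≤ ((ex (fun x => |Dv p g x|)) ^ 2 * ex (fun x => Dv p g x ^ 2)) * (9 ^ T * U ^ 2) :=
    h3.trans (mul_le_mul_of_nonneg_left h4 ha)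
  rcases hU0.eq_or_lt with h0 | h0
  · rw [← h0]
    have : (0:ℝ) ≤ 9 ^ T := by positivity
    nlinarith only [ha, this]
  · have hU2 : 0 < U ^ 2 := by (clear * - h0; positivity)
    have h6 : U ^ 2 * U ^ 2 ≤ (9 ^ T * (ex (fun x => |Dv p g x|)) ^ 2 * ex (fun x => Dv p g x ^ 2)) * U ^ 2 := by
      calc U ^ 2 * U ^ 2 = U ^ 4 := by ring
        _ ≤ _ := h5
        _ = _ := by ring
    exact le_of_mul_le_mul_right h6 hU2

lemma flip_comp_perm (p : ι) (π : Equiv.Perm ι) (x : ι → Bool) :
    flip p x ∘ π = flip (π.symm p) (x ∘ π) := by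
  funext q
  simp only [Function.comp, flip]
  by_cases h : π q = p
  · have h2 : q = π.symm p := by rw [← h, Equiv.symm_apply_apply]
    subst h2
    simp
  · have h2 : q ≠ π.symm p := by
      intro e; apply h; rw [e, Equiv.apply_symm_apply]
    rw [Function.update_of_ne h, Function.update_of_ne h2]
    rfl

lemma ex_comp_perm (π : Equiv.Perm ι) (F : (ι → Bool) → ℝ) :
    ex (fun x : ι → Bool => F (x ∘ π)) = ex F :=
  ex_equiv (Equiv.arrowCongr π.symm (Equiv.refl Bool)) F

lemma sum_card_sq (h : (ι → Bool) → ℝ) :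
    ∑ p : ι, ex (fun x => Dv p h x ^ 2) = ∑ A : Finset ι, (A.card : ℝ) * (fc h A) ^ 2 := by
  classical
  have h1 : ∀ p ∈ (univ : Finset ι), ex (fun x => Dv p h x ^ 2) = ∑ A : Finset ι, if p ∈ A then (fc h A) ^ 2 else 0 := by
    intro p _
    rw [← parseval]
    apply Finset.sum_congr rfl
    intro A _
    rw [fc_Dv]
    split_ifs <;> simp
  rw [Finset.sum_congr rfl h1, Finset.sum_comm]
  apply Finset.sum_congr rfl
  intro A _
  rw [← Finset.sum_filter, Finset.filter_mem_eq_inter, Finset.univ_inter, Finset.sum_const, nsmul_eq_mul]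

lemma sum_card_sq_low (h : (ι → Bool) → ℝ) (T : ℕ) :
    ∑ p : ι, (∑ A : Finset ι, if p ∈ A ∧ A.card ≤ T then (fc h A) ^ 2 else 0)
      = ∑ A : Finset ι, if A.card ≤ T then (A.card : ℝ) * (fc h A) ^ 2 else 0 := by
  classical
  rw [Finset.sum_comm]
  apply Finset.sum_congr rfl
  intro A _
  by_cases hA : A.card ≤ T
  · simp only [hA, and_true, if_true]
    rw [← Finset.sum_filter, Finset.filter_mem_eq_inter, Finset.univ_inter, Finset.sum_const, nsmul_eq_mul]
  · simp only [hA, and_false, ↓reduceIte, sum_const_zero]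

theorem local_kkl {R : Type*} [Fintype R] [Nonempty R]
    (f : (ι → Bool) → ℝ) (hf : ∀ x, f x = 0 ∨ f x = 1)
    (π : R → Equiv.Perm ι) (hπ : ∀ j, Function.Injective (fun r => (π r).symm j))
    (T : ℕ) (hT : 1 ≤ T) (hR : 2 ^ (8 * T) ≤ Fintype.card R) :
    ex (fun x => (f x - ex f) ^ 2) ≤
      (1 / (T:ℝ)) * ∑ p, ex (fun x => |f x - f (flip p x)|)
      + 2 * ex (fun r => ex (fun x => |f x - f (x ∘ π r)|)) := by
  classical
  set I : ℝ := ∑ p, ex (fun x => |f x - f (flip p x)|) with hI
  set N : ℝ := (Fintype.card R : ℝ) with hN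
  have hNpos : 0 < N := by rw [hN]; exact_mod_cast Fintype.card_pos
  have hNlow : (2 : ℝ) ^ (8 * T) ≤ N := by rw [hN]; exact_mod_cast hR
  set g : (ι → Bool) → ℝ := fun x => ex (fun r => f (x ∘ π r)) with hg
  have hI0 : 0 ≤ I := Finset.sum_nonneg fun p _ => ex_nonneg fun x => abs_nonneg _
  have hTr : (0 : ℝ) < T := by exact_mod_cast hT
  have hf01 : ∀ x, 0 ≤ f x ∧ f x ≤ 1 := fun x => by rcases hf x with h | h <;> simp [h]
  have hg0 : ∀ x, 0 ≤ g x := fun x => ex_nonneg fun r => (hf01 _).1
  have hg1 : ∀ x, g x ≤ 1 := fun x => by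
    have := ex_mono (F := fun r : R => f (x ∘ π r)) (G := fun _ => 1) (fun r => (hf01 _).2)
    rwa [ex_const] at this
  -- derivative of g
  have hDg : ∀ p x, Dv p g x = ex (fun r => Dv ((π r).symm p) f (x ∘ π r)) := by
    intro p x
    unfold Dv
    simp only [hg, div_eq_mul_inv]
    rw [ex_mul_right, ex_sub]
    congr 2
    apply ex_congr
    intro r
    rw [flip_comp_perm]
  set a : ι → ℝ := fun p => ex (fun x => |Dv p g x|) with ha
  have ha0 : ∀ p, 0 ≤ a p := fun p => ex_nonneg fun x => abs_nonneg _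
  have hDvabs : ∀ p, ex (fun x => |Dv p f x|) = (1 / 2) * ex (fun x => |f x - f (flip p x)|) := by
    intro p
    rw [← ex_mul_left]
    apply ex_congr
    intro x
    unfold Dv
    rw [abs_div, abs_of_pos (by norm_num : (0:ℝ) < 2)]
    ring
  have ha1 : ∀ p, a p ≤ ex (fun r => (1 / 2) * ex (fun x => |f x - f (flip ((π r).symm p) x)|)) := by
    intro p
    calc a p ≤ ex (fun x => ex (fun r => |Dv ((π r).symm p) f (x ∘ π r)|)) := by
          apply ex_mono
          intro x
          rw [hDg]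
          exact ex_abs_le _
      _ = ex (fun r => ex (fun x => |Dv ((π r).symm p) f (x ∘ π r)|)) := ex_comm _
      _ = ex (fun r => (1 / 2) * ex (fun x => |f x - f (flip ((π r).symm p) x)|)) := by
          apply ex_congr
          intro r
          rw [ex_comp_perm (π r) (fun x => |Dv ((π r).symm p) f x|), hDvabs]
  have ha2 : ∀ p, a p ≤ I / (2 * N) := by
    intro p
    refine (ha1 p).trans ?_
    unfold ex at *
    rw [div_le_div_iff₀ hNpos (by positivity)]
    have : ∑ r : R, 1 / 2 * ((∑ x, |f x - f (flip ((π r).symm p) x)|) / (Fintype.card (ι → Bool) : ℝ)) ≤ (1 / 2) * I := by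
      rw [← Finset.mul_sum]
      apply mul_le_mul_of_nonneg_left _ (by norm_num)
      rw [hI]
      calc ∑ r : R, (∑ x, |f x - f (flip ((π r).symm p) x)|) / (Fintype.card (ι → Bool) : ℝ)
          = ∑ q ∈ univ.image (fun r => (π r).symm p), (∑ x, |f x - f (flip q x)|) / (Fintype.card (ι → Bool) : ℝ) := by
            rw [Finset.sum_image (fun x _ y _ h => hπ p h)]
        _ ≤ ∑ q, (∑ x, |f x - f (flip q x)|) / (Fintype.card (ι → Bool) : ℝ) :=
            Finset.sum_le_sum_of_subset_of_nonneg (Finset.subset_univ _) (fun q _ _ => by (clear * -; positivity))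
    have hN0 : (0:ℝ) ≤ 2 * N := by positivity
    calc _ ≤ (1 / 2) * I * (2 * N) := mul_le_mul_of_nonneg_right this hN0
      _ = I * N := by ring
  have hasum : ∑ p, a p ≤ I / 2 := by
    calc ∑ p, a p ≤ ∑ p, ex (fun r => (1 / 2) * ex (fun x => |f x - f (flip ((π r).symm p) x)|)) :=
          Finset.sum_le_sum fun p _ => ha1 p
      _ = ex (fun r => ∑ p, (1 / 2) * ex (fun x => |f x - f (flip ((π r).symm p) x)|)) := by
          rw [ex_sum]
      _ = ex (fun _ : R => I / 2) := by
          apply ex_congr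
          intro r
          rw [← Finset.mul_sum, Equiv.sum_comp (π r).symm (fun q => ex (fun x => |f x - f (flip q x)|))]
          ring
      _ = I / 2 := ex_const _
  -- second moments
  set b : ι → ℝ := fun p => ex (fun x => Dv p g x ^ 2) with hb
  have hb0 : ∀ p, 0 ≤ b p := fun p => ex_nonneg fun x => sq_nonneg _
  have hDle : ∀ p x, |Dv p g x| ≤ 1 / 2 := by
    intro p x
    unfold Dv
    rw [abs_div, abs_of_pos (by norm_num : (0:ℝ) < 2)]
    have : |g x - g (flip p x)| ≤ 1 := by
      rw [abs_le]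
      constructor <;> linarith only [hg0 x, hg1 (flip p x), hg1 x, hg0 (flip p x)]
    linarith only [this]
  have hb1 : ∀ p, b p ≤ a p / 2 := by
    intro p
    have : b p ≤ ex (fun x => |Dv p g x| * (1 / 2)) := by
      apply ex_mono
      intro x
      rw [← sq_abs, sq]
      exact mul_le_mul_of_nonneg_left (hDle p x) (abs_nonneg _)
    rw [ex_mul_right] at this
    simp only [ha]
    linarith only [this]
  have hbsum : ∑ p, b p ≤ I / 4 := by
    calc ∑ p, b p ≤ ∑ p, a p / 2 := Finset.sum_le_sum fun p _ => hb1 p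
      _ = (∑ p, a p) / 2 := by rw [Finset.sum_div]
      _ ≤ I / 4 := by linarith only [hasum]
  -- variance of g
  set Vg : ℝ := ex (fun x => (g x - ex g) ^ 2) with hVg
  have hVg_fc : Vg = ∑ A : Finset ι, if A = ∅ then 0 else (fc g A) ^ 2 := by
    rw [hVg, ← parseval]
    apply Finset.sum_congr rfl
    intro A _
    have e : fc (fun x => g x - ex g) A = fc g A - ex g * ex (fun x => chi A x) := by
      rw [fc_sub]
      congr 1
      unfold fc
      rw [← ex_mul_left]
    have e2 : ex (fun x : ι → Bool => chi A x) = if A = ∅ then 1 else 0 := by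
      have := ex_chi_mul A (∅ : Finset ι)
      simpa [chi_empty] using this
    rw [e, e2]
    split_ifs with hA
    · subst hA; rw [fc_empty]; ring
    · ring
  have hVg1 : Vg ≤ I / (2 * T) := by
    by_cases hcase : I ^ 4 ≤ N
    · -- small influence case
      have hIN : I / N ≤ (1 / 64) ^ T := by
        have h1 : (I / N) ^ 4 ≤ ((1 / 64 : ℝ) ^ T) ^ 4 := by
          rw [div_pow, ← pow_mul]
          have h2 : ((1 / 64 : ℝ)) ^ (T * 4) = 1 / (2 ^ (8 * T)) ^ 3 := by
            rw [one_div_pow, ← pow_mul, show (64 : ℝ) = 2 ^ 6 by norm_num, ← pow_mul]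
            congr 2; ring
          rw [h2, div_le_div_iff₀ (by positivity) (by positivity)]
          have h3 : ((2 : ℝ) ^ (8 * T)) ^ 3 ≤ N ^ 3 := pow_le_pow_left₀ (by positivity) hNlow 3
          calc I ^ 4 * ((2 : ℝ) ^ (8 * T)) ^ 3 ≤ N * N ^ 3 :=
                mul_le_mul hcase h3 (by positivity) hNpos.le
            _ = 1 * N ^ 4 := by ring
        exact le_of_pow_le_pow_left₀ (by norm_num) (by positivity) h1
      -- bound each low level part
      have hU : ∀ p, (∑ A : Finset ι, if p ∈ A ∧ A.card ≤ T then (fc g A) ^ 2 else 0) ≤ a p / (2 * T) := by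
        intro p
        have h1 := level_one g p T
        have hU0 : 0 ≤ (∑ A : Finset ι, if p ∈ A ∧ A.card ≤ T then (fc g A) ^ 2 else 0) :=
          Finset.sum_nonneg fun A _ => by split_ifs <;> (clear * -; positivity)
        have h2 : 9 ^ T * (a p) ^ 2 * b p ≤ (a p / (2 * T)) ^ 2 := by
          have h3 : b p ≤ (1 / 4) * (1 / 64) ^ T := by
            calc b p ≤ a p / 2 := hb1 p
              _ ≤ (I / (2 * N)) / 2 := by linarith only [ha2 p]
              _ = (1 / 4) * (I / N) := by ring
              _ ≤ (1 / 4) * (1 / 64) ^ T := mul_le_mul_of_nonneg_left hIN (by norm_num)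
          have h4 : (9 : ℝ) ^ T * ((1 / 4) * (1 / 64) ^ T) ≤ 1 / (4 * T ^ 2) := by
            have h5 : (9 : ℝ) ^ T * ((1 / 4) * (1 / 64) ^ T) = (1 / 4) * (9 / 64) ^ T := by
              rw [div_pow, div_pow, one_pow]; ring
            rw [h5]
            have h6 : ((9 : ℝ) / 64) ^ T ≤ 1 / T ^ 2 := by
              have h7 : (T : ℝ) ≤ 2 ^ T := by exact_mod_cast Nat.lt_two_pow_self.le
              have h8 : (T : ℝ) ^ 2 ≤ 4 ^ T := by
                calc (T : ℝ) ^ 2 ≤ (2 ^ T) ^ 2 := pow_le_pow_left₀ hTr.le h7 2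
                  _ = 4 ^ T := by rw [← pow_mul, mul_comm, pow_mul]; norm_num
              calc ((9 : ℝ) / 64) ^ T ≤ (1 / 4) ^ T := pow_le_pow_left₀ (by norm_num) (by norm_num) T
                _ = 1 / 4 ^ T := by rw [one_div_pow]
                _ ≤ 1 / T ^ 2 := div_le_div_of_nonneg_left (by norm_num) (by positivity) h8
            calc (1 / 4 : ℝ) * (9 / 64) ^ T ≤ (1 / 4) * (1 / T ^ 2) := mul_le_mul_of_nonneg_left h6 (by norm_num)
              _ = 1 / (4 * T ^ 2) := by ring
          calc 9 ^ T * (a p) ^ 2 * b p = (a p) ^ 2 * (9 ^ T * b p) := by ring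
            _ ≤ (a p) ^ 2 * (9 ^ T * ((1 / 4) * (1 / 64) ^ T)) :=
                mul_le_mul_of_nonneg_left (mul_le_mul_of_nonneg_left h3 (by positivity)) (sq_nonneg _)
            _ ≤ (a p) ^ 2 * (1 / (4 * T ^ 2)) := mul_le_mul_of_nonneg_left h4 (sq_nonneg _)
            _ = (a p / (2 * T)) ^ 2 := by ring
        exact le_of_sq_le_sq (h1.trans h2) (div_nonneg (ha0 p) (by positivity))
      have hlow : ∑ A : Finset ι, (if A.card ≤ T then (A.card : ℝ) * (fc g A) ^ 2 else 0) ≤ I / (4 * T) := by
        rw [← sum_card_sq_low]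
        calc _ ≤ ∑ p, a p / (2 * T) := Finset.sum_le_sum fun p _ => hU p
          _ = (∑ p, a p) / (2 * T) := by rw [Finset.sum_div]
          _ ≤ (I / 2) / (2 * T) := div_le_div_of_nonneg_right hasum (by positivity)
          _ = I / (4 * T) := by ring
      have hall : ∑ A : Finset ι, (A.card : ℝ) * (fc g A) ^ 2 ≤ I / 4 := by
        rw [← sum_card_sq]; exact hbsum
      have hpt : ∀ A : Finset ι, (if A = ∅ then 0 else (fc g A) ^ 2)
          ≤ (if A.card ≤ T then (A.card : ℝ) * (fc g A) ^ 2 else 0) + (1 / T) * ((A.card : ℝ) * (fc g A) ^ 2) := by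
        intro A
        have hsq := sq_nonneg (fc g A)
        by_cases hA : A = ∅
        · subst hA; simp
        · rw [if_neg hA]
          have hc1 : 1 ≤ A.card := Finset.card_pos.mpr (Finset.nonempty_iff_ne_empty.mpr hA)
          have hc1r : (1 : ℝ) ≤ A.card := by exact_mod_cast hc1
          by_cases hAT : A.card ≤ T
          · rw [if_pos hAT]
            have : 0 ≤ (1 / (T:ℝ)) * ((A.card : ℝ) * (fc g A) ^ 2) := by (clear * - hT hc1; positivity)
            nlinarith only [this, hc1r]
          · rw [if_neg hAT, zero_add]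
            have hAT' : (T : ℝ) ≤ A.card := by exact_mod_cast (not_le.mp hAT).le
            calc (fc g A) ^ 2 = (1 / T) * (T * (fc g A) ^ 2) := by (clear * - hT; field_simp)
              _ ≤ (1 / T) * ((A.card : ℝ) * (fc g A) ^ 2) := by
                apply mul_le_mul_of_nonneg_left _ (by positivity)
                exact mul_le_mul_of_nonneg_right hAT' hsq
      rw [hVg_fc]
      calc _ ≤ ∑ A : Finset ι, ((if A.card ≤ T then (A.card : ℝ) * (fc g A) ^ 2 else 0) + (1 / T) * ((A.card : ℝ) * (fc g A) ^ 2)) :=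
            Finset.sum_le_sum fun A _ => hpt A
        _ = ∑ A : Finset ι, (if A.card ≤ T then (A.card : ℝ) * (fc g A) ^ 2 else 0)
            + (1 / T) * ∑ A : Finset ι, (A.card : ℝ) * (fc g A) ^ 2 := by
            rw [Finset.sum_add_distrib, ← Finset.mul_sum]
        _ ≤ I / (4 * T) + (1 / T) * (I / 4) :=
            add_le_add hlow (mul_le_mul_of_nonneg_left hall (by positivity))
        _ = I / (2 * T) := by field_simp; ring
    · -- large influence case
      push Not at hcase
      have h1 : (4 : ℝ) ^ T ≤ I := by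
        have h2 : ((4 : ℝ) ^ T) ^ 4 ≤ I ^ 4 := by
          have h3 : ((4 : ℝ) ^ T) ^ 4 = 2 ^ (8 * T) := by
            rw [← pow_mul, show (4 : ℝ) = 2 ^ 2 by norm_num, ← pow_mul]
            congr 1; ring
          rw [h3]
          exact hNlow.trans hcase.le
        exact le_of_pow_le_pow_left₀ (by norm_num) hI0 h2
      have h4 : 2 * (T : ℝ) ≤ 4 ^ T := by
        have h7 : T + 1 ≤ 2 ^ T := Nat.lt_two_pow_self
        have h8 : 2 * T ≤ 4 ^ T := by
          calc 2 * T ≤ (T + 1) * (T + 1) := by nlinarith only []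
            _ ≤ 2 ^ T * 2 ^ T := Nat.mul_le_mul h7 h7
            _ = 4 ^ T := by rw [← mul_pow]; norm_num
        exact_mod_cast h8
      have h5 : Vg ≤ 1 := by
        have : Vg ≤ ex (fun _ : ι → Bool => (1 : ℝ)) := by
          apply ex_mono
          intro x
          have e0 : 0 ≤ ex g := ex_nonneg hg0
          have e1 : ex g ≤ 1 := by
            have := ex_mono (F := g) (G := fun _ => 1) hg1
            rwa [ex_const] at this
          have : |g x - ex g| ≤ 1 := by
            rw [abs_le]; constructor <;> linarith only [e0, hg1 x, e1, hg0 x]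
          calc (g x - ex g) ^ 2 = |g x - ex g| ^ 2 := (sq_abs _).symm
            _ ≤ 1 := by nlinarith only [this, abs_nonneg (g x - ex g)]
        rwa [ex_const] at this
      have h6 : 1 ≤ I / (2 * T) := by
        rw [le_div_iff₀ (by positivity)]
        linarith only [h1, h4]
      linarith only [h5, h6]
  -- comparison of f and g
  have hexg : ex g = ex f := by
    simp only [hg]
    rw [ex_comm]
    calc ex (fun r : R => ex (fun x => f (x ∘ π r))) = ex (fun _ : R => ex f) :=
          ex_congr fun r => ex_comp_perm (π r) f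
      _ = ex f := ex_const _
  have hfg : ex (fun x => (f x - g x) ^ 2) ≤ ex (fun r => ex (fun x => |f x - f (x ∘ π r)|)) := by
    rw [ex_comm]
    apply ex_mono
    intro x
    have h1 : f x - g x = ex (fun r : R => f x - f (x ∘ π r)) := by
      rw [ex_sub, ex_const]
    rw [h1]
    refine (sq_ex_le _).trans (ex_mono fun r => ?_)
    rcases hf x with h | h <;> rcases hf (x ∘ π r) with h' | h' <;> simp [h, h']
  have hsplit : ∀ x, (f x - ex f) ^ 2 ≤ 2 * (g x - ex g) ^ 2 + 2 * (f x - g x) ^ 2 := by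
    intro x
    rw [hexg]
    nlinarith only [sq_nonneg ((g x - ex f) - (f x - g x))]
  calc ex (fun x => (f x - ex f) ^ 2) ≤ ex (fun x => 2 * (g x - ex g) ^ 2 + 2 * (f x - g x) ^ 2) :=
        ex_mono hsplit
    _ = 2 * Vg + 2 * ex (fun x => (f x - g x) ^ 2) := by
        rw [ex_add, ex_mul_left, ex_mul_left]
    _ ≤ 2 * (I / (2 * T)) + 2 * ex (fun r => ex (fun x => |f x - f (x ∘ π r)|)) := by linarith only [hVg1, hfg]
    _ = _ := by
        have : 2 * (I / (2 * (T:ℝ))) = 1 / T * I := by (clear * - hT; field_simp)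
        rw [this]

end
end Vale.Agent.P238
end
end

section

section

set_option linter.unusedSectionVars false

namespace Vale.Agent.P238

open Finset

noncomputable section

lemma upd_flip_self {k i j : ℕ} (x : Fin (2 ^ k) → Bool)
    (w : Fin (2 ^ i) → Bool) (p : Fin (2 ^ k)) (hp : (p : ℕ) / 2 ^ i = j) :
    upd i j (flip p x) w = upd i j x w := by
  funext q
  unfold upd
  by_cases h : (q : ℕ) / 2 ^ i = j
  · rw [if_pos h, if_pos h]
  · rw [if_neg h, if_neg h]
    have : q ≠ p := by intro e; apply h; rw [e, hp]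
    simp [flip, this]

lemma upd_upd {k i j : ℕ} (x : Fin (2 ^ k) → Bool) (w w' : Fin (2 ^ i) → Bool) :
    upd i j (upd i j x w) w' = upd i j x w' := by
  funext q
  unfold upd
  by_cases h : (q : ℕ) / 2 ^ i = j
  · rw [if_pos h, if_pos h]
  · rw [if_neg h, if_neg h, if_neg h]

/-- block variance bound, one block -/
lemma block_var_le {k i j : ℕ} (hi : i ≤ k) (hj : j < 2 ^ (k - i)) (f : (Fin (2 ^ k) → Bool) → ℝ)
    [DecidablePred fun A : Finset (Fin (2 ^ k)) => ∃ p ∈ A, (p : ℕ) / 2 ^ i = j] :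
    ∑ A : Finset (Fin (2 ^ k)), (if ∃ p ∈ A, (p : ℕ) / 2 ^ i = j then (fc f A) ^ 2 else 0)
    ≤ ex (fun x => ex (fun w : Fin (2 ^ i) → Bool =>
        (f (upd i j x w) - ex (fun w' : Fin (2 ^ i) → Bool => f (upd i j x w'))) ^ 2)) := by
  set u : (Fin (2 ^ k) → Bool) → ℝ := fun x => ex (fun w' : Fin (2 ^ i) → Bool => f (upd i j x w')) with hu
  have hu0 : ∀ A : Finset (Fin (2 ^ k)), (∃ p ∈ A, (p : ℕ) / 2 ^ i = j) → fc u A = 0 := by
    rintro A ⟨p, hpA, hp⟩
    have h1 := fc_flip u p A
    rw [if_pos hpA] at h1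
    have h2 : (fun x => u (flip p x)) = u := by
      funext x
      simp only [hu]
      apply ex_congr
      intro w
      rw [upd_flip_self x w p hp]
    rw [h2] at h1
    linarith only [h1]
  have h3 : ∀ A : Finset (Fin (2 ^ k)), (if ∃ p ∈ A, (p : ℕ) / 2 ^ i = j then (fc f A) ^ 2 else 0)
      ≤ (fc (fun x => f x - u x) A) ^ 2 := by
    intro A
    split_ifs with h
    · rw [fc_sub, hu0 A h, sub_zero]
    · positivity
  calc _ ≤ ∑ A : Finset (Fin (2 ^ k)), (fc (fun x => f x - u x) A) ^ 2 :=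
        Finset.sum_le_sum (fun A _ => h3 A)
    _ = ex (fun x => (f x - u x) ^ 2) := parseval _
    _ = _ := by
        rw [← ex_upd hi hj]
        apply ex_congr; intro x
        apply ex_congr; intro w
        simp only [hu, upd_upd]

lemma Nb_eq {k i : ℕ} (hi : i ≤ k) (A : Finset (Fin (2 ^ k)))
    [∀ j, DecidablePred fun A : Finset (Fin (2 ^ k)) => ∃ p ∈ A, (p : ℕ) / 2 ^ i = j] :
    (Nb i A : ℝ) = ∑ j ∈ range (2 ^ (k - i)), (if ∃ p ∈ A, (p : ℕ) / 2 ^ i = j then (1 : ℝ) else 0) := by
  classical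
  have h1 : A.image (fun p : Fin (2 ^ k) => (p : ℕ) / 2 ^ i)
      = (range (2 ^ (k - i))).filter (fun j => ∃ p ∈ A, (p : ℕ) / 2 ^ i = j) := by
    ext j
    simp only [Finset.mem_image, Finset.mem_filter, Finset.mem_range]
    constructor
    · rintro ⟨p, hp, rfl⟩
      refine ⟨?_, p, hp, rfl⟩
      rw [Nat.div_lt_iff_lt_mul (by positivity), ← pow_add, Nat.sub_add_cancel hi]
      exact p.2
    · rintro ⟨-, p, hp, rfl⟩
      exact ⟨p, hp, rfl⟩
  unfold Nb
  rw [h1, Finset.card_filter]
  push_cast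
  apply Finset.sum_congr rfl
  intro j _
  congr

lemma sum_pos {k i : ℕ} (hi : i ≤ k) (G : Fin (2 ^ k) → ℝ) :
    ∑ j ∈ range (2 ^ (k - i)), ∑ q : Fin (2 ^ i), G (pos k i j q) = ∑ p, G p := by
  have hk : 2 ^ (k - i) * 2 ^ i = 2 ^ k := by rw [← pow_add, Nat.sub_add_cancel hi]
  rw [Finset.sum_range]
  rw [← Fintype.sum_prod_type']
  refine Fintype.sum_bijective (fun y : Fin (2 ^ (k - i)) × Fin (2 ^ i) => pos k i (y.1 : ℕ) y.2) ?_ _ _ (fun y => rfl)
  constructor
  · rintro ⟨a, q⟩ ⟨b, r⟩ h
    simp only at h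
    have h1 : (pos k i (a : ℕ) q : ℕ) / 2 ^ i = (pos k i (b : ℕ) r : ℕ) / 2 ^ i := by rw [h]
    have h2 : (pos k i (a : ℕ) q : ℕ) % 2 ^ i = (pos k i (b : ℕ) r : ℕ) % 2 ^ i := by rw [h]
    rw [pos_div hi a.2, pos_div hi b.2] at h1
    rw [pos_mod hi a.2, pos_mod hi b.2] at h2
    exact Prod.ext (Fin.ext h1) (Fin.ext h2)
  · intro p
    have hj : (p : ℕ) / 2 ^ i < 2 ^ (k - i) := by
      rw [Nat.div_lt_iff_lt_mul (by positivity), ← pow_add, Nat.sub_add_cancel hi]
      exact p.2
    exact ⟨(⟨(p : ℕ) / 2 ^ i, hj⟩, ⟨(p : ℕ) % 2 ^ i, Nat.mod_lt _ (by positivity)⟩), pos_of_div hi p rfl⟩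

theorem Vb_le {k i T : ℕ} (hT : 1 ≤ T) (hTi : 8 * T ≤ i) (hi : i ≤ k) (f : (Fin (2 ^ k) → Bool) → ℝ)
    (hf : ∀ x, f x = 0 ∨ f x = 1) :
    Vb i f ≤ (1 / (T : ℝ)) * ∑ p, ex (fun x => |f x - f (flip p x)|)
      + ∑ j ∈ range (2 ^ (k - i)),
          2 * ex (fun r : Fin (2 ^ (8 * T)) => ex (fun x => |f x - f (x ∘ rho k i j r)|)) := by
  classical
  have h2 : ∀ r : Fin (2 ^ (8 * T)), (r : ℕ) ≤ 2 ^ i := fun r =>
    r.2.le.trans (Nat.pow_le_pow_right (by norm_num) hTi)
  have h1 : Vb i f = ∑ j ∈ range (2 ^ (k - i)),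
      ∑ A : Finset (Fin (2 ^ k)), (if ∃ p ∈ A, (p : ℕ) / 2 ^ i = j then (fc f A) ^ 2 else 0) := by
    unfold Vb
    rw [Finset.sum_comm]
    apply Finset.sum_congr rfl
    intro A _
    rw [Nb_eq hi, Finset.mul_sum]
    apply Finset.sum_congr rfl
    intro j _
    split_ifs <;> simp
  rw [h1]
  have hinj : ∀ q : Fin (2 ^ i), Function.Injective (fun r : Fin (2 ^ (8 * T)) => (rho i i 0 (r : ℕ)).symm q) := by
    intro q r r' h
    have h3 : (((rho i i 0 (r : ℕ)).symm q : Fin (2 ^ i)) : ℕ) = (((rho i i 0 (r' : ℕ)).symm q : Fin (2 ^ i)) : ℕ) :=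
      congrArg Fin.val h
    rw [rho_symm_apply le_rfl (h2 r), rho_symm_apply le_rfl (h2 r')] at h3
    have h0 : (q : ℕ) / 2 ^ i = 0 := Nat.div_eq_of_lt q.2
    rw [rhoN_of_eq h0, rhoN_of_eq h0] at h3
    have hr := r.2
    have hr' := r'.2
    have hq := q.2
    have hle : 2 ^ (8 * T) ≤ 2 ^ i := Nat.pow_le_pow_right (by norm_num) hTi
    have hmod : ((q : ℕ) % 2 ^ i + (2 ^ i - (r : ℕ))) % 2 ^ i = ((q : ℕ) % 2 ^ i + (2 ^ i - (r' : ℕ))) % 2 ^ i := by
      simpa only [Nat.mod_add_mod, mul_zero, zero_add] using h3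
    have hmod2 : (2 ^ i - (r : ℕ)) ≡ (2 ^ i - (r' : ℕ)) [MOD 2 ^ i] := Nat.ModEq.add_left_cancel' _ hmod
    apply Fin.ext
    by_contra hne
    rcases Nat.lt_or_gt_of_ne hne with hlt | hlt
    · have := (Nat.modEq_iff_dvd' (by omega : 2 ^ i - (r' : ℕ) ≤ 2 ^ i - (r : ℕ))).mp hmod2.symm
      have h5 := Nat.le_of_dvd (by omega) this
      (clear * - hr' hle hlt h5; omega)
    · have := (Nat.modEq_iff_dvd' (by omega : 2 ^ i - (r : ℕ) ≤ 2 ^ i - (r' : ℕ))).mp hmod2
      have h5 := Nat.le_of_dvd (by (clear * - hr hle hlt; omega)) this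
      (clear * - hr hle hlt h5; omega)
  have hj : ∀ j ∈ range (2 ^ (k - i)),
      ∑ A : Finset (Fin (2 ^ k)), (if ∃ p ∈ A, (p : ℕ) / 2 ^ i = j then (fc f A) ^ 2 else 0)
      ≤ (1 / (T : ℝ)) * ∑ q : Fin (2 ^ i), ex (fun x => |f x - f (flip (pos k i j q) x)|)
        + 2 * ex (fun r : Fin (2 ^ (8 * T)) => ex (fun x => |f x - f (x ∘ rho k i j r)|)) := by
    intro j hj
    rw [Finset.mem_range] at hj
    refine le_trans (block_var_le hi hj f) ?_
    have hk : ∀ x, ex (fun w : Fin (2 ^ i) → Bool =>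
        (f (upd i j x w) - ex (fun w' : Fin (2 ^ i) → Bool => f (upd i j x w'))) ^ 2)
        ≤ (1 / (T : ℝ)) * ∑ q : Fin (2 ^ i), ex (fun w : Fin (2 ^ i) → Bool => |f (upd i j x w) - f (flip (pos k i j q) (upd i j x w))|)
        + 2 * ex (fun r : Fin (2 ^ (8 * T)) => ex (fun w : Fin (2 ^ i) → Bool => |f (upd i j x w) - f ((upd i j x w) ∘ rho k i j r)|)) := by
      intro x
      have := local_kkl (fun w : Fin (2 ^ i) → Bool => f (upd i j x w)) (fun w => hf _)
        (fun r : Fin (2 ^ (8 * T)) => rho i i 0 (r : ℕ)) hinj T hT (by simp)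
      simp only [upd_flip hi hj] at this
      have e : ∀ r : Fin (2 ^ (8 * T)), ∀ w : Fin (2 ^ i) → Bool, upd i j x (w ∘ rho i i 0 (r : ℕ)) = upd i j x w ∘ rho k i j r :=
        fun r w => (upd_comp_rho hi (h2 r) x w).symm
      simp only [e] at this
      exact this
    refine le_trans (ex_mono hk) ?_
    rw [ex_add, ex_mul_left, ex_sum, ex_mul_left, ex_comm]
    apply add_le_add
    · apply mul_le_mul_of_nonneg_left _ (by positivity)
      apply Finset.sum_le_sum
      intro q _
      exact le_of_eq (ex_upd hi hj (fun x => |f x - f (flip (pos k i j q) x)|))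
    · apply mul_le_mul_of_nonneg_left _ (by positivity)
      apply ex_mono
      intro r
      exact le_of_eq (ex_upd hi hj (fun x => |f x - f (x ∘ rho k i j r)|))
  refine le_trans (Finset.sum_le_sum hj) ?_
  rw [Finset.sum_add_distrib, ← Finset.mul_sum, sum_pos hi (fun p => ex (fun x => |f x - f (flip p x)|))]

end

end Vale.Agent.P238
end
end

section

section

set_option linter.unusedSectionVars false

namespace Vale.Agent.P238

open Finset

noncomputable section

variable {X : Type} [Fintype X]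

/-- co-area principle: a linear functional on kernels which is nonnegative on cut semimetrics is
nonnegative on all line semimetrics. -/
lemma line_of_cuts (Φ : (X → X → ℝ) →ₗ[ℝ] ℝ)
    (hcut : ∀ f : X → ℝ, (∀ x, f x = 0 ∨ f x = 1) → 0 ≤ Φ (fun x y => |f x - f y|)) :
    ∀ (n : ℕ) (f : X → ℝ), (univ.image f).card ≤ n → 0 ≤ Φ (fun x y => |f x - f y|) := by
  classical
  intro n
  induction n with
  | zero =>
    intro f hf
    have hE : IsEmpty X := by
      by_contra h
      rw [not_isEmpty_iff] at h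
      obtain ⟨x⟩ := h
      have h1 : f x ∈ univ.image f := Finset.mem_image_of_mem f (Finset.mem_univ x)
      rw [Nat.le_zero, Finset.card_eq_zero] at hf
      rw [hf] at h1
      simp at h1
    have : (fun x y => |f x - f y|) = (0 : X → X → ℝ) := by
      funext x; exact (hE.false x).elim
    rw [this, map_zero]
  | succ n ih =>
    intro f hf
    by_cases hle : (univ.image f).card ≤ n
    · exact ih f hle
    by_cases hone : (univ.image f).card ≤ 1
    · have hconst : ∀ x y, f x = f y := by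
        intro x y
        exact Finset.card_le_one.mp hone _ (Finset.mem_image_of_mem f (Finset.mem_univ x)) _
          (Finset.mem_image_of_mem f (Finset.mem_univ y))
      have : (fun x y => |f x - f y|) = (0 : X → X → ℝ) := by
        funext x y
        simp [hconst x y]
      rw [this, map_zero]
    · have hne : (univ.image f).Nonempty := Finset.card_pos.mp (by omega)
      set M := (univ.image f).max' hne with hM
      have hMmem : M ∈ univ.image f := Finset.max'_mem _ _
      have hne' : ((univ.image f).erase M).Nonempty := by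
        apply Finset.card_pos.mp
        rw [Finset.card_erase_of_mem hMmem]
        omega
      set M' := ((univ.image f).erase M).max' hne' with hM'
      have hM'mem : M' ∈ (univ.image f).erase M := Finset.max'_mem _ _
      have hle1 : ∀ x, f x ≠ M → f x ≤ M' := by
        intro x hx
        apply Finset.le_max'
        exact Finset.mem_erase.mpr ⟨hx, Finset.mem_image_of_mem f (Finset.mem_univ x)⟩
      have hMM' : M' ≤ M := by
        apply Finset.le_max'
        exact Finset.mem_of_mem_erase hM'mem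
      set f' : X → ℝ := fun x => if f x = M then M' else f x with hf'
      set g : X → ℝ := fun x => if f x = M then 1 else 0 with hg
      have hdec : (fun x y => |f x - f y|) = (fun x y => |f' x - f' y|) + (M - M') • (fun x y => |g x - g y|) := by
        funext x y
        simp only [Pi.add_apply, Pi.smul_apply, smul_eq_mul, hf', hg]
        by_cases hx : f x = M <;> by_cases hy : f y = M
        · simp [hx, hy]
        · have := hle1 y hy
          rw [if_pos hx, if_pos hx, if_neg hy, if_neg hy, hx, abs_of_nonneg (by linarith only [hMM', this]), abs_of_nonneg (by linarith only [this])]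
          simp
        · have := hle1 x hx
          rw [if_pos hy, if_pos hy, if_neg hx, if_neg hx, hy, abs_of_nonpos (by linarith only [hMM', this]), abs_of_nonpos (by linarith only [this])]
          simp only [neg_sub, zero_sub, abs_neg, abs_one, mul_one, sub_add_sub_cancel']
        · simp [hx, hy]
      rw [hdec, map_add, map_smul]
      have himg : univ.image f' ⊆ (univ.image f).erase M := by
        intro v hv
        obtain ⟨x, -, rfl⟩ := Finset.mem_image.mp hv
        simp only [hf']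
        split_ifs with hx
        · exact hM'mem
        · exact Finset.mem_erase.mpr ⟨hx, Finset.mem_image_of_mem f (Finset.mem_univ x)⟩
      have h1 : 0 ≤ Φ (fun x y => |f' x - f' y|) := by
        apply ih
        have h2 := Finset.card_le_card himg
        rw [Finset.card_erase_of_mem hMmem] at h2
        omega
      have h2 : 0 ≤ Φ (fun x y => |g x - g y|) := by
        apply hcut
        intro x
        simp only [hg]
        split_ifs <;> simp
      rw [smul_eq_mul]
      have : 0 ≤ M - M' := by linarith only [hMM']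
      (clear * - h1 hMM' h2; positivity)

/-- a linear functional on kernels which is nonnegative on cut semimetrics is nonnegative on
`ℓ₁` distances. -/
theorem l1_of_cuts (Φ : (X → X → ℝ) →ₗ[ℝ] ℝ)
    (hcut : ∀ f : X → ℝ, (∀ x, f x = 0 ∨ f x = 1) → 0 ≤ Φ (fun x y => |f x - f y|))
    (F : X → lp (fun _ : ℕ => ℝ) 1) : 0 ≤ Φ (fun x y => ‖F x - F y‖) := by
  have hcont : Continuous Φ := LinearMap.continuous_of_finiteDimensional Φ
  set d : ℕ → X → X → ℝ := fun n x y => ∑ t ∈ range n, |F x t - F y t| with hd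
  have hlim : Filter.Tendsto d Filter.atTop (nhds (fun x y => ‖F x - F y‖)) := by
    rw [tendsto_pi_nhds]
    intro x
    rw [tendsto_pi_nhds]
    intro y
    have h1 := lp.hasSum_norm (p := 1) (E := fun _ : ℕ => ℝ) (by norm_num) (F x - F y)
    simp only [ENNReal.toReal_one, Real.rpow_one] at h1
    have h2 := h1.tendsto_sum_nat
    simp only [hd]
    refine h2.congr ?_
    intro n
    apply Finset.sum_congr rfl
    intro t _
    rw [lp.coeFn_sub, Pi.sub_apply, Real.norm_eq_abs]
  have hnn : ∀ n, 0 ≤ Φ (d n) := by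
    intro n
    have : d n = ∑ t ∈ range n, (fun x y => |F x t - F y t|) := by
      funext x y
      simp only [hd, Finset.sum_apply]
    rw [this, map_sum]
    apply Finset.sum_nonneg
    intro t _
    exact line_of_cuts Φ hcut _ (fun x => F x t) le_rfl
  exact ge_of_tendsto' ((hcont.tendsto _).comp hlim) hnn

end

end Vale.Agent.P238
end
end

section

section

set_option linter.unusedSectionVars false

namespace Vale.Agent.P238

open Finset

noncomputable section

lemma Vb_nonneg {k i : ℕ} (f : (Fin (2 ^ k) → Bool) → ℝ) : 0 ≤ Vb i f :=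
  Finset.sum_nonneg (fun A _ => by (clear * -; positivity))

lemma Nb_succ_le {k i : ℕ} (A : Finset (Fin (2 ^ k))) : Nb (i + 1) A ≤ Nb i A := by
  classical
  unfold Nb
  have : A.image (fun p : Fin (2 ^ k) => (p : ℕ) / 2 ^ (i + 1))
      = (A.image (fun p : Fin (2 ^ k) => (p : ℕ) / 2 ^ i)).image (fun q => q / 2) := by
    rw [Finset.image_image]
    apply Finset.image_congr
    intro p _
    simp only [Function.comp]
    rw [div_pow_add, pow_one]
  rw [this]
  exact Finset.card_image_le

lemma Vb_succ_le {k i : ℕ} (f : (Fin (2 ^ k) → Bool) → ℝ) : Vb (i + 1) f ≤ Vb i f := by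
  apply Finset.sum_le_sum
  intro A _
  apply mul_le_mul_of_nonneg_left _ (sq_nonneg _)
  exact_mod_cast Nb_succ_le A

lemma Vb_anti {k : ℕ} (f : (Fin (2 ^ k) → Bool) → ℝ) : Antitone (fun i => Vb i f) :=
  antitone_nat_of_succ_le (fun _ => Vb_succ_le f)

lemma telescope (u : ℕ → ℝ) (a s b : ℕ) (hab : a ≤ b) :
    ∑ i ∈ Ico a b, (u i - u (i + s)) = ∑ i ∈ Ico a (a + s), u i - ∑ i ∈ Ico b (b + s), u i := by
  induction b, hab using Nat.le_induction with
  | base => simp only [Std.le_refl, Ico_eq_empty_of_le, sum_sub_distrib, sum_empty, sub_self]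
  | succ b hab ih =>
    rw [Finset.sum_Ico_succ_top hab, ih]
    have h1 : ∑ i ∈ Ico b (b + s), u i + u (b + s) = u b + ∑ i ∈ Ico (b + 1) (b + 1 + s), u i := by
      have h2 : ∑ i ∈ Ico b (b + s), u i + u (b + s) = ∑ i ∈ Ico b (b + s + 1), u i :=
        (Finset.sum_Ico_succ_top (by omega) u).symm
      have h3 : u b + ∑ i ∈ Ico (b + 1) (b + s + 1), u i = ∑ i ∈ Ico b (b + s + 1), u i :=
        (Finset.sum_eq_sum_Ico_succ_bot (by omega) u).symm
      have h4 : b + 1 + s = b + s + 1 := by omega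
      rw [h4, h2, h3]
    linarith only [h1]

lemma telescope_le (u : ℕ → ℝ) (hu : Antitone u) (hn : ∀ i, 0 ≤ u i) (a s b : ℕ) (hab : a ≤ b) :
    ∑ i ∈ Ico a b, (u i - u (i + s)) ≤ s * u a := by
  rw [telescope u a s b hab]
  have h1 : 0 ≤ ∑ i ∈ Ico b (b + s), u i := Finset.sum_nonneg (fun i _ => hn i)
  have h2 : ∑ i ∈ Ico a (a + s), u i ≤ ∑ _i ∈ Ico a (a + s), u a := by
    apply Finset.sum_le_sum
    intro i hi
    exact hu (Finset.mem_Ico.mp hi).1
  rw [Finset.sum_const, Nat.card_Ico, nsmul_eq_mul] at h2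
  have h3 : ((a + s - a : ℕ) : ℝ) = s := by
    congr 1; omega
  rw [h3] at h2
  linarith only [h1, h2]

/-- the left side: swaps at all scales -/
def LH (k s i0 : ℕ) (d : (Fin (2 ^ k) → Bool) → (Fin (2 ^ k) → Bool) → ℝ) : ℝ :=
  ∑ i ∈ Ico i0 (k - s + 1), ∑ j ∈ range (2 ^ (k - (i + 1))),
    ex (fun x => d x (x ∘ rho k (i + 1) j (2 ^ i)))

/-- the right side: rotations of large blocks, single flips, small rotations of small blocks -/
def RH (k s i0 T : ℕ) (d : (Fin (2 ^ k) → Bool) → (Fin (2 ^ k) → Bool) → ℝ) : ℝ :=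
  ∑ i ∈ Ico i0 (k - s + 1), ∑ J ∈ range (2 ^ (k - (i + s))),
    (ex (fun x => d x (x ∘ rho k (i + s) J (2 ^ i)))
      + ex (fun x => d x (x ∘ rho k (i + s) J (2 ^ (i + s) - 2 ^ i))))
  + 8 * s * ((1 / (T : ℝ)) * ∑ p, ex (fun x => d x (flip p x))
      + ∑ j ∈ range (2 ^ (k - i0)),
          2 * ex (fun r : Fin (2 ^ (8 * T)) => ex (fun x => d x (x ∘ rho k i0 j r))))

lemma zero_one_sq {a b : ℝ} (ha : a = 0 ∨ a = 1) (hb : b = 0 ∨ b = 1) : (a - b) ^ 2 = |a - b| := by
  rcases ha with rfl | rfl <;> rcases hb with rfl | rfl <;> simp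

theorem cut_ineq {k s i0 T : ℕ} (hT : 1 ≤ T) (hTi : 8 * T ≤ i0) (hs : 1 ≤ s) (hk : i0 + s ≤ k)
    (f : (Fin (2 ^ k) → Bool) → ℝ) (hf : ∀ x, f x = 0 ∨ f x = 1) :
    LH k s i0 (fun x y => |f x - f y|) ≤ RH k s i0 T (fun x y => |f x - f y|) := by
  have hV := Vb_le hT hTi (by omega : i0 ≤ k) f hf
  have h1 : ∀ i ∈ Ico i0 (k - s + 1),
      ∑ j ∈ range (2 ^ (k - (i + 1))), ex (fun x => |f x - f (x ∘ rho k (i + 1) j (2 ^ i))|)
      ≤ ∑ J ∈ range (2 ^ (k - (i + s))),
        (ex (fun x => |f x - f (x ∘ rho k (i + s) J (2 ^ i))|)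
        + ex (fun x => |f x - f (x ∘ rho k (i + s) J (2 ^ (i + s) - 2 ^ i))|))
        + 8 * (Vb i f - Vb (i + s) f) := by
    intro i hi
    rw [Finset.mem_Ico] at hi
    have := scale_ineq hs (by omega : i + s ≤ k) f
    have e : ∀ (σ : Equiv.Perm (Fin (2 ^ k))) (x : Fin (2 ^ k) → Bool), (f x - f (x ∘ σ)) ^ 2 = |f x - f (x ∘ σ)| :=
      fun σ x => zero_one_sq (hf _) (hf _)
    simp only [e] at this
    exact this
  have h2 := Finset.sum_le_sum h1
  rw [Finset.sum_add_distrib, ← Finset.mul_sum] at h2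
  have h3 := telescope_le (fun i => Vb i f) (Vb_anti f) (fun i => Vb_nonneg f) i0 s (k - s + 1) (by omega)
  unfold LH RH
  have hs0 : (0 : ℝ) ≤ 8 * s := by positivity
  have h4 := mul_le_mul_of_nonneg_left hV hs0
  linarith only [h2, h3, h4]

/-- the difference of the two sides as a linear functional -/
def Phi (k s i0 T : ℕ) : ((Fin (2 ^ k) → Bool) → (Fin (2 ^ k) → Bool) → ℝ) →ₗ[ℝ] ℝ where
  toFun d := RH k s i0 T d - LH k s i0 d
  map_add' d e := by
    unfold RH LH
    simp only [Pi.add_apply, ex_add, Finset.sum_add_distrib, mul_add]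
    ring
  map_smul' c d := by
    unfold RH LH
    simp only [Pi.smul_apply, smul_eq_mul, ex_mul_left, RingHom.id_apply]
    simp only [← mul_add, mul_left_comm _ c, ← Finset.mul_sum, ← mul_sub]

theorem l1_ineq {k s i0 T : ℕ} (hT : 1 ≤ T) (hTi : 8 * T ≤ i0) (hs : 1 ≤ s) (hk : i0 + s ≤ k)
    (F : (Fin (2 ^ k) → Bool) → lp (fun _ : ℕ => ℝ) 1) :
    LH k s i0 (fun x y => ‖F x - F y‖) ≤ RH k s i0 T (fun x y => ‖F x - F y‖) := by
  have := l1_of_cuts (Phi k s i0 T) (fun f hf => sub_nonneg.mpr (cut_ineq hT hTi hs hk f hf)) F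
  exact sub_nonneg.mp this

end

end Vale.Agent.P238
end
end

section

section

namespace Vale.Agent.P238

section basic

variable {α : Type}

theorem EditStep.symm {x y : List α} (h : EditStep x y) : EditStep y x := by
  cases h with
  | ins u v a => exact EditStep.del u v a
  | del u v a => exact EditStep.ins u v a
  | sub u v a b => exact EditStep.sub u v b a

theorem EditStep.context {x y : List α} (h : EditStep x y) (p q : List α) :
    EditStep (p ++ (x ++ q)) (p ++ (y ++ q)) := by
  cases h with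
  | ins u v a =>
    have := EditStep.ins (p ++ u) (v ++ q) a
    simpa using this
  | del u v a =>
    have := EditStep.del (p ++ u) (v ++ q) a
    simpa using this
  | sub u v a b =>
    have := EditStep.sub (p ++ u) (v ++ q) a b
    simpa using this

theorem EditSteps.trans {m n : ℕ} {x y z : List α} (h : EditSteps m x y)
    (h' : EditSteps n y z) : EditSteps (m + n) x z := by
  induction h' with
  | refl x => simpa using h
  | @tail k y' w z' _ s ih =>
    have := EditSteps.tail (ih h) s
    rwa [← add_assoc]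

theorem EditSteps.single {x y : List α} (h : EditStep x y) : EditSteps 1 x y :=
  EditSteps.tail (EditSteps.refl x) h

theorem EditSteps.symm {n : ℕ} {x y : List α} (h : EditSteps n x y) : EditSteps n y x := by
  induction h with
  | refl x => exact EditSteps.refl x
  | @tail k x' w z' _ s ih =>
    have := (EditSteps.single s.symm).trans ih
    rwa [add_comm]

theorem EditSteps.context {n : ℕ} {x y : List α} (h : EditSteps n x y) (p q : List α) :
    EditSteps n (p ++ (x ++ q)) (p ++ (y ++ q)) := by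
  induction h with
  | refl x => exact EditSteps.refl _
  | tail _ s ih => exact EditSteps.tail ih (s.context p q)

theorem EditSteps.insert (a b : List α) : EditSteps a.length b (a ++ b) := by
  induction a with
  | nil => exact EditSteps.refl _
  | cons c a ih =>
    refine EditSteps.tail ih ?_
    exact EditStep.ins [] (a ++ b) c

theorem EditSteps.insert_right (a b : List α) : EditSteps a.length b (b ++ a) := by
  have h := (EditSteps.insert a []).context b []
  simpa using h

theorem editSteps_exists (x y : List α) : ∃ n, EditSteps n x y := by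
  refine ⟨x.length + y.length, ?_⟩
  have h1 := (EditSteps.insert x []).symm
  have h2 := (EditSteps.insert y [])
  simp only [List.append_nil] at h1 h2
  exact h1.trans h2

theorem ED_steps (x y : List α) : EditSteps (ED x y) x y :=
  Nat.sInf_mem (editSteps_exists x y)

theorem ED_le {n : ℕ} {x y : List α} (h : EditSteps n x y) : ED x y ≤ n :=
  Nat.sInf_le h

theorem ED_self (x : List α) : ED x x = 0 := by
  have := ED_le (EditSteps.refl x)
  omega

theorem ED_comm (x y : List α) : ED x y = ED y x :=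
  le_antisymm (ED_le (ED_steps y x).symm) (ED_le (ED_steps x y).symm)

theorem ED_triangle (x y z : List α) : ED x z ≤ ED x y + ED y z :=
  ED_le ((ED_steps x y).trans (ED_steps y z))

theorem ED_eq_zero_iff {x y : List α} : ED x y = 0 ↔ x = y := by
  constructor
  · intro h
    have h' := ED_steps x y
    rw [h] at h'
    cases h'
    rfl
  · rintro rfl
    exact ED_self x

theorem ED_eq_zero {x y : List α} (h : ED x y = 0) : x = y := ED_eq_zero_iff.1 h

theorem ED_context_le (p q x y : List α) : ED (p ++ (x ++ q)) (p ++ (y ++ q)) ≤ ED x y :=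
  ED_le ((ED_steps x y).context p q)

/-- Substituting one symbol costs at most one. -/
theorem ED_sub_le (u v : List α) (a b : α) : ED (u ++ a :: v) (u ++ b :: v) ≤ 1 :=
  ED_le (EditSteps.single (EditStep.sub u v a b))

/-- Swapping two adjacent blocks costs at most twice the length of the first. -/
theorem ED_swap_le_left (a b : List α) : ED (a ++ b) (b ++ a) ≤ 2 * a.length := by
  have h := (EditSteps.insert a b).symm.trans (EditSteps.insert_right a b)
  have := ED_le h
  omega

theorem ED_swap_le_right (a b : List α) : ED (a ++ b) (b ++ a) ≤ 2 * b.length := by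
  have h := (EditSteps.insert_right b a).symm.trans (EditSteps.insert b a)
  have := ED_le h
  omega

theorem ED_swap_context_le (u a b v : List α) :
    ED (u ++ (a ++ (b ++ v))) (u ++ (b ++ (a ++ v))) ≤ 2 * min a.length b.length := by
  have h := ED_context_le u v (a ++ b) (b ++ a)
  rw [List.append_assoc, List.append_assoc] at h
  have h1 := ED_swap_le_left a b
  have h2 := ED_swap_le_right a b
  omega

/-- A path of `n` edit operations leaves a common sublist of codimension at most `n`. -/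
theorem EditSteps.common {n : ℕ} {x y : List α} (h : EditSteps n x y) :
    ∃ s : List α, s.Sublist x ∧ s.Sublist y ∧ x.length ≤ s.length + n ∧
      y.length ≤ s.length + n := by
  induction h with
  | refl x => exact ⟨x, List.Sublist.refl x, List.Sublist.refl x, by omega, by omega⟩
  | @tail k x y z _ st ih =>
    obtain ⟨s, hsx, hsy, hx, hy⟩ := ih
    have key : ∀ (u v : List α) (c : α), s.Sublist (u ++ c :: v) →
        ∃ s' : List α, s'.Sublist s ∧ s'.Sublist (u ++ v) ∧ s.length ≤ s'.length + 1 := by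
      intro u v c hs
      obtain ⟨s1, s2, rfl, h1, h2⟩ := List.sublist_append_iff.1 hs
      cases h2 with
      | cons _ h2 =>
        exact ⟨s1 ++ s2, List.Sublist.refl _, h1.append h2, by omega⟩
      | cons_cons _ h2 =>
        rename_i s3
        refine ⟨s1 ++ s3, ?_, h1.append h2, ?_⟩
        · exact (List.Sublist.refl s1).append (List.sublist_cons_self c s3)
        · simp only [List.length_append, List.length_cons]; omega
    cases st with
    | ins u v a =>
      refine ⟨s, hsx, ?_, by omega, ?_⟩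
      · exact hsy.trans ((List.Sublist.refl u).append (List.sublist_cons_self a v))
      · simp only [List.length_append, List.length_cons] at hy ⊢; omega
    | del u v a =>
      obtain ⟨s', hs's, hs'x, hl⟩ := key u v a hsy
      refine ⟨s', hs's.trans hsx, hs'x, by omega, ?_⟩
      · simp only [List.length_append, List.length_cons] at hy ⊢; omega
    | sub u v a b =>
      obtain ⟨s', hs's, hs'x, hl⟩ := key u v a hsy
      refine ⟨s', hs's.trans hsx, ?_, by omega, ?_⟩
      · exact hs'x.trans ((List.Sublist.refl u).append (List.sublist_cons_self b v))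
      · simp only [List.length_append, List.length_cons] at hy ⊢; omega

theorem seg_sublist (S1 S2 R : List α) (i k : ℕ) (h1 : S1.length ≤ i)
    (h2 : i + k ≤ S1.length + S2.length) :
    (((S1 ++ (S2 ++ R)).drop i).take k).Sublist S2 := by
  rw [List.drop_append, List.drop_eq_nil_of_le h1, List.nil_append, List.drop_append]
  have e : i - S1.length - S2.length = 0 := by omega
  rw [e, List.drop_zero, List.take_append_of_le_length (by simp only [List.length_drop]; omega)]
  exact (List.take_sublist _ _).trans (List.drop_sublist _ _)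

/-- If `U A B V` and `U B A V` have a large common sublist then so do `A` and `B`. -/
theorem common_of_swap {U A B V S : List α} {m d : ℕ} (hA : A.length = m) (hB : B.length = m)
    (h1 : S.Sublist (U ++ (A ++ (B ++ V)))) (h2 : S.Sublist (U ++ (B ++ (A ++ V))))
    (hd : U.length + 2 * m + V.length ≤ S.length + d) :
    ∃ s : List α, s.Sublist A ∧ s.Sublist B ∧ s.length = m - d := by
  rcases Nat.lt_or_ge d m with hdm | hdm
  swap
  · refine ⟨[], List.nil_sublist _, List.nil_sublist _, ?_⟩
    simp only [List.length_nil]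
    omega
  obtain ⟨S1, S', rfl, hS1, hS'⟩ := List.sublist_append_iff.1 h1
  obtain ⟨S2, S'', rfl, hS2, hS''⟩ := List.sublist_append_iff.1 hS'
  obtain ⟨S3, S4, rfl, hS3, hS4⟩ := List.sublist_append_iff.1 hS''
  obtain ⟨T1, T', hT, hT1, hT'⟩ := List.sublist_append_iff.1 h2
  obtain ⟨T2, T'', rfl, hT2, hT''⟩ := List.sublist_append_iff.1 hT'
  obtain ⟨T3, T4, rfl, hT3, hT4⟩ := List.sublist_append_iff.1 hT''
  have a1 := hS1.length_le
  have a2 := hS2.length_le
  have a3 := hS3.length_le
  have a4 := hS4.length_le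
  have b1 := hT1.length_le
  have b2 := hT2.length_le
  have b3 := hT3.length_le
  have b4 := hT4.length_le
  have hlen := congrArg List.length hT
  simp only [List.length_append] at hlen hd
  set i := max S1.length T1.length with hi
  set e := min (S1.length + S2.length) (T1.length + T2.length) with he
  have hie : i + (m - d) ≤ e := by
    rw [hi, he]
    omega
  have h5 : e ≤ S1.length + S2.length := min_le_left _ _
  have h6 : e ≤ T1.length + T2.length := min_le_right _ _
  refine ⟨((S1 ++ (S2 ++ (S3 ++ S4))).drop i).take (m - d), ?_, ?_, ?_⟩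
  · exact (seg_sublist S1 S2 (S3 ++ S4) i (m - d) (le_max_left _ _) (by omega)).trans hS2
  · rw [hT]
    exact (seg_sublist T1 T2 (T3 ++ T4) i (m - d) (le_max_right _ _) (by omega)).trans hT2
  · rw [List.length_take, List.length_drop]
    simp only [List.length_append]
    omega

/-- Few edits between `U A B V` and `U B A V` force a long common sublist of `A` and `B`. -/
theorem common_of_ED_swap {U A B V : List α} {m d : ℕ} (hA : A.length = m) (hB : B.length = m)
    (h : ED (U ++ (A ++ (B ++ V))) (U ++ (B ++ (A ++ V))) ≤ d) :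
    ∃ s : List α, s.Sublist A ∧ s.Sublist B ∧ s.length = m - d := by
  obtain ⟨S, hS1, hS2, hl, _⟩ := (ED_steps (U ++ (A ++ (B ++ V))) (U ++ (B ++ (A ++ V)))).common
  refine common_of_swap hA hB hS1 hS2 ?_
  simp only [List.length_append] at hl
  omega

end basic

end Vale.Agent.P238
end
end

section

section

namespace Vale.Agent.P238

/-- The number of binary words of length `m` containing `s` as a sublist. -/
def cnt (m : ℕ) (s : List Bool) : ℕ :=
  (Finset.univ.filter (fun y : Fin m → Bool => s.Sublist (List.ofFn y))).card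

theorem cnt_nil (m : ℕ) : cnt m [] = 2 ^ m := by
  simp only [cnt, List.nil_sublist, Finset.filter_true, Finset.card_univ, Fintype.card_pi, Fintype.card_bool, Finset.prod_const, Fintype.card_fin]

theorem cnt_zero_cons (a : Bool) (s : List Bool) : cnt 0 (a :: s) = 0 := by
  simp [cnt]

theorem cnt_succ_cons (m : ℕ) (a : Bool) (s : List Bool) :
    cnt (m + 1) (a :: s) = cnt m s + cnt m (a :: s) := by
  unfold cnt
  rw [Finset.card_filter, Finset.card_filter, Finset.card_filter]
  rw [← (Fin.consEquiv (fun _ : Fin (m + 1) => Bool)).sum_comp, Fintype.sum_prod_type]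
  have hc : ∀ (b : Bool) (y : Fin m → Bool),
      List.ofFn ((Fin.consEquiv (fun _ : Fin (m + 1) => Bool)) (b, y)) = b :: List.ofFn y := by
    intro b y
    exact List.ofFn_cons b y
  simp only [hc, Fintype.sum_bool]
  cases a
  · rw [add_comm]
    congr 1
    · apply Finset.sum_congr rfl
      intro y _
      simp [List.cons_sublist_cons]
    · apply Finset.sum_congr rfl
      intro y _
      have : (false :: s).Sublist (true :: List.ofFn y) ↔ (false :: s).Sublist (List.ofFn y) := by
        rw [List.cons_sublist_cons']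
        simp
      by_cases h : (false :: s).Sublist (List.ofFn y)
      · rw [if_pos h, if_pos (this.2 h)]
      · rw [if_neg h, if_neg (fun h' => h (this.1 h'))]
  · congr 1
    · apply Finset.sum_congr rfl
      intro y _
      simp [List.cons_sublist_cons]
    · apply Finset.sum_congr rfl
      intro y _
      have : (true :: s).Sublist (false :: List.ofFn y) ↔ (true :: s).Sublist (List.ofFn y) := by
        rw [List.cons_sublist_cons']
        simp
      by_cases h : (true :: s).Sublist (List.ofFn y)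
      · rw [if_pos h, if_pos (this.2 h)]
      · rw [if_neg h, if_neg (fun h' => h (this.1 h'))]

theorem cnt_le (m : ℕ) : ∀ s : List Bool, 16 ^ s.length * cnt m s ≤ 17 ^ m := by
  induction m with
  | zero =>
    intro s
    cases s with
    | nil => simp [cnt_nil]
    | cons a s => simp only [List.length_cons, cnt_zero_cons, mul_zero, pow_zero, zero_le]
  | succ m ih =>
    intro s
    cases s with
    | nil =>
      simp only [List.length_nil, pow_zero, one_mul, cnt_nil]
      exact Nat.pow_le_pow_left (by norm_num) _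
    | cons a s =>
      rw [cnt_succ_cons]
      have h1 := ih s
      have h2 := ih (a :: s)
      simp only [List.length_cons] at h2 ⊢
      calc 16 ^ (s.length + 1) * (cnt m s + cnt m (a :: s))
          = 16 * (16 ^ s.length * cnt m s) + 16 ^ (s.length + 1) * cnt m (a :: s) := by ring
        _ ≤ 16 * 17 ^ m + 17 ^ m := by (clear * - h1 h2; gcongr)
        _ = 17 ^ (m + 1) := by ring

/-- The number of pairs of words of length `m` with a common sublist of length `l`. -/
def pairCnt (m l : ℕ) : ℕ :=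
  (Finset.univ.filter (fun q : (Fin m → Bool) × (Fin m → Bool) =>
    ∃ s : Fin l → Bool, (List.ofFn s).Sublist (List.ofFn q.1) ∧
      (List.ofFn s).Sublist (List.ofFn q.2))).card

theorem pairCnt_le_sum (m l : ℕ) :
    pairCnt m l ≤ ∑ s : Fin l → Bool, cnt m (List.ofFn s) ^ 2 := by
  have h : (Finset.univ.filter (fun q : (Fin m → Bool) × (Fin m → Bool) =>
    ∃ s : Fin l → Bool, (List.ofFn s).Sublist (List.ofFn q.1) ∧
      (List.ofFn s).Sublist (List.ofFn q.2))) ⊆
      Finset.univ.biUnion (fun s : Fin l → Bool =>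
        (Finset.univ.filter (fun y : Fin m → Bool => (List.ofFn s).Sublist (List.ofFn y))) ×ˢ
        (Finset.univ.filter (fun y : Fin m → Bool => (List.ofFn s).Sublist (List.ofFn y)))) := by
    intro q hq
    simp only [Finset.mem_filter, Finset.mem_univ, true_and] at hq
    obtain ⟨s, h1, h2⟩ := hq
    simp only [Finset.mem_biUnion, Finset.mem_univ, true_and, Finset.mem_product,
      Finset.mem_filter]
    exact ⟨s, h1, h2⟩
  refine (Finset.card_le_card h).trans (Finset.card_biUnion_le.trans ?_)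
  apply Finset.sum_le_sum
  intro s _
  rw [Finset.card_product, sq]
  exact le_rfl

theorem pairCnt_le (m l : ℕ) : 16 ^ (2 * l) * pairCnt m l ≤ 2 ^ l * 17 ^ (2 * m) := by
  calc 16 ^ (2 * l) * pairCnt m l
      ≤ 16 ^ (2 * l) * ∑ s : Fin l → Bool, cnt m (List.ofFn s) ^ 2 :=
        Nat.mul_le_mul_left _ (pairCnt_le_sum m l)
    _ = ∑ s : Fin l → Bool, (16 ^ (List.ofFn s).length * cnt m (List.ofFn s)) ^ 2 := by
        rw [Finset.mul_sum]
        apply Finset.sum_congr rfl
        intro s _
        rw [List.length_ofFn]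
        ring
    _ ≤ ∑ _s : Fin l → Bool, (17 ^ m) ^ 2 := by
        apply Finset.sum_le_sum
        intro s _
        exact Nat.pow_le_pow_left (cnt_le m _) 2
    _ = 2 ^ l * 17 ^ (2 * m) := by
        simp only [Finset.sum_const, Finset.card_univ, Fintype.card_pi, Fintype.card_bool,
          Finset.prod_const, Fintype.card_fin, smul_eq_mul]
        ring

theorem pairCnt_half (d : ℕ) (hd : 1 ≤ d) : 2 * pairCnt (16 * d) (15 * d) ≤ 4 ^ (16 * d) := by
  have h := pairCnt_le (16 * d) (15 * d)
  have h17 : 17 ^ 32 * 2 ≤ 2 ^ 137 := by norm_num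
  have hpow : 17 ^ (32 * d) * 2 ≤ 2 ^ (137 * d) := by
    rw [pow_mul, pow_mul]
    calc (17 ^ 32) ^ d * 2 ≤ (17 ^ 32) ^ d * 2 ^ d := by
          apply Nat.mul_le_mul_left
          calc 2 = 2 ^ 1 := by norm_num
            _ ≤ 2 ^ d := Nat.pow_le_pow_right (by norm_num) hd
      _ = (17 ^ 32 * 2) ^ d := by rw [mul_pow]
      _ ≤ (2 ^ 137) ^ d := Nat.pow_le_pow_left h17 d
  have h2 : 2 ^ (120 * d) * (2 * pairCnt (16 * d) (15 * d)) ≤ 2 ^ (120 * d) * 4 ^ (16 * d) := by
    calc 2 ^ (120 * d) * (2 * pairCnt (16 * d) (15 * d))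
        = 2 * (16 ^ (2 * (15 * d)) * pairCnt (16 * d) (15 * d)) := by
          have : (16 : ℕ) ^ (2 * (15 * d)) = 2 ^ (120 * d) := by
            rw [show (16 : ℕ) = 2 ^ 4 by norm_num, ← pow_mul]
            congr 1
            ring
          rw [this]
          ring
      _ ≤ 2 * (2 ^ (15 * d) * 17 ^ (2 * (16 * d))) := Nat.mul_le_mul_left _ h
      _ = 2 ^ (15 * d) * (17 ^ (32 * d) * 2) := by
          rw [show 2 * (16 * d) = 32 * d by ring]
          ring
      _ ≤ 2 ^ (15 * d) * 2 ^ (137 * d) := Nat.mul_le_mul_left _ hpow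
      _ = 2 ^ (120 * d) * 4 ^ (16 * d) := by
          rw [show (4 : ℕ) = 2 ^ 2 by norm_num, ← pow_mul, ← pow_add, ← pow_add]
          congr 1
          ring
  exact Nat.le_of_mul_le_mul_left h2 (by positivity)

/-- The expected edit distance between `u y z v` and `u z y v` for random `y, z`. -/
theorem ex_ED_swap_ge (d : ℕ) (hd : 1 ≤ d) (u v : List Bool) :
    (d : ℝ) / 2 ≤ ex (fun q : (Fin (16 * d) → Bool) × (Fin (16 * d) → Bool) =>
      (ED (u ++ (List.ofFn q.1 ++ (List.ofFn q.2 ++ v)))
        (u ++ (List.ofFn q.2 ++ (List.ofFn q.1 ++ v))) : ℝ)) := by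
  classical
  set bad : Finset ((Fin (16 * d) → Bool) × (Fin (16 * d) → Bool)) :=
    Finset.univ.filter (fun q : (Fin (16 * d) → Bool) × (Fin (16 * d) → Bool) =>
    ∃ s : Fin (15 * d) → Bool, (List.ofFn s).Sublist (List.ofFn q.1) ∧
      (List.ofFn s).Sublist (List.ofFn q.2)) with hbad
  have hcard : 2 * bad.card ≤ 4 ^ (16 * d) := pairCnt_half d hd
  have hgood : ∀ q, q ∉ bad → (d : ℝ) ≤ (ED (u ++ (List.ofFn q.1 ++ (List.ofFn q.2 ++ v)))
        (u ++ (List.ofFn q.2 ++ (List.ofFn q.1 ++ v))) : ℝ) := by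
    intro q hq
    by_contra hc
    push Not at hc
    have hc' : ED (u ++ (List.ofFn q.1 ++ (List.ofFn q.2 ++ v)))
        (u ++ (List.ofFn q.2 ++ (List.ofFn q.1 ++ v))) ≤ d := by
      have : ED (u ++ (List.ofFn q.1 ++ (List.ofFn q.2 ++ v)))
        (u ++ (List.ofFn q.2 ++ (List.ofFn q.1 ++ v))) < d := by exact_mod_cast hc
      omega
    obtain ⟨s, h1, h2, h3⟩ := common_of_ED_swap (m := 16 * d) (by simp) (by simp) hc'
    apply hq
    rw [hbad]
    simp only [Finset.mem_filter, Finset.mem_univ, true_and]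
    have h4 : s.length = 15 * d := by omega
    have h5 : List.ofFn (fun t : Fin (15 * d) => s.get (t.cast h4.symm)) = s := by
      apply List.ext_getElem
      · simp [h4]
      · intro n h6 h7
        simp
    refine ⟨fun t : Fin (15 * d) => s.get (t.cast h4.symm), ?_, ?_⟩
    · rw [h5]; exact h1
    · rw [h5]; exact h2
  have htot : Fintype.card ((Fin (16 * d) → Bool) × (Fin (16 * d) → Bool)) = 4 ^ (16 * d) := by
    simp only [Fintype.card_prod, Fintype.card_pi, Fintype.card_bool, Finset.prod_const,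
      Finset.card_univ, Fintype.card_fin]
    rw [← mul_pow]
    norm_num
  have hsum : (d : ℝ) * ((4 ^ (16 * d) : ℕ) - bad.card : ℝ) ≤
      ∑ q : (Fin (16 * d) → Bool) × (Fin (16 * d) → Bool),
        (ED (u ++ (List.ofFn q.1 ++ (List.ofFn q.2 ++ v)))
        (u ++ (List.ofFn q.2 ++ (List.ofFn q.1 ++ v))) : ℝ) := by
    calc (d : ℝ) * ((4 ^ (16 * d) : ℕ) - bad.card : ℝ)
        = ∑ _q ∈ Finset.univ \ bad, (d : ℝ) := by
          rw [Finset.sum_const, Finset.card_sdiff_of_subset (Finset.subset_univ _),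
            Finset.card_univ, htot, nsmul_eq_mul, mul_comm, Nat.cast_sub]
          omega
      _ ≤ ∑ q ∈ Finset.univ \ bad, (ED (u ++ (List.ofFn q.1 ++ (List.ofFn q.2 ++ v)))
        (u ++ (List.ofFn q.2 ++ (List.ofFn q.1 ++ v))) : ℝ) := by
          apply Finset.sum_le_sum
          intro q hq
          exact hgood q (Finset.mem_sdiff.1 hq).2
      _ ≤ _ := by
          apply Finset.sum_le_sum_of_subset_of_nonneg (Finset.subset_univ _)
          intro q _ _
          (clear * -; positivity)
  unfold ex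
  rw [htot]
  rw [le_div_iff₀ (by positivity)]
  refine le_trans ?_ hsum
  have h5 : (2 : ℝ) * bad.card ≤ ((4 ^ (16 * d) : ℕ) : ℝ) := by exact_mod_cast hcard
  have h6 : (0 : ℝ) ≤ d := by positivity
  nlinarith only [h5]

end Vale.Agent.P238
end
end

section

section

namespace Vale.Agent.P238

/-- A segment of `List.ofFn x`. -/
theorem ofFn_seg {β : Type} {N : ℕ} (x : Fin N → β) (a n : ℕ) (h : a + n ≤ N) :
    ((List.ofFn x).drop a).take n = List.ofFn (fun t : Fin n => x ⟨a + t, by omega⟩) := by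
  apply List.ext_getElem
  · simp only [List.length_take, List.length_drop, List.length_ofFn]
    omega
  · intro i h1 h2
    simp

theorem ofFn_split {β : Type} {N : ℕ} (x : Fin N → β) (a r s : ℕ) :
    List.ofFn x = ((List.ofFn x).drop 0).take a ++ (((List.ofFn x).drop a).take r ++
      (((List.ofFn x).drop (a + r)).take s ++
        ((List.ofFn x).drop (a + r + s)).take (N - (a + r + s)))) := by
  have h4 : ((List.ofFn x).drop (a + r + s)).take (N - (a + r + s)) =
      (List.ofFn x).drop (a + r + s) := by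
    apply List.take_of_length_le
    simp only [List.length_drop, List.length_ofFn, Std.le_refl]
  rw [h4, ← List.drop_drop (i := s), List.take_append_drop, ← List.drop_drop (i := r),
    List.take_append_drop, List.drop_zero, List.take_append_drop]

theorem ofFn_split_mid {β : Type} {N : ℕ} (x : Fin N → β) (a r s : ℕ) (h : a + r + s ≤ N)
    (y : Fin r → β) (z : Fin s → β) (hy : ∀ t : Fin r, x ⟨a + t, by omega⟩ = y t)
    (hz : ∀ t : Fin s, x ⟨a + r + t, by omega⟩ = z t) :
    List.ofFn x = ((List.ofFn x).drop 0).take a ++ (List.ofFn y ++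
      (List.ofFn z ++ ((List.ofFn x).drop (a + r + s)).take (N - (a + r + s)))) := by
  have h1 := ofFn_split x a r s
  rw [ofFn_seg x a r (by omega), ofFn_seg x (a + r) s (by omega)] at h1
  simp only [hy, hz] at h1
  exact h1

theorem ofFn_seg_congr {β : Type} {N : ℕ} (x x' : Fin N → β) (a n : ℕ) (h : a + n ≤ N)
    (hx : ∀ t : Fin n, x ⟨a + t, by omega⟩ = x' ⟨a + t, by omega⟩) :
    ((List.ofFn x).drop a).take n = ((List.ofFn x').drop a).take n := by
  rw [ofFn_seg x a n h, ofFn_seg x' a n h]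
  simp only [hx]

/-- The word of a position-block rotation. -/
theorem ofFn_swap {β : Type} {N : ℕ} (x x' : Fin N → β) (a r s : ℕ) (h : a + r + s ≤ N)
    (h1 : ∀ p : Fin N, (p : ℕ) < a → x' p = x p)
    (h2 : ∀ p : Fin N, a + r + s ≤ (p : ℕ) → x' p = x p)
    (h3 : ∀ t : Fin s, x' ⟨a + t, by omega⟩ = x ⟨a + r + t, by omega⟩)
    (h4 : ∀ t : Fin r, x' ⟨a + s + t, by omega⟩ = x ⟨a + t, by omega⟩) :
    ∃ U V : List β, U = ((List.ofFn x).drop 0).take a ∧
      V = ((List.ofFn x).drop (a + r + s)).take (N - (a + r + s)) ∧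
      List.ofFn x = U ++ (List.ofFn (fun t : Fin r => x ⟨a + t, by omega⟩) ++
        (List.ofFn (fun t : Fin s => x ⟨a + r + t, by omega⟩) ++ V)) ∧
      List.ofFn x' = U ++ (List.ofFn (fun t : Fin s => x ⟨a + r + t, by omega⟩) ++
        (List.ofFn (fun t : Fin r => x ⟨a + t, by omega⟩) ++ V)) := by
  refine ⟨((List.ofFn x).drop 0).take a,
    ((List.ofFn x).drop (a + r + s)).take (N - (a + r + s)), rfl, rfl, ?_, ?_⟩
  · exact ofFn_split_mid x a r s h _ _ (fun _ => rfl) (fun _ => rfl)
  · have e := ofFn_split_mid x' a s r (by omega) (fun t : Fin s => x ⟨a + r + t, by omega⟩)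
      (fun t : Fin r => x ⟨a + t, by omega⟩) h3 h4
    have e1 : ((List.ofFn x').drop 0).take a = ((List.ofFn x).drop 0).take a := by
      apply ofFn_seg_congr _ _ 0 a (by omega)
      intro t
      apply h1
      simp
    have e2 : ((List.ofFn x').drop (a + s + r)).take (N - (a + s + r)) =
        ((List.ofFn x).drop (a + r + s)).take (N - (a + r + s)) := by
      have e3 : a + s + r = a + r + s := by omega
      rw [e3]
      apply ofFn_seg_congr _ _ (a + r + s) (N - (a + r + s)) (by omega)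
      intro t
      apply h2
      simp only [le_add_iff_nonneg_right, zero_le]
    rw [e1, e2] at e
    exact e

/-- The rotation of a block by `r` swaps its first `r` letters with the rest. -/
theorem ofFn_rho {β : Type} {k l j r : ℕ} (hl : l ≤ k) (hr : r ≤ 2 ^ l) (hj : j < 2 ^ (k - l))
    (x : Fin (2 ^ k) → β) :
    ∃ (hb : 2 ^ l * j + r + (2 ^ l - r) ≤ 2 ^ k), ∃ U V : List β,
      U = ((List.ofFn x).drop 0).take (2 ^ l * j) ∧
      V = ((List.ofFn x).drop (2 ^ l * j + r + (2 ^ l - r))).take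
        (2 ^ k - (2 ^ l * j + r + (2 ^ l - r))) ∧
      List.ofFn x = U ++ (List.ofFn (fun t : Fin r => x ⟨2 ^ l * j + t, by omega⟩) ++
        (List.ofFn (fun t : Fin (2 ^ l - r) => x ⟨2 ^ l * j + r + t, by omega⟩) ++ V)) ∧
      List.ofFn (x ∘ rho k l j r) =
        U ++ (List.ofFn (fun t : Fin (2 ^ l - r) => x ⟨2 ^ l * j + r + t, by omega⟩) ++
        (List.ofFn (fun t : Fin r => x ⟨2 ^ l * j + t, by omega⟩) ++ V)) := by
  have hpos : 0 < 2 ^ l := by positivity
  have hle : 2 ^ l * j + 2 ^ l ≤ 2 ^ k := by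
    have h1 : 2 ^ l * (j + 1) ≤ 2 ^ l * 2 ^ (k - l) := Nat.mul_le_mul_left _ (by omega)
    rw [← pow_add, Nat.add_sub_cancel' hl] at h1
    linarith only [h1]
  have hb : 2 ^ l * j + r + (2 ^ l - r) ≤ 2 ^ k := by omega
  refine ⟨hb, ?_⟩
  refine ofFn_swap x (x ∘ rho k l j r) (2 ^ l * j) r (2 ^ l - r) hb ?_ ?_ ?_ ?_
  · intro p hp
    have : rho k l j r p = p := by
      apply Fin.ext
      rw [rho_apply hl hr]
      apply rhoN_of_ne
      have : (p : ℕ) / 2 ^ l < j := by
        rw [Nat.div_lt_iff_lt_mul hpos, mul_comm]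
        exact hp
      omega
    simp [this]
  · intro p hp
    have : rho k l j r p = p := by
      apply Fin.ext
      rw [rho_apply hl hr]
      apply rhoN_of_ne
      have : j + 1 ≤ (p : ℕ) / 2 ^ l := by
        rw [Nat.le_div_iff_mul_le hpos]
        have : (j + 1) * 2 ^ l = 2 ^ l * j + 2 ^ l := by ring
        omega
      omega
    simp [this]
  · intro t
    have ht := t.2
    have : rho k l j r ⟨2 ^ l * j + t, by omega⟩ = ⟨2 ^ l * j + r + t, by omega⟩ := by
      apply Fin.ext
      rw [rho_apply hl hr]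
      simp only
      have hdiv : (2 ^ l * j + (t : ℕ)) / 2 ^ l = j := by
        rw [Nat.mul_add_div hpos, Nat.div_eq_of_lt (by omega), add_zero]
      have hmod : (2 ^ l * j + (t : ℕ)) % 2 ^ l = t := by
        rw [Nat.mul_add_mod, Nat.mod_eq_of_lt (by omega)]
      rw [rhoN_of_eq hdiv, hmod, Nat.mod_eq_of_lt (by omega)]
      omega
    simp [this]
  · intro t
    have ht := t.2
    have : rho k l j r ⟨2 ^ l * j + (2 ^ l - r) + t, by omega⟩ = ⟨2 ^ l * j + t, by omega⟩ := by
      apply Fin.ext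
      rw [rho_apply hl hr]
      simp only
      have hdiv : (2 ^ l * j + (2 ^ l - r) + (t : ℕ)) / 2 ^ l = j := by
        rw [add_assoc, Nat.mul_add_div hpos, Nat.div_eq_of_lt (by omega), add_zero]
      have hmod : (2 ^ l * j + (2 ^ l - r) + (t : ℕ)) % 2 ^ l = 2 ^ l - r + t := by
        rw [add_assoc, Nat.mul_add_mod, Nat.mod_eq_of_lt (by omega)]
      rw [rhoN_of_eq hdiv, hmod]
      have e : 2 ^ l - r + (t : ℕ) + r = t + 2 ^ l := by omega
      rw [e, Nat.add_mod_right, Nat.mod_eq_of_lt (by omega)]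
    simp only [Function.comp_apply, this]

/-- (1a) flipping one letter costs at most one edit. -/
theorem ED_flip_le {N : ℕ} (x : Fin N → Bool) (p : Fin N) (w : List Bool) :
    ED (List.ofFn x ++ w) (List.ofFn (flip p x) ++ w) ≤ 1 := by
  obtain ⟨p, hp⟩ := p
  have h1 := ofFn_split_mid x p 1 0 (by omega) (fun _ => x ⟨p, hp⟩) (fun t => t.elim0)
    (by intro t; have : (t : ℕ) = 0 := by omega
        simp) (by intro t; exact t.elim0)
  have h2 := ofFn_split_mid (flip ⟨p, hp⟩ x) p 1 0 (by omega) (fun _ => !(x ⟨p, hp⟩))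
    (fun t => t.elim0)
    (by intro t; have : (t : ℕ) = 0 := by omega
        simp [flip]) (by intro t; exact t.elim0)
  have e1 : ((List.ofFn (flip ⟨p, hp⟩ x)).drop 0).take p = ((List.ofFn x).drop 0).take p := by
    apply ofFn_seg_congr _ _ 0 p (by omega)
    intro t
    have : (⟨0 + (t : ℕ), by omega⟩ : Fin N) ≠ ⟨p, hp⟩ := by
      intro h
      have := congrArg Fin.val h
      simp at this
      omega
    simp only [flip, Function.update_of_ne this]
  have e2 : ((List.ofFn (flip ⟨p, hp⟩ x)).drop (p + 1 + 0)).take (N - (p + 1 + 0)) =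
      ((List.ofFn x).drop (p + 1 + 0)).take (N - (p + 1 + 0)) := by
    apply ofFn_seg_congr _ _ (p + 1 + 0) (N - (p + 1 + 0)) (by omega)
    intro t
    have : (⟨p + 1 + 0 + (t : ℕ), by omega⟩ : Fin N) ≠ ⟨p, hp⟩ := by
      intro h
      have := congrArg Fin.val h
      simp at this
      omega
    simp only [flip, Function.update_of_ne this]
  rw [e1, e2] at h2
  rw [h1, h2]
  have := ED_sub_le (((List.ofFn x).drop 0).take p)
    (((List.ofFn x).drop (p + 1 + 0)).take (N - (p + 1 + 0)) ++ w) (x ⟨p, hp⟩) (!(x ⟨p, hp⟩))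
  simpa only [List.drop_zero, List.ofFn_succ, List.ofFn_zero, add_zero, List.nil_append, List.cons_append,     List.append_assoc, ge_iff_le] using this

/-- (1b) rotating a level-`l` block by `r` costs at most `2 min(r, 2^l - r)` edits. -/
theorem ED_rho_le {k l j r : ℕ} (hl : l ≤ k) (hr : r ≤ 2 ^ l) (hj : j < 2 ^ (k - l))
    (x : Fin (2 ^ k) → Bool) (w : List Bool) :
    ED (List.ofFn x ++ w) (List.ofFn (x ∘ rho k l j r) ++ w) ≤ 2 * min r (2 ^ l - r) := by
  obtain ⟨hb, U, V, -, -, h1, h2⟩ := ofFn_rho hl hr hj x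
  rw [h1, h2]
  have h := ED_swap_context_le U (List.ofFn (fun t : Fin r => x ⟨2 ^ l * j + t, by omega⟩))
    (List.ofFn (fun t : Fin (2 ^ l - r) => x ⟨2 ^ l * j + r + t, by omega⟩)) (V ++ w)
  simp only [List.length_ofFn] at h
  simpa only [List.append_assoc] using h

/-- Resampling the coordinates in the range of an injection does not change an average. -/
theorem ex_extend {ι κ : Type} [Fintype ι] [DecidableEq ι] [Fintype κ] [DecidableEq κ]
    (e : κ → ι) (he : Function.Injective e) (F : (ι → Bool) → ℝ) :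
    ex F = ex (fun x => ex (fun y : κ → Bool => F (Function.extend e y x))) := by
  classical
  let Φ : (ι → Bool) × (κ → Bool) ≃ (ι → Bool) × (κ → Bool) :=
    { toFun := fun q => (Function.extend e q.2 q.1, q.1 ∘ e)
      invFun := fun q => (Function.extend e q.2 q.1, q.1 ∘ e)
      left_inv := by
        intro q
        apply Prod.ext
        · funext p
          by_cases hp : ∃ a, e a = p
          · obtain ⟨a, rfl⟩ := hp
            simp only [he.extend_apply, Function.comp_apply]
          · simp only [Function.extend_apply' _ _ _ hp]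
        · funext a
          simp [he.extend_apply]
      right_inv := by
        intro q
        apply Prod.ext
        · funext p
          by_cases hp : ∃ a, e a = p
          · obtain ⟨a, rfl⟩ := hp
            simp only [he.extend_apply, Function.comp_apply]
          · simp only [Function.extend_apply' _ _ _ hp]
        · funext a
          simp [he.extend_apply] }
  have h1 : ex (fun q : (ι → Bool) × (κ → Bool) => F (Φ q).1) =
      ex (fun q : (ι → Bool) × (κ → Bool) => F q.1) := ex_equiv Φ (fun q => F q.1)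
  rw [ex_prod, ex_prod] at h1
  have h2 : ex (fun x => ex (fun _ : κ → Bool => F x)) = ex F := by
    apply ex_congr
    intro x
    exact ex_const _
  rw [h2] at h1
  rw [← h1]
  rfl

/-- (1c) swapping the two halves of a block of a random word costs many edits on average. -/
theorem ED_swap_avg {k i j : ℕ} (hi : 4 ≤ i) (hik : i + 1 ≤ k) (hj : j < 2 ^ (k - i - 1))
    (w : List Bool) :
    (2 ^ i : ℝ) / 64 ≤ ex (fun x : Fin (2 ^ k) → Bool =>
      (ED (List.ofFn x ++ w) (List.ofFn (x ∘ rho k (i + 1) j (2 ^ i)) ++ w) : ℝ)) := by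
  classical
  obtain ⟨d, hd⟩ : ∃ d, 2 ^ i = 16 * d := ⟨2 ^ (i - 4), by
    rw [show (16 : ℕ) = 2 ^ 4 by norm_num, ← pow_add]
    congr 1
    omega⟩
  have hd1 : 1 ≤ d := by
    rcases Nat.eq_zero_or_pos d with h | h
    · subst h
      have : 0 < 2 ^ i := by positivity
      omega
    · exact h
  have hpow : 2 ^ (i + 1) = 2 * (16 * d) := by
    rw [pow_succ, hd]
    ring
  have hle : 2 ^ (i + 1) * j + 2 ^ (i + 1) ≤ 2 ^ k := by
    have h1 : 2 ^ (i + 1) * (j + 1) ≤ 2 ^ (i + 1) * 2 ^ (k - i - 1) :=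
      Nat.mul_le_mul_left _ (by omega)
    rw [← pow_add, show i + 1 + (k - i - 1) = k by omega] at h1
    linarith only [h1]
  -- resample the two halves
  let e : Fin (16 * d) ⊕ Fin (16 * d) → Fin (2 ^ k) := Sum.elim
    (fun t => ⟨2 ^ (i + 1) * j + t, by omega⟩) (fun t => ⟨2 ^ (i + 1) * j + 16 * d + t, by omega⟩)
  have he : Function.Injective e := by
    intro s t hst
    rcases s with s | s <;> rcases t with t | t <;>
      simp only [e, Sum.elim_inl, Sum.elim_inr, Fin.mk.injEq] at hst
    · congr 1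
      apply Fin.ext
      omega
    · omega
    · omega
    · congr 1
      apply Fin.ext
      omega
  rw [ex_extend e he]
  have key : ∀ x : Fin (2 ^ k) → Bool, (d : ℝ) / 2 ≤
      ex (fun y : (Fin (16 * d) ⊕ Fin (16 * d)) → Bool =>
        (ED (List.ofFn (Function.extend e y x) ++ w)
          (List.ofFn (Function.extend e y x ∘ rho k (i + 1) j (2 ^ i)) ++ w) : ℝ)) := by
    intro x
    rw [← ex_equiv (Equiv.sumArrowEquivProdArrow (Fin (16 * d)) (Fin (16 * d)) Bool).symm]
    have hb : 2 ^ (i + 1) * j + 16 * d + 16 * d ≤ 2 ^ k := by omega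
    set U := ((List.ofFn x).drop 0).take (2 ^ (i + 1) * j) with hU
    set V := ((List.ofFn x).drop (2 ^ (i + 1) * j + 16 * d + 16 * d)).take
      (2 ^ k - (2 ^ (i + 1) * j + 16 * d + 16 * d)) with hV
    refine (ex_ED_swap_ge d hd1 U (V ++ w)).trans (le_of_eq ?_)
    apply ex_congr
    rintro ⟨y, z⟩
    simp only
    set y' := (Equiv.sumArrowEquivProdArrow (Fin (16 * d)) (Fin (16 * d)) Bool).symm (y, z)
      with hy'
    have hy1 : ∀ t, Function.extend e y' x (e t) = y' t := fun t => he.extend_apply _ _ t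
    have hl : ∀ t : Fin (16 * d), Function.extend e y' x ⟨2 ^ (i + 1) * j + t, by omega⟩ = y t :=
      fun t => hy1 (Sum.inl t)
    have hr : ∀ t : Fin (16 * d),
        Function.extend e y' x ⟨2 ^ (i + 1) * j + 16 * d + t, by omega⟩ = z t :=
      fun t => hy1 (Sum.inr t)
    have hout : ∀ p : Fin (2 ^ k), ((p : ℕ) < 2 ^ (i + 1) * j ∨
        2 ^ (i + 1) * j + 16 * d + 16 * d ≤ (p : ℕ)) → Function.extend e y' x p = x p := by
      intro p hp
      apply Function.extend_apply'
      rintro ⟨t, ht⟩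
      have ht' := congrArg Fin.val ht
      rcases t with t | t <;> simp only [e, Sum.elim_inl, Sum.elim_inr] at ht' <;> omega
    have e1 : ((List.ofFn (Function.extend e y' x)).drop 0).take (2 ^ (i + 1) * j) = U := by
      apply ofFn_seg_congr _ _ 0 (2 ^ (i + 1) * j) (by omega)
      intro t
      apply hout
      left
      simp
    have e2 : ((List.ofFn (Function.extend e y' x)).drop
        (2 ^ (i + 1) * j + 16 * d + 16 * d)).take
          (2 ^ k - (2 ^ (i + 1) * j + 16 * d + 16 * d)) = V := by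
      apply ofFn_seg_congr _ _ _ _ (by omega)
      intro t
      apply hout
      right
      simp only [le_add_iff_nonneg_right, zero_le]
    have hle2 : 16 * d ≤ 2 ^ (i + 1) := by omega
    have hjj : j < 2 ^ (k - (i + 1)) := by rwa [Nat.sub_sub] at hj
    rw [hd]
    obtain ⟨_hb, U', V', hU', hV', h1, h2⟩ := ofFn_rho hik hle2 hjj (Function.extend e y' x)
    have hsub : 2 ^ (i + 1) - 16 * d = 16 * d := by omega
    rw [e1] at hU'
    subst hU'
    have hV'' : V' = V := by
      rw [hV', ← e2]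
      simp only [hsub]
    rw [hV''] at h1 h2
    have hz : List.ofFn (fun t : Fin (2 ^ (i + 1) - 16 * d) =>
        Function.extend e y' x ⟨2 ^ (i + 1) * j + 16 * d + t, by omega⟩) = List.ofFn z := by
      apply List.ext_getElem
      · simp only [hsub, Fin.val_cast, List.length_ofFn]
      · intro n hn1 hn2
        rw [List.getElem_ofFn, List.getElem_ofFn]
        exact hr ⟨n, by simpa using hn2⟩
    have hyy : List.ofFn (fun t : Fin (16 * d) =>
        Function.extend e y' x ⟨2 ^ (i + 1) * j + t, by omega⟩) = List.ofFn y := by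
      simp only [hl]
    rw [hz, hyy] at h1 h2
    rw [h1, h2]
    simp only [List.append_assoc]
  have h2 : (2 ^ i : ℝ) / 64 ≤ (d : ℝ) / 2 := by
    have : (2 ^ i : ℝ) = 16 * d := by exact_mod_cast hd
    rw [this]
    have : (0 : ℝ) ≤ d := by positivity
    linarith
  refine h2.trans ?_
  calc (d : ℝ) / 2 = ex (fun _ : Fin (2 ^ k) → Bool => (d : ℝ) / 2) := (ex_const _).symm
    _ ≤ _ := ex_mono key

end Vale.Agent.P238
end
end

section

section

set_option linter.unusedSectionVars false

namespace Vale.Agent.P238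

open Finset

noncomputable section

/-- extend a word of length `2 ^ k` to a word of length `n` by zeros -/
def pad (k n : ℕ) (x : Fin (2 ^ k) → Bool) : Fin n → Bool :=
  fun p => if h : (p : ℕ) < 2 ^ k then x ⟨p, h⟩ else false

lemma ofFn_pad {k n : ℕ} (h : 2 ^ k ≤ n) (x : Fin (2 ^ k) → Bool) :
    List.ofFn (pad k n x) = List.ofFn x ++ List.replicate (n - 2 ^ k) false := by
  apply List.ext_getElem
  · simp only [List.length_ofFn, List.length_append, List.length_replicate]; omega
  · intro q h1 h2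
    simp only [List.length_ofFn] at h1
    by_cases hq : q < 2 ^ k
    · rw [List.getElem_append_left (by simpa using hq)]
      simp [pad, hq]
    · rw [List.getElem_append_right (by simpa only [List.length_ofFn, not_lt] using hq)]
      simp only [List.getElem_ofFn, pad, hq, ↓reduceDIte, List.length_ofFn, List.getElem_replicate]

lemma LH_mono {k s i0 : ℕ} {d e : (Fin (2 ^ k) → Bool) → (Fin (2 ^ k) → Bool) → ℝ}
    (h : ∀ x y, d x y ≤ e x y) : LH k s i0 d ≤ LH k s i0 e :=
  Finset.sum_le_sum fun _ _ => Finset.sum_le_sum fun _ _ => ex_mono fun x => h x _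

lemma RH_mono {k s i0 T : ℕ} {d e : (Fin (2 ^ k) → Bool) → (Fin (2 ^ k) → Bool) → ℝ}
    (h : ∀ x y, d x y ≤ e x y) : RH k s i0 T d ≤ RH k s i0 T e := by
  unfold RH
  have h0 : (0 : ℝ) ≤ 8 * s := by positivity
  have hT : (0 : ℝ) ≤ 1 / (T : ℝ) := by positivity
  apply add_le_add
  · exact Finset.sum_le_sum fun _ _ => Finset.sum_le_sum fun _ _ =>
      add_le_add (ex_mono fun x => h x _) (ex_mono fun x => h x _)
  · apply mul_le_mul_of_nonneg_left _ h0
    apply add_le_add
    · exact mul_le_mul_of_nonneg_left (Finset.sum_le_sum fun _ _ => ex_mono fun x => h x _) hT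
    · exact Finset.sum_le_sum fun _ _ => mul_le_mul_of_nonneg_left
        (ex_mono fun r => ex_mono fun x => h x _) (by norm_num)

lemma LH_smul {k s i0 : ℕ} (c : ℝ) (d : (Fin (2 ^ k) → Bool) → (Fin (2 ^ k) → Bool) → ℝ) :
    LH k s i0 (fun x y => c * d x y) = c * LH k s i0 d := by
  unfold LH
  simp only [ex_mul_left, ← Finset.mul_sum]

lemma RH_smul {k s i0 T : ℕ} (c : ℝ) (d : (Fin (2 ^ k) → Bool) → (Fin (2 ^ k) → Bool) → ℝ) :
    RH k s i0 T (fun x y => c * d x y) = c * RH k s i0 T d := by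
  unfold RH
  simp only [ex_mul_left, ← mul_add, mul_left_comm _ c, ← Finset.mul_sum]

/-- the padded edit distance -/
def dE (k n : ℕ) (x y : Fin (2 ^ k) → Bool) : ℝ := binED n (pad k n x) (pad k n y)

lemma dE_eq {k n : ℕ} (h : 2 ^ k ≤ n) (x y : Fin (2 ^ k) → Bool) :
    dE k n x y = (ED (List.ofFn x ++ List.replicate (n - 2 ^ k) false)
      (List.ofFn y ++ List.replicate (n - 2 ^ k) false) : ℝ) := by
  unfold dE binED
  rw [ofFn_pad h, ofFn_pad h]

lemma LH_lower {k s i0 n : ℕ} (hn : 2 ^ k ≤ n) (hi0 : 4 ≤ i0) (hs : 1 ≤ s) (hk : i0 + s ≤ k) :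
    ((k - s + 1 - i0 : ℕ) : ℝ) * (2 ^ k / 128) ≤ LH k s i0 (dE k n) := by
  unfold LH
  rw [← Nat.card_Ico, ← nsmul_eq_mul, ← Finset.sum_const]
  apply Finset.sum_le_sum
  intro i hi
  rw [Finset.mem_Ico] at hi
  have hik : i + 1 ≤ k := by omega
  have h1 : ∑ _j ∈ range (2 ^ (k - (i + 1))), (2 ^ i : ℝ) / 64
      ≤ ∑ j ∈ range (2 ^ (k - (i + 1))), ex (fun x => dE k n x (x ∘ rho k (i + 1) j (2 ^ i))) := by
    apply Finset.sum_le_sum
    intro j hj
    rw [Finset.mem_range] at hj
    have := ED_swap_avg (k := k) (i := i) (j := j) (by omega) hik (by rwa [Nat.sub_sub])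
      (List.replicate (n - 2 ^ k) false)
    simp only [dE_eq hn]
    exact this
  refine le_trans (le_of_eq ?_) h1
  rw [Finset.sum_const, Finset.card_range, nsmul_eq_mul]
  push_cast
  have h2 : (2 : ℝ) ^ k = 2 ^ (k - (i + 1)) * (2 ^ i * 2) := by
    rw [← pow_succ, ← pow_add]
    congr 1; omega
  rw [h2]; ring

lemma RH_upper {k s T n : ℕ} (hn : 2 ^ k ≤ n) (hT : 1 ≤ T) (hs : 1 ≤ s) (hk : 9 * T + s ≤ k) :
    RH k s (9 * T) T (dE k n) ≤
      2 ^ k * (4 * ((k - s + 1 - 9 * T : ℕ) : ℝ) / 2 ^ s + 8 * s * (1 / T + 4 / 2 ^ T)) := by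
  unfold RH
  rw [mul_add ((2 : ℝ) ^ k)]
  apply add_le_add
  · -- large rotations
    have h1 : ∀ i ∈ Ico (9 * T) (k - s + 1), ∑ J ∈ range (2 ^ (k - (i + s))),
      (ex (fun x => dE k n x (x ∘ rho k (i + s) J (2 ^ i)))
      + ex (fun x => dE k n x (x ∘ rho k (i + s) J (2 ^ (i + s) - 2 ^ i)))) ≤ 4 * 2 ^ (k - s) := by
      intro i hi
      rw [Finset.mem_Ico] at hi
      have his : i + s ≤ k := by omega
      have h2s : 2 ^ i ≤ 2 ^ (i + s) := Nat.pow_le_pow_right (by norm_num) (Nat.le_add_right i s)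
      have h2 : ∀ J ∈ range (2 ^ (k - (i + s))),
        (ex (fun x => dE k n x (x ∘ rho k (i + s) J (2 ^ i)))
        + ex (fun x => dE k n x (x ∘ rho k (i + s) J (2 ^ (i + s) - 2 ^ i)))) ≤ 4 * 2 ^ i := by
        intro J hJ
        rw [Finset.mem_range] at hJ
        have h3 : ex (fun x => dE k n x (x ∘ rho k (i + s) J (2 ^ i))) ≤ 2 * 2 ^ i := by
          refine le_trans (ex_mono (G := fun _ => 2 * 2 ^ i) ?_) (le_of_eq (ex_const _))
          intro x
          rw [dE_eq hn]
          have := ED_rho_le his h2s hJ x (List.replicate (n - 2 ^ k) false)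
          have h4 : ED (List.ofFn x ++ List.replicate (n - 2 ^ k) false)
            (List.ofFn (x ∘ rho k (i + s) J (2 ^ i)) ++ List.replicate (n - 2 ^ k) false) ≤ 2 * 2 ^ i :=
            this.trans (Nat.mul_le_mul_left 2 (min_le_left _ _))
          exact_mod_cast h4
        have h3' : ex (fun x => dE k n x (x ∘ rho k (i + s) J (2 ^ (i + s) - 2 ^ i))) ≤ 2 * 2 ^ i := by
          refine le_trans (ex_mono (G := fun _ => 2 * 2 ^ i) ?_) (le_of_eq (ex_const _))
          intro x
          rw [dE_eq hn]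
          have := ED_rho_le his (Nat.sub_le _ (2 ^ i)) hJ x (List.replicate (n - 2 ^ k) false)
          have h4 : ED (List.ofFn x ++ List.replicate (n - 2 ^ k) false)
            (List.ofFn (x ∘ rho k (i + s) J (2 ^ (i + s) - 2 ^ i)) ++ List.replicate (n - 2 ^ k) false) ≤ 2 * 2 ^ i := by
            refine this.trans (Nat.mul_le_mul_left 2 ((min_le_right _ _).trans ?_))
            rw [Nat.sub_sub_self h2s]
          exact_mod_cast h4
        linarith only [h3, h3']
      refine le_trans (Finset.sum_le_sum h2) ?_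
      rw [Finset.sum_const, Finset.card_range, nsmul_eq_mul]
      push_cast
      have e : (2 : ℝ) ^ (k - s) = 2 ^ (k - (i + s)) * 2 ^ i := by
        rw [← pow_add]; congr 1; omega
      rw [e]
      apply le_of_eq; ring
    refine le_trans (Finset.sum_le_sum h1) ?_
    rw [Finset.sum_const, Nat.card_Ico, nsmul_eq_mul]
    have e : (2 : ℝ) ^ k = 2 ^ (k - s) * 2 ^ s := by
      rw [← pow_add]; congr 1; omega
    rw [e]
    apply le_of_eq
    field_simp
  · have hflip : ∑ p, ex (fun x => dE k n x (flip p x)) ≤ 2 ^ k := by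
      have : ∀ p ∈ (univ : Finset (Fin (2 ^ k))), ex (fun x => dE k n x (flip p x)) ≤ 1 := by
        intro p _
        refine le_trans (ex_mono (G := fun _ => 1) ?_) (le_of_eq (ex_const _))
        intro x
        rw [dE_eq hn]
        exact_mod_cast ED_flip_le x p (List.replicate (n - 2 ^ k) false)
      refine le_trans (Finset.sum_le_sum this) ?_
      simp only [sum_const, card_univ, Fintype.card_fin, nsmul_eq_mul, Nat.cast_pow, Nat.cast_ofNat, mul_one, Std.le_refl]
    have hsmall : ∑ j ∈ range (2 ^ (k - 9 * T)),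
          2 * ex (fun r : Fin (2 ^ (8 * T)) => ex (fun x => dE k n x (x ∘ rho k (9 * T) j r))) ≤ 2 ^ k * (4 / 2 ^ T) := by
      have h1 : ∀ j ∈ range (2 ^ (k - 9 * T)),
          2 * ex (fun r : Fin (2 ^ (8 * T)) => ex (fun x => dE k n x (x ∘ rho k (9 * T) j r))) ≤ 4 * 2 ^ (8 * T) := by
        intro j hj
        rw [Finset.mem_range] at hj
        have h2 : ex (fun r : Fin (2 ^ (8 * T)) => ex (fun x => dE k n x (x ∘ rho k (9 * T) j r))) ≤ 2 * 2 ^ (8 * T) := by
          refine le_trans (ex_mono (G := fun _ => 2 * 2 ^ (8 * T)) ?_) (le_of_eq (ex_const _))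
          intro r
          refine le_trans (ex_mono (G := fun _ => 2 * 2 ^ (8 * T)) ?_) (le_of_eq (ex_const _))
          intro x
          rw [dE_eq hn]
          have hr : (r : ℕ) ≤ 2 ^ (9 * T) := r.2.le.trans (Nat.pow_le_pow_right (by norm_num) (by omega))
          have := ED_rho_le (by omega : 9 * T ≤ k) hr hj x (List.replicate (n - 2 ^ k) false)
          have h4 : ED (List.ofFn x ++ List.replicate (n - 2 ^ k) false)
            (List.ofFn (x ∘ rho k (9 * T) j r) ++ List.replicate (n - 2 ^ k) false) ≤ 2 * 2 ^ (8 * T) :=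
            this.trans (Nat.mul_le_mul_left 2 ((min_le_left _ _).trans r.2.le))
          exact_mod_cast h4
        linarith only [h2]
      refine le_trans (Finset.sum_le_sum h1) ?_
      rw [Finset.sum_const, Finset.card_range, nsmul_eq_mul]
      push_cast
      have e : (2 : ℝ) ^ k = 2 ^ (k - 9 * T) * (2 ^ (8 * T) * 2 ^ T) := by
        rw [← pow_add, ← pow_add]; congr 1; omega
      rw [e]
      apply le_of_eq
      field_simp
    have hs0 : (0 : ℝ) ≤ 8 * s := by positivity
    have hT0 : (0 : ℝ) ≤ 1 / (T : ℝ) := by positivity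
    calc 8 * (s : ℝ) * (1 / (T : ℝ) * ∑ p, ex (fun x => dE k n x (flip p x))
        + ∑ j ∈ range (2 ^ (k - 9 * T)),
          2 * ex (fun r : Fin (2 ^ (8 * T)) => ex (fun x => dE k n x (x ∘ rho k (9 * T) j r))))
        ≤ 8 * (s : ℝ) * (1 / (T : ℝ) * 2 ^ k + 2 ^ k * (4 / 2 ^ T)) :=
          mul_le_mul_of_nonneg_left (add_le_add (mul_le_mul_of_nonneg_left hflip hT0) hsmall) hs0
      _ = 2 ^ k * (8 * s * (1 / T + 4 / 2 ^ T)) := by ring

end

end Vale.Agent.P238
end
end

section

section

set_option linter.unusedSectionVars false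

namespace Vale.Agent.P238

open Finset

noncomputable section

lemma ofFn_inj {n : ℕ} {x y : Fin n → Bool} (h : List.ofFn x = List.ofFn y) : x = y :=
  List.ofFn_injective h

lemma binED_pos {n : ℕ} {x y : Fin n → Bool} (h : x ≠ y) : 0 < binED n x y := by
  unfold binED
  have : ED (List.ofFn x) (List.ofFn y) ≠ 0 := fun e => h (ofFn_inj (ED_eq_zero e))
  exact_mod_cast Nat.pos_of_ne_zero this

lemma binED_self {n : ℕ} (x : Fin n → Bool) : binED n x x = 0 := by
  unfold binED
  rw [ED_self]; simp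

section dist
variable {n : ℕ} (f : (Fin n → Bool) → lp (fun _ : ℕ => ℝ) 1)

/-- expansion -/
def Lc : ℝ := ⨆ p : {p : (Fin n → Bool) × (Fin n → Bool) // p.1 ≠ p.2},
  ‖f p.1.1 - f p.1.2‖ / binED n p.1.1 p.1.2

/-- contraction -/
def Mc : ℝ := ⨆ p : {p : (Fin n → Bool) × (Fin n → Bool) // p.1 ≠ p.2},
  binED n p.1.1 p.1.2 / ‖f p.1.1 - f p.1.2‖

lemma distortion_eq : distortion (binED n) f = Lc f * Mc f := rfl

lemma le_Lc (x y : Fin n → Bool) : ‖f x - f y‖ ≤ Lc f * binED n x y := by
  by_cases h : x = y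
  · subst h; simp [binED_self]
  · have h1 : ‖f x - f y‖ / binED n x y ≤ Lc f :=
      le_ciSup (f := fun p : {p : (Fin n → Bool) × (Fin n → Bool) // p.1 ≠ p.2} =>
        ‖f p.1.1 - f p.1.2‖ / binED n p.1.1 p.1.2) (Set.finite_range _).bddAbove ⟨(x, y), h⟩
    rwa [div_le_iff₀ (binED_pos h)] at h1

lemma le_Mc (hf : Function.Injective f) (x y : Fin n → Bool) : binED n x y ≤ Mc f * ‖f x - f y‖ := by
  by_cases h : x = y
  · subst h; simp [binED_self]
  · have h1 : binED n x y / ‖f x - f y‖ ≤ Mc f :=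
      le_ciSup (f := fun p : {p : (Fin n → Bool) × (Fin n → Bool) // p.1 ≠ p.2} =>
        binED n p.1.1 p.1.2 / ‖f p.1.1 - f p.1.2‖) (Set.finite_range _).bddAbove ⟨(x, y), h⟩
    have h2 : 0 < ‖f x - f y‖ := norm_pos_iff.mpr (sub_ne_zero.mpr (fun e => h (hf e)))
    rwa [div_le_iff₀ h2] at h1

lemma Lc_nonneg : 0 ≤ Lc f := Real.iSup_nonneg fun _ => div_nonneg (norm_nonneg _) (Nat.cast_nonneg _)

lemma Mc_nonneg : 0 ≤ Mc f := Real.iSup_nonneg fun _ => div_nonneg (Nat.cast_nonneg _) (norm_nonneg _)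

lemma one_le_distortion (hn : 1 ≤ n) (hf : Function.Injective f) : 1 ≤ distortion (binED n) f := by
  rw [distortion_eq]
  have hne : (fun _ => false : Fin n → Bool) ≠ (fun _ => true) := by
    intro h
    have := congrFun h ⟨0, hn⟩
    simp at this
  have h1 := le_Lc f (fun _ => false) (fun _ => true)
  have h2 := le_Mc f hf (fun _ => false) (fun _ => true)
  have h3 := binED_pos hne
  have h4 := Mc_nonneg f
  have h5 : binED n (fun _ => false) (fun _ => true)
      ≤ Mc f * (Lc f * binED n (fun _ => false) (fun _ => true)) :=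
    h2.trans (mul_le_mul_of_nonneg_left h1 h4)
  by_contra hc
  push Not at hc
  nlinarith only [h5, h3, hc]

/-- key inequality -/
lemma key {k s T : ℕ} (hn : 2 ^ k ≤ n) (hf : Function.Injective f) (hT : 1 ≤ T) (hs : 1 ≤ s)
    (hk : 9 * T + s ≤ k) :
    ((k - s + 1 - 9 * T : ℕ) : ℝ) / 128 ≤ distortion (binED n) f *
      (4 * ((k - s + 1 - 9 * T : ℕ) : ℝ) / 2 ^ s + 8 * s * (1 / T + 4 / 2 ^ T)) := by
  set F : (Fin (2 ^ k) → Bool) → lp (fun _ : ℕ => ℝ) 1 := fun x => f (pad k n x) with hF
  have h1 := LH_lower (n := n) hn (by omega : 4 ≤ 9 * T) hs hk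
  have h2 : LH k s (9 * T) (dE k n) ≤ Mc f * LH k s (9 * T) (fun x y => ‖F x - F y‖) := by
    rw [← LH_smul]
    exact LH_mono fun x y => le_Mc f hf _ _
  have h3 := l1_ineq hT (by omega : 8 * T ≤ 9 * T) hs hk F
  have h4 : RH k s (9 * T) T (fun x y => ‖F x - F y‖) ≤ Lc f * RH k s (9 * T) T (dE k n) := by
    rw [← RH_smul]
    exact RH_mono fun x y => le_Lc f _ _
  have h5 := RH_upper hn hT hs hk
  have hM := Mc_nonneg f
  have hL := Lc_nonneg f
  have h6 : LH k s (9 * T) (dE k n) ≤ Mc f * (Lc f * (2 ^ k * (4 * ((k - s + 1 - 9 * T : ℕ) : ℝ) / 2 ^ s + 8 * s * (1 / T + 4 / 2 ^ T)))) := by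
    refine h2.trans (mul_le_mul_of_nonneg_left (h3.trans (h4.trans ?_)) hM)
    exact mul_le_mul_of_nonneg_left h5 hL
  rw [distortion_eq]
  have h7 := h1.trans h6
  have h2k : (0 : ℝ) < 2 ^ k := by positivity
  have h8 : 2 ^ k * (((k - s + 1 - 9 * T : ℕ) : ℝ) / 128) ≤ 2 ^ k * (Lc f * Mc f *
      (4 * ((k - s + 1 - 9 * T : ℕ) : ℝ) / 2 ^ s + 8 * s * (1 / T + 4 / 2 ^ T))) := by
    calc 2 ^ k * (((k - s + 1 - 9 * T : ℕ) : ℝ) / 128) = ((k - s + 1 - 9 * T : ℕ) : ℝ) * (2 ^ k / 128) := by ring
      _ ≤ _ := h7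
      _ = _ := by ring
  exact le_of_mul_le_mul_left h8 h2k

end dist

lemma aux_log (a : ℕ) (ha : 6 ≤ a) : 8 * (a + 1) ≤ 2 ^ a := by
  induction a, ha using Nat.le_induction with
  | base => norm_num
  | succ a ha ih => rw [pow_succ]; omega

lemma aux_T (T : ℕ) : (T : ℝ) ≤ 2 ^ T := by
  exact_mod_cast Nat.lt_two_pow_self.le

/-- quantitative lower bound in terms of `k = log₂ n` -/
lemma lower_k {n k : ℕ} (hk : 64 ≤ k) (hn : 2 ^ k ≤ n) (f : (Fin n → Bool) → lp (fun _ : ℕ => ℝ) 1)
    (hf : Function.Injective f) :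
    (k : ℝ) ^ 2 / (3022848 * (Nat.log 2 k : ℝ)) ≤ distortion (binED n) f := by
  set a := Nat.log 2 k with ha
  have ha6 : 6 ≤ a := by
    rw [ha]
    have : Nat.log 2 64 ≤ Nat.log 2 k := Nat.log_mono_right hk
    have h64 : Nat.log 2 64 = 6 := by
      rw [show 64 = 2 ^ 6 by norm_num, Nat.log_pow (by norm_num)]
    omega
  have hpow : 2 ^ a ≤ k := Nat.pow_log_le_self 2 (by omega)
  have hpow' : k < 2 ^ (a + 1) := Nat.lt_pow_succ_log_self (by norm_num) k
  have h8 := aux_log a ha6
  set s := 2 * (a + 1) with hs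
  set T := k / 18 with hT
  have hT1 : 1 ≤ T := by omega
  have hsk : 4 * s ≤ k := by (clear * - hpow h8; omega)
  have hTk : 18 * T ≤ k := by (clear * -; omega)
  have hTk' : k ≤ 36 * T := by omega
  have h9 : 9 * T + s ≤ k := by (clear * - hpow h8 hTk'; omega)
  have hkey := key f hn hf hT1 (by (clear * - ha6; omega) : 1 ≤ s) h9
  set m := k - s + 1 - 9 * T with hm
  have hm1 : k ≤ 4 * m := by omega
  have hm2 : m ≤ k := by (clear * - hk ha6 h9; omega)
  have hTr : (0 : ℝ) < T := by exact_mod_cast hT1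
  have hsr : (0 : ℝ) < s := by
    have : 0 < s := by omega
    exact_mod_cast this
  have hkr : (64 : ℝ) ≤ k := by exact_mod_cast hk
  have hD0 : 0 ≤ distortion (binED n) f := by
    rw [distortion_eq]; exact mul_nonneg (Lc_nonneg f) (Mc_nonneg f)
  -- bound the right side factor by 41 s / T
  have hfac : 4 * (m : ℝ) / 2 ^ s + 8 * s * (1 / T + 4 / 2 ^ T) ≤ 41 * s / T := by
    have e1 : (k : ℝ) ^ 2 ≤ 2 ^ s := by
      have : k ^ 2 ≤ 2 ^ s := by
        calc k ^ 2 ≤ (2 ^ (a + 1)) ^ 2 := Nat.pow_le_pow_left hpow'.le 2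
          _ = 2 ^ s := by rw [← pow_mul, hs, mul_comm]
      exact_mod_cast this
    have e2 : 4 * (m : ℝ) / 2 ^ s ≤ s / T := by
      rw [div_le_div_iff₀ (by positivity) hTr]
      have h1 : (m : ℝ) ≤ k := by exact_mod_cast hm2
      have h2 : 18 * (T : ℝ) ≤ k := by exact_mod_cast hTk
      have h3 : (1 : ℝ) ≤ s := by
        have : 1 ≤ s := by omega
        exact_mod_cast this
      calc 4 * (m : ℝ) * T ≤ 4 * k * (k / 18) := by
            apply mul_le_mul (by linarith only [h1]) (by linarith only [h2]) hTr.le (by positivity)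
        _ ≤ k ^ 2 := by nlinarith only []
        _ ≤ 2 ^ s := e1
        _ = 1 * 2 ^ s := by ring
        _ ≤ s * 2 ^ s := by apply mul_le_mul_of_nonneg_right h3 (by positivity)
    have e3 : (4 : ℝ) / 2 ^ T ≤ 4 / T := by
      apply div_le_div_of_nonneg_left (by norm_num) hTr (aux_T T)
    have e4 : 8 * (s : ℝ) * (1 / T + 4 / 2 ^ T) ≤ 8 * s * (5 / T) := by
      apply mul_le_mul_of_nonneg_left _ (by positivity)
      have : (1 : ℝ) / T + 4 / T = 5 / T := by ring
      linarith only [e3, this]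
    calc 4 * (m : ℝ) / 2 ^ s + 8 * s * (1 / T + 4 / 2 ^ T) ≤ s / T + 8 * s * (5 / T) := add_le_add e2 e4
      _ = 41 * s / T := by ring
  have h10 : (m : ℝ) / 128 ≤ distortion (binED n) f * (41 * s / T) :=
    hkey.trans (mul_le_mul_of_nonneg_left hfac hD0)
  have h11 : (m : ℝ) * T ≤ distortion (binED n) f * (5248 * s) := by
    have : distortion (binED n) f * (41 * s / T) = distortion (binED n) f * (41 * s) / T := by ring
    rw [this, div_le_div_iff₀ (by norm_num) hTr] at h10
    linarith only [h10]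
  have h12 : (k : ℝ) ^ 2 / 144 ≤ m * T := by
    have h1 : (k : ℝ) ≤ 4 * m := by exact_mod_cast hm1
    have h2 : (k : ℝ) ≤ 36 * T := by exact_mod_cast hTk'
    nlinarith only [h2, h1]
  have h13 : (s : ℝ) ≤ 4 * a := by
    have : s ≤ 4 * a := by (clear * - ha6; omega)
    exact_mod_cast this
  have har : (0 : ℝ) < a := by
    have : 0 < a := by omega
    exact_mod_cast this
  rw [div_le_iff₀ (by positivity)]
  have h14 : distortion (binED n) f * (5248 * s) ≤ distortion (binED n) f * (5248 * (4 * a)) :=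
    mul_le_mul_of_nonneg_left (by linarith only [h13]) hD0
  nlinarith only [h11, h12, h14]

instance injNonempty (n : ℕ) :
    Nonempty {f : (Fin n → Bool) → lp (fun _ : ℕ => ℝ) 1 // Function.Injective f} := by
  classical
  let e := Fintype.equivFin (Fin n → Bool)
  refine ⟨⟨fun x => lp.single 1 0 ((e x : ℕ) : ℝ), ?_⟩⟩
  intro x y h
  have h1 := congrArg (fun g : lp (fun _ : ℕ => ℝ) 1 => (g : ∀ _ : ℕ, ℝ) 0) h
  simp only [lp.single_apply_self] at h1
  have h2 : ((e x : ℕ) : ℝ) = ((e y : ℕ) : ℝ) := h1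
  exact e.injective (Fin.ext (Nat.cast_injective h2))

lemma loglog_pos {n : ℕ} (hn : 3 ≤ n) : 0 < Real.log (Real.log 3) ∧ Real.log (Real.log 3) ≤ Real.log (Real.log n) := by
  have h3 : 1 < Real.log 3 := by
    rw [Real.lt_log_iff_exp_lt (by norm_num)]
    exact Real.exp_one_lt_d9.trans (by norm_num)
  refine ⟨Real.log_pos h3, ?_⟩
  apply Real.log_le_log (by linarith only [h3])
  apply Real.log_le_log (by norm_num)
  exact_mod_cast hn

/-- The main lower bound. -/
theorem main_lower : ∃ c : ℝ, 0 < c ∧ ∀ n : ℕ, 3 ≤ n →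
    c * (Real.log n) ^ 2 / Real.log (Real.log n) ≤ c1 (binED n) := by
  have hll3 := (loglog_pos (le_refl 3)).1
  refine ⟨min (1 / 48365568) (Real.log (Real.log 3) / 4096), lt_min (by norm_num) (by positivity), ?_⟩
  intro n hn
  apply le_ciInf
  rintro ⟨f, hf⟩
  show _ ≤ distortion (binED n) f
  have hll : 0 < Real.log (Real.log n) := hll3.trans_le (loglog_pos hn).2
  rw [div_le_iff₀ hll]
  have hlog0 : 0 ≤ Real.log n := Real.log_natCast_nonneg n
  have hl2 : Real.log 2 ≤ 1 := by linarith only [Real.log_two_lt_d9]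
  have hl2' : 1 / 2 ≤ Real.log 2 := by linarith only [Real.log_two_gt_d9]
  have hn0 : (0 : ℝ) < n := by exact_mod_cast (by omega : 0 < n)
  by_cases hbig : 2 ^ 64 ≤ n
  · set k := Nat.log 2 n with hk
    have hk64 : 64 ≤ k := by
      have h1 : Nat.log 2 (2 ^ 64) ≤ Nat.log 2 n := Nat.log_mono_right hbig
      rwa [Nat.log_pow (by norm_num)] at h1
    have hkn : 2 ^ k ≤ n := Nat.pow_log_le_self 2 (by omega)
    have hkn' : n < 2 ^ (k + 1) := Nat.lt_pow_succ_log_self (by norm_num) n
    have hD := lower_k hk64 hkn f hf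
    have hkr : (64 : ℝ) ≤ k := by exact_mod_cast hk64
    -- log n ≤ 2 k
    have h1 : Real.log n ≤ 2 * k := by
      have : Real.log n ≤ Real.log ((2 : ℝ) ^ (k + 1)) := by
        apply Real.log_le_log hn0
        exact_mod_cast hkn'.le
      rw [Real.log_pow] at this
      push_cast at this
      nlinarith only [hl2, hkr, this]
    -- k ≤ 2 log n
    have h2 : (k : ℝ) ≤ 2 * Real.log n := by
      have : Real.log ((2 : ℝ) ^ k) ≤ Real.log n := by
        apply Real.log_le_log (by positivity)
        exact_mod_cast hkn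
      rw [Real.log_pow] at this
      nlinarith only [this, hl2']
    have h3 : (2 : ℝ) ≤ Real.log n := by linarith only [hkr, h2]
    have h4 : Real.log k ≤ 2 * Real.log (Real.log n) := by
      have : Real.log k ≤ Real.log ((Real.log n) ^ 2) := by
        apply Real.log_le_log (by linarith only [hkr])
        nlinarith only [hkr, h2]
      rwa [Real.log_pow] at this
    have h5 : (Nat.log 2 k : ℝ) ≤ 4 * Real.log (Real.log n) := by
      have h6 : 2 ^ (Nat.log 2 k) ≤ k := Nat.pow_log_le_self 2 (by omega)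
      have h7 : Real.log ((2 : ℝ) ^ (Nat.log 2 k)) ≤ Real.log k := by
        apply Real.log_le_log (by positivity)
        exact_mod_cast h6
      rw [Real.log_pow] at h7
      have h8 : (0 : ℝ) ≤ (Nat.log 2 k : ℝ) := Nat.cast_nonneg _
      nlinarith only [h4, h7, hl2']
    have h9 : (0 : ℝ) < (Nat.log 2 k : ℝ) := by
      have : 0 < Nat.log 2 k := Nat.log_pos (by norm_num) (by omega)
      exact_mod_cast this
    have hD0 : 0 ≤ distortion (binED n) f := by
      rw [distortion_eq]; exact mul_nonneg (Lc_nonneg f) (Mc_nonneg f)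
    rw [div_le_iff₀ (by (clear * - h9; positivity))] at hD
    have hsq : (Real.log n) ^ 2 ≤ 4 * (k : ℝ) ^ 2 := by nlinarith only [h1, hlog0]
    have hc : min (1 / 48365568) (Real.log (Real.log 3) / 4096) * (Real.log n) ^ 2
        ≤ 1 / 48365568 * (Real.log n) ^ 2 :=
      mul_le_mul_of_nonneg_right (min_le_left _ _) (sq_nonneg _)
    have h10 : distortion (binED n) f * (3022848 * (Nat.log 2 k : ℝ))
        ≤ distortion (binED n) f * (3022848 * (4 * Real.log (Real.log n))) :=
      mul_le_mul_of_nonneg_left (by linarith only [h5]) hD0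
    nlinarith only [hD, hsq, hc, h10]
  · push Not at hbig
    have hD := one_le_distortion f (by omega : 1 ≤ n) hf
    have h1 : Real.log n ≤ 64 := by
      have : Real.log n ≤ Real.log ((2 : ℝ) ^ 64) := by
        apply Real.log_le_log hn0
        exact_mod_cast hbig.le
      rw [Real.log_pow] at this
      push_cast at this
      linarith only [hl2, this]
    have hsq : (Real.log n) ^ 2 ≤ 4096 := by nlinarith only [h1, hlog0]
    have hc : min (1 / 48365568) (Real.log (Real.log 3) / 4096) * (Real.log n) ^ 2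
        ≤ (Real.log (Real.log 3) / 4096) * 4096 :=
      mul_le_mul (min_le_right _ _) hsq (sq_nonneg _) (by positivity)
    have h2 := (loglog_pos hn).2
    calc _ ≤ (Real.log (Real.log 3) / 4096) * 4096 := hc
      _ = 1 * Real.log (Real.log 3) := by ring
      _ ≤ distortion (binED n) f * Real.log (Real.log n) :=
        mul_le_mul hD h2 hll3.le (by linarith only [hD])

end

end Vale.Agent.P238
end
end

section

section

namespace Vale.Agent.P238.Full

open Vale.Agent.P238

section edit

variable {α β : Type}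

/-- One edit step becomes at most one edit step after a `filterMap`. -/
theorem step_filterMap (f : α → Option β) {x y : List α} (h : EditStep x y) :
    x.filterMap f = y.filterMap f ∨ EditStep (x.filterMap f) (y.filterMap f) := by
  cases h with
  | ins u v a =>
    cases ha : f a with
    | none => left; simp [List.filterMap_append, ha]
    | some b =>
      right
      simp only [List.filterMap_append, List.filterMap_cons, ha]
      exact EditStep.ins _ _ _
  | del u v a =>
    cases ha : f a with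
    | none => left; simp [List.filterMap_append, ha]
    | some b =>
      right
      simp only [List.filterMap_append, List.filterMap_cons, ha]
      exact EditStep.del _ _ _
  | sub u v a b =>
    cases ha : f a with
    | none =>
      cases hb : f b with
      | none => left; simp [List.filterMap_append, ha, hb]
      | some b' =>
        right
        simp only [List.filterMap_append, List.filterMap_cons, ha, hb]
        exact EditStep.ins _ _ _
    | some a' =>
      cases hb : f b with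
      | none =>
        right
        simp only [List.filterMap_append, List.filterMap_cons, ha, hb]
        exact EditStep.del _ _ _
      | some b' =>
        right
        simp only [List.filterMap_append, List.filterMap_cons, ha, hb]
        exact EditStep.sub _ _ _ _

theorem steps_filterMap (f : α → Option β) {n : ℕ} {x y : List α} (h : EditSteps n x y) :
    ∃ m, m ≤ n ∧ EditSteps m (x.filterMap f) (y.filterMap f) := by
  induction h with
  | refl x => exact ⟨0, le_refl _, EditSteps.refl _⟩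
  | @tail k x y z _ s ih =>
    obtain ⟨m, hm, h⟩ := ih
    rcases step_filterMap f s with h' | h'
    · refine ⟨m, by omega, ?_⟩
      rw [← h']
      exact h
    · exact ⟨m + 1, by omega, EditSteps.tail h h'⟩

theorem ED_filterMap_le (f : α → Option β) (x y : List α) :
    ED (x.filterMap f) (y.filterMap f) ≤ ED x y := by
  obtain ⟨m, hm, h⟩ := steps_filterMap f (ED_steps x y)
  exact (ED_le h).trans hm

theorem ED_map_le (f : α → β) (x y : List α) : ED (x.map f) (y.map f) ≤ ED x y := by
  have h := ED_filterMap_le (fun a => some (f a)) x y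
  simpa only [ge_iff_le, List.filterMap_eq_map'] using h

/-- A path from `x₁ ++ x₂` to `z` splits. -/
theorem steps_split {n : ℕ} {x z : List α} (h : EditSteps n x z) :
    ∀ x1 x2 : List α, x = x1 ++ x2 → ∃ z1 z2 d1 d2, z = z1 ++ z2 ∧ EditSteps d1 x1 z1 ∧
      EditSteps d2 x2 z2 ∧ d1 + d2 = n := by
  induction h with
  | refl x =>
    intro x1 x2 hx
    exact ⟨x1, x2, 0, 0, hx, EditSteps.refl _, EditSteps.refl _, rfl⟩
  | @tail k x y z _ s ih =>
    intro x1 x2 hx
    obtain ⟨z1, z2, d1, d2, hy, h1, h2, hd⟩ := ih x1 x2 hx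
    cases s with
    | ins u v a =>
      rcases List.append_eq_append_iff.1 hy with ⟨c, hc1, hc2⟩ | ⟨c, hc1, hc2⟩
      · -- z1 = u ++ c, v = c ++ z2
        subst hc1 hc2
        refine ⟨u ++ a :: c, z2, d1 + 1, d2, by simp, ?_, h2, by omega⟩
        exact EditSteps.tail h1 (EditStep.ins u c a)
      · subst hc1 hc2
        refine ⟨z1, c ++ a :: v, d1, d2 + 1, by simp, h1, ?_, by omega⟩
        exact EditSteps.tail h2 (EditStep.ins c v a)
    | del u v a =>
      rcases List.append_eq_append_iff.1 hy with ⟨c, hc1, hc2⟩ | ⟨c, hc1, hc2⟩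
      · -- z1 = u ++ c, a :: v = c ++ z2
        rcases c with _ | ⟨b, c⟩
        · simp only [List.append_nil, List.nil_append] at hc1 hc2
          subst hc1 hc2
          refine ⟨z1, v, d1, d2 + 1, rfl, h1, ?_, by omega⟩
          exact EditSteps.tail h2 (EditStep.del [] v a)
        · simp only [List.cons_append, List.cons.injEq] at hc2
          obtain ⟨rfl, rfl⟩ := hc2
          subst hc1
          refine ⟨u ++ c, z2, d1 + 1, d2, by simp, ?_, h2, by omega⟩
          exact EditSteps.tail h1 (EditStep.del u c a)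
      · subst hc1 hc2
        refine ⟨z1, c ++ v, d1, d2 + 1, by simp, h1, ?_, by omega⟩
        exact EditSteps.tail h2 (EditStep.del c v a)
    | sub u v a b =>
      rcases List.append_eq_append_iff.1 hy with ⟨c, hc1, hc2⟩ | ⟨c, hc1, hc2⟩
      · rcases c with _ | ⟨b', c⟩
        · simp only [List.append_nil, List.nil_append] at hc1 hc2
          subst hc1 hc2
          refine ⟨z1, b :: v, d1, d2 + 1, rfl, h1, ?_, by omega⟩
          exact EditSteps.tail h2 (EditStep.sub [] v a b)
        · simp only [List.cons_append, List.cons.injEq] at hc2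
          obtain ⟨rfl, rfl⟩ := hc2
          subst hc1
          refine ⟨u ++ b :: c, z2, d1 + 1, d2, by simp, ?_, h2, by omega⟩
          exact EditSteps.tail h1 (EditStep.sub u c a b)
      · subst hc1 hc2
        refine ⟨z1, c ++ b :: v, d1, d2 + 1, by simp, h1, ?_, by omega⟩
        exact EditSteps.tail h2 (EditStep.sub c v a b)

/-- The split lemma. -/
theorem ED_split (x1 x2 z : List α) : ∃ z1 z2, z = z1 ++ z2 ∧
    ED x1 z1 + ED x2 z2 ≤ ED (x1 ++ x2) z := by
  obtain ⟨z1, z2, d1, d2, hz, h1, h2, hd⟩ := steps_split (ED_steps (x1 ++ x2) z) x1 x2 rfl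
  refine ⟨z1, z2, hz, ?_⟩
  have := ED_le h1
  have := ED_le h2
  omega

theorem steps_length {n : ℕ} {x y : List α} (h : EditSteps n x y) :
    x.length ≤ y.length + n ∧ y.length ≤ x.length + n := by
  induction h with
  | refl x => simp
  | @tail k x y z _ s ih =>
    cases s with
    | ins u v a => simp only [List.length_append, List.length_cons] at ih ⊢; omega
    | del u v a => simp only [List.length_append, List.length_cons] at ih ⊢; omega
    | sub u v a b => simp only [List.length_append, List.length_cons] at ih ⊢; omega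

theorem length_le_left (x y : List α) : x.length ≤ y.length + ED x y :=
  (steps_length (ED_steps x y)).1

theorem length_le_right (x y : List α) : y.length ≤ x.length + ED x y :=
  (steps_length (ED_steps x y)).2

theorem ED_append_le (x y x' y' : List α) : ED (x ++ x') (y ++ y') ≤ ED x y + ED x' y' := by
  have h1 := (ED_steps x y).context [] x'
  have h2 := (ED_steps x' y').context y []
  simp only [List.nil_append, List.append_nil] at h1 h2
  exact ED_le (h1.trans h2)

theorem ED_append_right_le (x y : List α) : ED x (x ++ y) ≤ y.length :=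
  ED_le (EditSteps.insert_right y x)

theorem ED_append_left_le (x y : List α) : ED y (x ++ y) ≤ x.length :=
  ED_le (EditSteps.insert x y)

/-- A common suffix can be dropped. -/
theorem ED_suffix_ge (x y r : List α) : ED x y ≤ ED (x ++ r) (y ++ r) := by
  obtain ⟨z1, z2, hz, h⟩ := ED_split x r (y ++ r)
  have h2 := length_le_left r z2
  have h3 := length_le_right r z2
  rcases List.append_eq_append_iff.1 hz with ⟨c, hc1, hc2⟩ | ⟨c, hc1, hc2⟩
  · -- z1 = y ++ c, r = c ++ z2
    subst hc1
    have h4 := ED_triangle x (y ++ c) y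
    have h5 := ED_append_right_le y c
    rw [ED_comm] at h5
    have h6 := congrArg List.length hc2
    simp only [List.length_append] at h6
    omega
  · -- y = z1 ++ c, z2 = c ++ r
    subst hc1
    have h4 := ED_triangle x z1 (z1 ++ c)
    have h5 := ED_append_right_le z1 c
    have h6 := congrArg List.length hc2
    simp only [List.length_append] at h6
    omega

end edit

/-- The window of `f` of length `l` starting at `a`. -/
def win (f : ℕ → ℕ) (a l : ℕ) : List ℕ := (List.range' a l).map f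

theorem win_length (f : ℕ → ℕ) (a l : ℕ) : (win f a l).length = l := by
  simp [win]

theorem win_append (f : ℕ → ℕ) (a l m : ℕ) : win f a (l + m) = win f a l ++ win f (a + l) m := by
  unfold win
  rw [← List.map_append, List.range'_append_1]

theorem win_shift (f : ℕ → ℕ) (s a l : ℕ) : win (fun p => f (s + p)) a l = win f (s + a) l := by
  unfold win
  rw [← List.map_add_range', List.map_map]
  rfl

/-- Any split of a window is a split into windows. -/
theorem win_eq_append {f : ℕ → ℕ} {a l : ℕ} {z1 z2 : List ℕ} (h : win f a l = z1 ++ z2) :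
    z1 = win f a z1.length ∧ z2 = win f (a + z1.length) z2.length ∧
      l = z1.length + z2.length := by
  have hl := congrArg List.length h
  rw [win_length, List.length_append] at hl
  rw [hl, win_append] at h
  obtain ⟨h1, h2⟩ := List.append_inj h (win_length _ _ _)
  exact ⟨h1.symm, h2.symm, hl⟩

/-- Moving a window by `s` costs at most `2 s`. -/
theorem ED_win_shift (f : ℕ → ℕ) (a s l : ℕ) : ED (win f a l) (win f (a + s) l) ≤ 2 * s := by
  have h1 := ED_append_right_le (win f a l) (win f (a + l) s)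
  rw [← win_append, win_length] at h1
  have h2 := ED_append_left_le (win f a s) (win f (a + s) l)
  rw [← win_append, win_length, add_comm s l] at h2
  have h3 := ED_triangle (win f a l) (win f a (l + s)) (win f (a + s) l)
  rw [ED_comm (win f a (l + s))] at h3
  omega

/-- Blockwise upper bound. -/
theorem ED_win_blocks_le (f g : ℕ → ℕ) (a n B : ℕ) : ED (win f a (B * n)) (win g a (B * n)) ≤
    ∑ b ∈ Finset.range B, ED (win f (a + b * n) n) (win g (a + b * n) n) := by
  induction B with
  | zero => simp [win, ED_self]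
  | succ B ih =>
    rw [Finset.sum_range_succ, Nat.succ_mul, win_append, win_append]
    exact (ED_append_le _ _ _ _).trans (by omega)

/-- Splitting a window of `B` blocks against a window of another word. -/
theorem ED_win_split (f h : ℕ → ℕ) (n : ℕ) : ∀ (B c a l : ℕ), ∃ b : ℕ → ℕ, b 0 = a ∧
    (0 < B → b B = a + l) ∧ (∀ i, i < B → b i ≤ b (i + 1)) ∧ (∀ i, i ≤ B → b i ≤ a + l) ∧
    ∑ i ∈ Finset.range B, ED (win f (c + i * n) n) (win h (b i) (b (i + 1) - b i)) ≤
      ED (win f c (B * n)) (win h a l) := by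
  intro B
  induction B with
  | zero =>
    intro c a l
    refine ⟨fun _ => a, rfl, by omega, by intro i hi; omega, ?_, by simp only [Finset.range_zero, tsub_self, Finset.sum_empty, zero_mul, zero_le]⟩
    intro i hi
    exact Nat.le_add_right a l
  | succ B ih =>
    intro c a l
    obtain ⟨z1, z2, hz, hle⟩ := ED_split (win f c (B * n)) (win f (c + B * n) n) (win h a l)
    rw [← win_append, ← Nat.add_one_mul] at hle
    obtain ⟨hz1, hz2, hl⟩ := win_eq_append hz
    obtain ⟨b, hb0, hbB, hmono, hbd, hsum⟩ := ih c a z1.length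
    rcases Nat.eq_zero_or_pos B with hB | hB
    · subst hB
      refine ⟨fun i => if i = 0 then a else a + l, ?_, ?_, ?_, ?_, ?_⟩
      · simp
      · intro _; simp
      · intro i hi
        have : i = 0 := by omega
        subst this
        simp only [↓reduceIte, zero_add, one_ne_zero, le_add_iff_nonneg_right, zero_le]
      · intro i hi
        by_cases h0 : i = 0
        · simp only [h0, ↓reduceIte, le_add_iff_nonneg_right, zero_le]
        · simp [h0]
      · simp only [zero_add, Finset.range_one, Nat.add_eq_zero_iff, one_ne_zero, and_false, ↓reduceIte, Finset.sum_singleton, zero_mul, add_zero, add_tsub_cancel_left, one_mul, Std.le_refl]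
    · refine ⟨fun i => if i ≤ B then b i else a + l, ?_, ?_, ?_, ?_, ?_⟩
      · simp [hb0]
      · intro _; simp only [add_le_iff_nonpos_right, nonpos_iff_eq_zero, one_ne_zero, ↓reduceIte, Nat.add_left_cancel_iff]
      · intro i hi
        by_cases hi' : i + 1 ≤ B
        · have h1 : i ≤ B := by omega
          simp only [h1, hi', if_true]
          exact hmono i (by omega)
        · have h1 : i = B := by omega
          subst h1
          simp only [le_refl, if_true, hi', if_false]
          rw [hbB hB]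
          omega
      · intro i hi
        by_cases hi' : i ≤ B
        · simp only [hi', if_true]
          have := hbd i hi'
          omega
        · simp [hi']
      · rw [Finset.sum_range_succ]
        have e1 : ∑ i ∈ Finset.range B, ED (win f (c + i * n) n)
            (win h (if i ≤ B then b i else a + l)
              ((if i + 1 ≤ B then b (i + 1) else a + l) - (if i ≤ B then b i else a + l))) =
            ∑ i ∈ Finset.range B, ED (win f (c + i * n) n) (win h (b i) (b (i + 1) - b i)) := by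
          apply Finset.sum_congr rfl
          intro i hi
          rw [Finset.mem_range] at hi
          have h1 : i ≤ B := by omega
          have h2 : i + 1 ≤ B := by omega
          simp only [h1, h2, if_true]
        rw [e1]
        have h3 : ¬ (B + 1 ≤ B) := by omega
        simp only [le_refl, if_true, h3, if_false]
        rw [hbB hB]
        have h4 : a + l - (a + z1.length) = z2.length := by omega
        rw [h4, ← hz2]
        rw [← hz1] at hsum
        omega

end Vale.Agent.P238.Full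
end
end

section

section

namespace Vale.Agent.P238.Full

open Vale.Agent.P238

/-- The data carried through the induction: a finite abelian group, a translation `v` with
`Q • v = 0`, words `X x` of length `n` with letters below `q`, and weighted cheap
perturbations `g a` which detect every character that is nontrivial at `v`. -/
structure Data (Q n : ℕ) (κ δ : ℝ) (q : ℕ) : Type 1 where
  G : Type
  grp : AddCommGroup G
  fin : Fintype G
  v : G
  X : G → ℕ → ℕ
  A : Type
  finA : Fintype A
  g : A → G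
  w : A → ℝ
  d : A → ℝ
  hv : Q • v = 0
  hX : ∀ x p, X x p < q
  hw : ∀ a, 0 ≤ w a
  hd : ∀ a, 0 ≤ d a
  hK : ∀ χ : AddChar G ℂ, χ v ≠ 1 → 1 ≤ ∑ a, w a * ‖1 - χ (g a)‖ ^ 2
  hC : ∀ a x, (ED (win (X x) 0 n) (win (X (x + g a)) 0 n) : ℝ) ≤ d a
  hD : ∑ a, w a * d a ≤ κ * n
  hF : ∀ x (t : ℤ), ¬ (Q : ℤ) ∣ t → ∀ a l, a + l ≤ n →
    δ * n ≤ (ED (win (X x) 0 n) (win (X (x + t • v)) a l) : ℝ)

attribute [instance] Data.grp Data.fin Data.finA

end Vale.Agent.P238.Full
end
end

section

section

namespace Vale.Agent.P238.Full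

open Vale.Agent.P238

section sublists

variable {α : Type}

/-- Deleting letters: going from `x` to a sublist costs the difference of the lengths. -/
theorem ED_sublist_le {s x : List α} (h : s.Sublist x) : ED s x + s.length ≤ x.length := by
  induction h with
  | slnil => simp [ED_self]
  | @cons s x a h ih =>
    have h1 := ED_triangle s x (a :: x)
    have h2 : ED x (a :: x) ≤ 1 := by
      have := ED_append_left_le [a] x
      simpa only [ge_iff_le, List.cons_append, List.nil_append, List.length_cons, List.length_nil, zero_add] using     this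
    simp only [List.length_cons]
    omega
  | @cons_cons s x a h ih =>
    have h1 := ED_context_le [a] [] s x
    simp only [List.append_nil, List.singleton_append] at h1
    simp only [List.length_cons]
    omega

/-- A long common sublist gives a small edit distance. -/
theorem ED_le_of_common {s x y : List α} (hx : s.Sublist x) (hy : s.Sublist y) :
    ED x y + 2 * s.length ≤ x.length + y.length := by
  have h1 := ED_sublist_le hx
  have h2 := ED_sublist_le hy
  have h3 := ED_triangle x s y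
  rw [ED_comm x s] at h3
  omega

/-- Words of length at most `m` have distance at most `m`. -/
theorem ED_le_max (x y : List α) : ED x y ≤ max x.length y.length := by
  induction x generalizing y with
  | nil =>
    have h := ED_append_right_le ([] : List α) y
    simp only [List.nil_append] at h
    simp only [List.length_nil]
    omega
  | cons a x ih =>
    cases y with
    | nil =>
      have h := ED_append_right_le ([] : List α) (a :: x)
      rw [ED_comm] at h
      simp only [List.nil_append] at h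
      omega
    | cons b y =>
      have h1 := ih y
      have h2 := ED_context_le [a] [] x y
      simp only [List.append_nil, List.singleton_append] at h2
      have h3 := ED_sub_le [] y a b
      simp only [List.nil_append] at h3
      have h4 := ED_triangle (a :: x) (a :: y) (b :: y)
      simp only [List.length_cons]
      omega

end sublists

/-- The tail of a code word: every bit is followed by `false`. -/
def spread (l : List Bool) : List Bool := l.flatMap fun b => [b, false]

theorem spread_cons (b : Bool) (l : List Bool) : spread (b :: l) = b :: false :: spread l := by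
  simp [spread]

theorem spread_length (l : List Bool) : (spread l).length = 2 * l.length := by
  induction l with
  | nil => rfl
  | cons b l ih =>
    rw [spread_cons]
    simp only [List.length_cons, ih]
    ring

theorem spread_inj : ∀ {l l' : List Bool}, spread l = spread l' → l = l' := by
  intro l
  induction l with
  | nil =>
    intro l' h
    cases l' with
    | nil => rfl
    | cons b l' => rw [spread_cons] at h; simp [spread] at h
  | cons a l ih =>
    intro l' h
    cases l' with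
    | nil => rw [spread_cons] at h; simp [spread] at h
    | cons b l' =>
      rw [spread_cons, spread_cons] at h
      simp only [List.cons.injEq, true_and] at h
      rw [h.1, ih h.2]

/-- The word `11` does not occur inside the tail of a code word. -/
theorem spread_no_start : ∀ (l : List Bool) (W P R : List Bool),
    spread l ++ W = P ++ true :: true :: R → 2 * l.length ≤ P.length := by
  intro l
  induction l with
  | nil => intro W P R _; simp
  | cons b l ih =>
    intro W P R h
    rw [spread_cons] at h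
    match P, h with
    | [], h => simp at h
    | [c], h => simp at h
    | c :: c' :: P, h =>
      simp only [List.cons_append, List.cons.injEq] at h
      have := ih W P R h.2.2
      simp only [List.length_cons]
      omega

/-- The `d` lowest bits of a letter. -/
def bits (d a : ℕ) : List Bool := (List.range d).map fun i => a.testBit i

theorem bits_length (d a : ℕ) : (bits d a).length = d := by simp [bits]

theorem bits_inj {d a b : ℕ} (ha : a < 2 ^ d) (hb : b < 2 ^ d) (h : bits d a = bits d b) :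
    a = b := by
  apply Nat.eq_of_testBit_eq
  intro i
  by_cases hi : i < d
  · unfold bits at h
    have := List.map_inj_left.1 h i (List.mem_range.2 hi)
    exact this
  · rw [Nat.testBit_lt_two_pow (lt_of_lt_of_le ha (Nat.pow_le_pow_right (by norm_num) (by omega))),
      Nat.testBit_lt_two_pow (lt_of_lt_of_le hb (Nat.pow_le_pow_right (by norm_num) (by omega)))]

/-- The code word of a letter: `110` followed by the spread bits. -/
def code (d a : ℕ) : List Bool := true :: true :: false :: spread (bits d a)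

theorem code_length (d a : ℕ) : (code d a).length = 2 * d + 3 := by
  simp [code, spread_length, bits_length]

theorem code_inj {d a b : ℕ} (ha : a < 2 ^ d) (hb : b < 2 ^ d) (h : code d a = code d b) :
    a = b := by
  unfold code at h
  simp only [List.cons.injEq, true_and] at h
  exact bits_inj ha hb (spread_inj h)

/-- The encoded word. -/
def enc (d : ℕ) (x : List ℕ) : List Bool := x.flatMap (code d)

theorem enc_nil (d : ℕ) : enc d [] = [] := rfl

theorem enc_cons (d a : ℕ) (x : List ℕ) : enc d (a :: x) = code d a ++ enc d x := by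
  simp [enc]

theorem enc_append (d : ℕ) (x y : List ℕ) : enc d (x ++ y) = enc d x ++ enc d y := by
  simp [enc]

theorem enc_length (d : ℕ) (x : List ℕ) : (enc d x).length = (2 * d + 3) * x.length := by
  induction x with
  | nil => rfl
  | cons a x ih =>
    rw [enc_cons, List.length_append, code_length, ih, List.length_cons]
    ring

/-- The word `11` occurs in `code b ++ W` only at the start or after the code word. -/
theorem code_no_start {d b : ℕ} {W P R : List Bool}
    (h : code d b ++ W = P ++ true :: true :: R) : P = [] ∨ 2 * d + 3 ≤ P.length := by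
  unfold code at h
  match P, h with
  | [], _ => left; rfl
  | [c], h => simp at h
  | [c, c'], h => simp at h
  | c :: c' :: c'' :: P, h =>
    right
    simp only [List.cons_append, List.cons.injEq] at h
    have := spread_no_start (bits d b) W P R h.2.2.2
    rw [bits_length] at this
    simp only [List.length_cons]
    omega

/-- Comma-freeness: a code word occurs in an encoded word only as an encoded letter. -/
theorem comma_free {d a : ℕ} (ha : a < 2 ^ d) : ∀ (y : List ℕ) (P R : List Bool),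
    (∀ b ∈ y, b < 2 ^ d) → enc d y = P ++ (code d a ++ R) →
    ∃ y1 y2, y = y1 ++ a :: y2 ∧ enc d y2 = R := by
  intro y
  induction y with
  | nil =>
    intro P R _ h
    have := congrArg List.length h
    simp only [enc_nil, List.length_nil, List.length_append, code_length] at this
    omega
  | cons b y ih =>
    intro P R hy h
    rw [enc_cons] at h
    have h' : code d b ++ enc d y = P ++ true :: true :: (false :: spread (bits d a) ++ R) := by
      rw [h]
      simp [code]
    rcases code_no_start h' with hP | hP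
    · subst hP
      rw [List.nil_append] at h
      obtain ⟨h1, h2⟩ := List.append_inj h (by rw [code_length, code_length])
      have hab := code_inj (hy b (by simp)) ha h1
      subst hab
      exact ⟨[], y, rfl, h2⟩
    · obtain ⟨P', rfl⟩ : ∃ P', P = code d b ++ P' := by
        refine ⟨P.drop (2 * d + 3), ?_⟩
        have h3 := congrArg (List.take (2 * d + 3)) h
        rw [List.take_left' (code_length d b), List.take_append_of_le_length hP] at h3
        rw [h3, List.take_append_drop]
      rw [List.append_assoc, List.append_cancel_left_eq] at h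
      obtain ⟨y1, y2, hy12, hR⟩ := ih P' R (fun c hc => hy c (by simp [hc])) h
      exact ⟨b :: y1, y2, by rw [hy12]; rfl, hR⟩

/-- The key estimate: an encoded word against a suffix of another encoded word. -/
theorem common_of_enc {d : ℕ} : ∀ (x y : List ℕ) (P W : List Bool),
    (∀ b ∈ x, b < 2 ^ d) → (∀ b ∈ y, b < 2 ^ d) → enc d y = P ++ W →
    ∃ s : List ℕ, s.Sublist x ∧ s.Sublist y ∧ x.length ≤ s.length + ED (enc d x) W := by
  intro x
  induction x with
  | nil =>
    intro y P W _ _ _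
    exact ⟨[], List.Sublist.refl _, List.nil_sublist _, by simp⟩
  | cons a x ih =>
    intro y P W hx hy hW
    rw [enc_cons]
    obtain ⟨Z1, Z2, rfl, hle⟩ := ED_split (code d a) (enc d x) W
    have hx' : ∀ b ∈ x, b < 2 ^ d := fun b hb => hx b (by simp [hb])
    by_cases h0 : ED (code d a) Z1 = 0
    · have hZ := ED_eq_zero h0
      subst hZ
      obtain ⟨y1, y2, rfl, hy2⟩ := comma_free (hx a (by simp)) y P Z2 hy hW
      obtain ⟨s, hs1, hs2, hs3⟩ := ih y2 [] Z2 hx' (fun b hb => hy b (by simp [hb]))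
        (by rw [hy2, List.nil_append])
      refine ⟨a :: s, hs1.cons_cons a, ?_, ?_⟩
      · exact (hs2.cons_cons a).trans (List.sublist_append_right _ _)
      · simp only [List.length_cons]
        omega
    · obtain ⟨s, hs1, hs2, hs3⟩ := ih y (P ++ Z1) Z2 hx' hy (by rw [hW, List.append_assoc])
      refine ⟨s, hs1.cons a, hs2, ?_⟩
      simp only [List.length_cons]
      omega

/-- The encoding expands distances of words of equal length, up to a factor `2`. -/
theorem ED_le_enc {d : ℕ} {x y : List ℕ} (hx : ∀ b ∈ x, b < 2 ^ d) (hy : ∀ b ∈ y, b < 2 ^ d)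
    (hl : x.length = y.length) : ED x y ≤ 2 * ED (enc d x) (enc d y) := by
  obtain ⟨s, hs1, hs2, hs3⟩ := common_of_enc x y [] (enc d y) hx hy (by simp)
  have := ED_le_of_common hs1 hs2
  omega

theorem ED_enc_step {d : ℕ} {x y : List ℕ} (h : EditStep x y) :
    ED (enc d x) (enc d y) ≤ 2 * d + 3 := by
  cases h with
  | ins u v a =>
    rw [enc_append, enc_append, enc_cons]
    have h1 := ED_context_le (enc d u) [] (enc d v) (code d a ++ enc d v)
    simp only [List.append_nil] at h1
    have h2 := ED_append_left_le (code d a) (enc d v)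
    rw [code_length] at h2
    omega
  | del u v a =>
    rw [enc_append, enc_append, enc_cons]
    have h1 := ED_context_le (enc d u) [] (enc d v) (code d a ++ enc d v)
    simp only [List.append_nil] at h1
    have h2 := ED_append_left_le (code d a) (enc d v)
    rw [code_length] at h2
    rw [ED_comm]
    omega
  | sub u v a b =>
    rw [enc_append, enc_append, enc_cons, enc_cons]
    have h1 := ED_context_le (enc d u) (enc d v) (code d a) (code d b)
    have h2 := ED_le_max (code d a) (code d b)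
    rw [code_length, code_length, max_self] at h2
    omega

/-- The encoding is Lipschitz. -/
theorem ED_enc_le (d : ℕ) (x y : List ℕ) :
    ED (enc d x) (enc d y) ≤ (2 * d + 3) * ED x y := by
  have key : ∀ {n : ℕ} {x y : List ℕ}, EditSteps n x y →
      ED (enc d x) (enc d y) ≤ (2 * d + 3) * n := by
    intro n x y h
    induction h with
    | refl x => simp [ED_self]
    | @tail k x y z _ s ih =>
      have h1 := ED_triangle (enc d x) (enc d y) (enc d z)
      have h2 := ED_enc_step (d := d) s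
      rw [Nat.mul_succ]
      omega
  exact key (ED_steps x y)

/-- The encoded word padded to a function on `Fin n`. -/
def encFn (d n : ℕ) (x : List ℕ) : Fin n → Bool := fun i => (enc d x).getD i false

theorem ofFn_encFn {d n : ℕ} {x : List ℕ} (h : (2 * d + 3) * x.length ≤ n) :
    List.ofFn (encFn d n x) =
      enc d x ++ List.replicate (n - (2 * d + 3) * x.length) false := by
  have hl := enc_length d x
  apply List.ext_getElem
  · simp only [List.length_ofFn, List.length_append, List.length_replicate, hl]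
    omega
  · intro q h1 h2
    simp only [List.length_ofFn] at h1
    by_cases hq : q < (enc d x).length
    · rw [List.getElem_append_left hq]
      simp [encFn, List.getD_eq_getElem?_getD, hq]
    · rw [List.getElem_append_right (by omega)]
      simp only [List.getElem_ofFn, List.getElem_replicate]
      unfold encFn
      rw [List.getD_eq_getElem?_getD, List.getElem?_eq_none (by simpa only [not_lt] using hq)]
      rfl

theorem binED_encFn_ge {d n : ℕ} {x y : List ℕ} (hx : ∀ b ∈ x, b < 2 ^ d)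
    (hy : ∀ b ∈ y, b < 2 ^ d) (hl : x.length = y.length) (hn : (2 * d + 3) * x.length ≤ n) :
    (ED x y : ℝ) ≤ 2 * binED n (encFn d n x) (encFn d n y) := by
  unfold binED
  rw [ofFn_encFn hn, ofFn_encFn (by rw [← hl]; exact hn), hl]
  have h1 := ED_le_enc hx hy hl
  have h2 := ED_suffix_ge (enc d x) (enc d y)
    (List.replicate (n - (2 * d + 3) * y.length) false)
  have h3 : ED x y ≤ 2 * ED (enc d x ++ List.replicate (n - (2 * d + 3) * y.length) false)
    (enc d y ++ List.replicate (n - (2 * d + 3) * y.length) false) := by omega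
  exact_mod_cast h3

theorem binED_encFn_le {d n : ℕ} {x y : List ℕ} (hl : x.length = y.length)
    (hn : (2 * d + 3) * x.length ≤ n) :
    binED n (encFn d n x) (encFn d n y) ≤ (2 * d + 3 : ℕ) * (ED x y : ℝ) := by
  unfold binED
  rw [ofFn_encFn hn, ofFn_encFn (by rw [← hl]; exact hn), hl]
  have h1 := ED_enc_le d x y
  have h2 := ED_context_le [] (List.replicate (n - (2 * d + 3) * y.length) false)
    (enc d x) (enc d y)
  simp only [List.nil_append] at h2
  exact_mod_cast h2.trans h1

end Vale.Agent.P238.Full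
end
end

section

section

namespace Vale.Agent.P238

open MeasureTheory

/-- The two threshold indicators differ exactly between `a` and `b`. -/
theorem threshold_eq_indicator (a b : ℝ) :
    (fun t : ℝ => |(if t < a then (1 : ℝ) else 0) - (if t < b then (1 : ℝ) else 0)|) =
      Set.indicator (Set.Ico (min a b) (max a b)) (fun _ => (1 : ℝ)) := by
  funext t
  by_cases h : t ∈ Set.Ico (min a b) (max a b)
  · rw [Set.indicator_of_mem h]
    rw [Set.mem_Ico, min_le_iff, lt_max_iff] at h
    by_cases ha : t < a <;> by_cases hb : t < b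
    · exfalso
      rcases h.1 with h1 | h1 <;> linarith
    · simp [ha, hb]
    · simp [ha, hb]
    · exfalso
      rcases h.2 with h1 | h1 <;> contradiction
  · rw [Set.indicator_of_notMem h]
    rw [Set.mem_Ico, min_le_iff, lt_max_iff] at h
    by_cases ha : t < a <;> by_cases hb : t < b
    · simp [ha, hb]
    · exfalso
      exact h ⟨Or.inr (not_lt.1 hb), Or.inl ha⟩
    · exfalso
      exact h ⟨Or.inl (not_lt.1 ha), Or.inr hb⟩
    · simp [ha, hb]

theorem threshold_integrable (a b : ℝ) : Integrable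
    (fun t : ℝ => |(if t < a then (1 : ℝ) else 0) - (if t < b then (1 : ℝ) else 0)|) := by
  rw [threshold_eq_indicator]
  rw [integrable_indicator_iff measurableSet_Ico]
  exact integrableOn_const (by simp only [Real.volume_Ico, ne_eq, ENNReal.ofReal_ne_top, not_false_eq_true])

theorem abs_sub_eq_integral (a b : ℝ) :
    |a - b| = ∫ t : ℝ, |(if t < a then (1 : ℝ) else 0) - (if t < b then (1 : ℝ) else 0)| := by
  rw [threshold_eq_indicator, integral_indicator measurableSet_Ico]
  simp only [integral_const, MeasurableSet.univ, measureReal_restrict_apply, Set.univ_inter, Real.volume_real_Ico, max_sub_min_eq_abs, abs_sub_comm, abs_nonneg, sup_of_le_left, smul_eq_mul, mul_one]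

/-- A linear inequality valid for all cuts is valid for all real functions. -/
theorem cut_to_real {X : Type} [Fintype X] [DecidableEq X] (Λ : (X × X → ℝ) →ₗ[ℝ] ℝ)
    (h : ∀ f : X → ℝ, (∀ x, f x = 0 ∨ f x = 1) → 0 ≤ Λ (fun q => |f q.1 - f q.2|))
    (g : X → ℝ) : 0 ≤ Λ (fun q => |g q.1 - g q.2|) := by
  have hint : Λ (fun q => |g q.1 - g q.2|) = ∫ t : ℝ, Λ (fun q =>
      |(if t < g q.1 then (1 : ℝ) else 0) - (if t < g q.2 then (1 : ℝ) else 0)|) := by
    rw [LinearMap.pi_apply_eq_sum_univ Λ]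
    simp_rw [LinearMap.pi_apply_eq_sum_univ Λ (fun q =>
      |(if _ < g q.1 then (1 : ℝ) else 0) - (if _ < g q.2 then (1 : ℝ) else 0)|)]
    rw [integral_finsetSum]
    · apply Finset.sum_congr rfl
      intro q _
      simp only [smul_eq_mul]
      rw [integral_mul_const, ← abs_sub_eq_integral]
    · intro q _
      simp only [smul_eq_mul]
      exact (threshold_integrable _ _).mul_const _
  rw [hint]
  apply integral_nonneg
  intro t
  apply h (fun x => if t < g x then (1 : ℝ) else 0)
  intro x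
  by_cases hx : t < g x
  · right; simp [hx]
  · left; simp [hx]

/-- A linear inequality valid for all cuts is valid for all maps into `ℓ₁`. -/
theorem cut_to_l1 {X : Type} [Fintype X] [DecidableEq X] (Λ : (X × X → ℝ) →ₗ[ℝ] ℝ)
    (h : ∀ f : X → ℝ, (∀ x, f x = 0 ∨ f x = 1) → 0 ≤ Λ (fun q => |f q.1 - f q.2|))
    (F : X → lp (fun _ : ℕ => ℝ) 1) : 0 ≤ Λ (fun q => ‖F q.1 - F q.2‖) := by
  have hp : 0 < (1 : ENNReal).toReal := by simp only [ENNReal.toReal_one, zero_lt_one]
  have hsumm : ∀ q : X × X, Summable (fun c : ℕ => |F q.1 c - F q.2 c|) := by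
    intro q
    have h1 := (lp.memℓp (F q.1 - F q.2)).summable hp
    simpa only [AddSubgroupClass.coe_sub, PreLp.sub_apply, Real.norm_eq_abs, ENNReal.toReal_one,     Real.rpow_one] using h1
  have hnorm : ∀ q : X × X, ‖F q.1 - F q.2‖ = ∑' c : ℕ, |F q.1 c - F q.2 c| := by
    intro q
    rw [lp.norm_eq_tsum_rpow hp]
    simp only [AddSubgroupClass.coe_sub, PreLp.sub_apply, Real.norm_eq_abs, ENNReal.toReal_one, Real.rpow_one, ne_eq, one_ne_zero, not_false_eq_true, div_self]
  have e : Λ (fun q => ‖F q.1 - F q.2‖) = ∑' c : ℕ, Λ (fun q => |F q.1 c - F q.2 c|) := by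
    rw [LinearMap.pi_apply_eq_sum_univ Λ]
    have e1 : ∀ c : ℕ, Λ (fun q => |F q.1 c - F q.2 c|) =
        ∑ q, |F q.1 c - F q.2 c| • Λ (fun j => if q = j then 1 else 0) := fun c =>
      LinearMap.pi_apply_eq_sum_univ Λ _
    simp_rw [e1]
    rw [Summable.tsum_finsetSum]
    · apply Finset.sum_congr rfl
      intro q _
      rw [hnorm]
      simp only [smul_eq_mul]
      rw [tsum_mul_right]
    · intro q _
      simp only [smul_eq_mul]
      exact (hsumm q).mul_right _
  rw [e]
  apply tsum_nonneg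
  intro c
  exact cut_to_real Λ h (fun x => F x c)

/-- There are injective maps of a finite type into `ℓ₁`. -/
theorem exists_injective_l1 (X : Type) [Finite X] :
    Nonempty {f : X → lp (fun _ : ℕ => ℝ) 1 // Function.Injective f} := by
  classical
  obtain ⟨n, ⟨e⟩⟩ := Finite.exists_equiv_fin X
  let v : lp (fun _ : ℕ => ℝ) 1 := lp.single 1 0 (1 : ℝ)
  have hv : v ≠ 0 := by
    intro h0
    have := congrArg (fun w : lp (fun _ : ℕ => ℝ) 1 => w 0) h0
    simp [v] at this
  refine ⟨⟨fun x => ((e x : ℕ) : ℝ) • v, ?_⟩⟩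
  intro x y hxy
  have h1 : ((e x : ℕ) : ℝ) = ((e y : ℕ) : ℝ) := smul_left_injective ℝ hv hxy
  have h2 : (e x : ℕ) = (e y : ℕ) := by exact_mod_cast h1
  exact e.injective (Fin.ext h2)

/-- To bound `c1` from below it suffices to treat bi-Lipschitz maps. -/
theorem le_c1 {X : Type} [Finite X] (ρ : X → X → ℝ) (hρ0 : ∀ x, ρ x x = 0)
    (hρ : ∀ x y, x ≠ y → 0 < ρ x y) (C : ℝ)
    (H : ∀ (F : X → lp (fun _ : ℕ => ℝ) 1) (L M : ℝ), 0 ≤ L → 0 ≤ M →
      (∀ x y, ‖F x - F y‖ ≤ L * ρ x y) → (∀ x y, ρ x y ≤ M * ‖F x - F y‖) → C ≤ L * M) :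
    C ≤ c1 ρ := by
  have := exists_injective_l1 X
  unfold c1
  apply le_ciInf
  rintro ⟨F, hF⟩
  unfold distortion
  apply H F
  · apply Real.iSup_nonneg
    rintro ⟨⟨x, y⟩, hxy⟩
    exact div_nonneg (norm_nonneg _) (hρ x y hxy).le
  · apply Real.iSup_nonneg
    rintro ⟨⟨x, y⟩, hxy⟩
    exact div_nonneg (hρ x y hxy).le (norm_nonneg _)
  · intro x y
    by_cases hxy : x = y
    · subst hxy
      simp only [sub_self, norm_zero, ne_eq, hρ0, mul_zero, Std.le_refl]
    · rw [← div_le_iff₀ (hρ x y hxy)]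
      exact le_ciSup (f := fun p : {p : X × X // p.1 ≠ p.2} =>
        ‖F p.1.1 - F p.1.2‖ / ρ p.1.1 p.1.2) (Set.finite_range _).bddAbove ⟨(x, y), hxy⟩
  · intro x y
    by_cases hxy : x = y
    · subst hxy
      simp only [hρ0, ne_eq, sub_self, norm_zero, mul_zero, Std.le_refl]
    · have hpos : 0 < ‖F x - F y‖ := by
        rw [norm_pos_iff, sub_ne_zero]
        exact fun h => hxy (hF h)
      rw [← div_le_iff₀ hpos]
      exact le_ciSup (f := fun p : {p : X × X // p.1 ≠ p.2} =>
        ρ p.1.1 p.1.2 / ‖F p.1.1 - F p.1.2‖) (Set.finite_range _).bddAbove ⟨(x, y), hxy⟩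

end Vale.Agent.P238
end
end

section

section

set_option autoImplicit false

namespace Vale.Agent.P238.Full

open Real

theorem primes_exist : ∃ C : ℕ, 1 ≤ C ∧ ∀ m : ℕ, 2 ≤ m → Nat.nth Nat.Prime (2 * m) ≤ m ^ C := by
  refine ⟨8, by norm_num, ?_⟩
  intro m hm
  have hm2 : (2 : ℝ) ≤ m := by exact_mod_cast hm
  set n : ℕ := m ^ 8 with hn
  have hn256 : 256 ≤ n := by
    calc 256 = 2 ^ 8 := by norm_num
      _ ≤ m ^ 8 := Nat.pow_le_pow_left hm 8
  have hnR : (256 : ℝ) ≤ n := by exact_mod_cast hn256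
  have hlogn : log (n : ℝ) = 8 * log m := by
    rw [hn]; push_cast; rw [log_pow]; norm_num
  have hlogm : log (m : ℝ) ≤ m := (log_le_sub_one_of_pos (by linarith only [hm2])).trans (by linarith only [])
  have hlogmpos : 0 < log (m : ℝ) := log_pos (by linarith only [hm2])
  have hl2 : 0.6931471803 < log 2 := log_two_gt_d9
  have hl2' : log 2 < 0.6931471808 := log_two_lt_d9
  have hlog1 : log ((n : ℝ) + 1) ≤ (n + 1) / 16 + 2 := by
    have h1 : log ((n : ℝ) + 1) = log (((n : ℝ) + 1) / 16) + log 16 := by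
      rw [← log_mul (by positivity) (by norm_num)]
      congr 1
      ring
    have h2 : log (16 : ℝ) = 4 * log 2 := by
      rw [show (16 : ℝ) = 2 ^ 4 by norm_num, log_pow]; norm_num
    have h3 : log (((n : ℝ) + 1) / 16) ≤ ((n : ℝ) + 1) / 16 - 1 :=
      log_le_sub_one_of_pos (by positivity)
    rw [h1, h2]
    linarith only [hl2', h3]
  have hpi : (n * log 2 - log (n + 1)) / log n ≤ (Nat.primeCounting n : ℝ) := Chebyshev.pi_ge n
  have hnum : (n : ℝ) / 2 ≤ n * log 2 - log (n + 1) := by nlinarith only [hnR, hl2, hlog1]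
  have hlog_pos : 0 < log (n : ℝ) := log_pos (by linarith only [hnR])
  have h5 : (n : ℝ) / 2 ≤ (Nat.primeCounting n : ℝ) * (8 * m) := by
    rw [div_le_iff₀ hlog_pos] at hpi
    have : (Nat.primeCounting n : ℝ) * log n ≤ (Nat.primeCounting n : ℝ) * (8 * m) := by
      apply mul_le_mul_of_nonneg_left _ (Nat.cast_nonneg _)
      rw [hlogn]; linarith only [hlogm]
    linarith only [hpi, hnum, this]
  have h6 : 2 * m < Nat.primeCounting n := by
    by_contra hcon
    have h7 : (Nat.primeCounting n : ℝ) ≤ 2 * m := by exact_mod_cast not_lt.1 hcon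
    have h8 : (n : ℝ) / 2 ≤ 2 * m * (8 * m) :=
      h5.trans (mul_le_mul_of_nonneg_right h7 (by positivity))
    have h9 : (n : ℝ) = (m : ℝ) ^ 2 * (m : ℝ) ^ 6 := by rw [hn]; push_cast; ring
    have h10 : (64 : ℝ) ≤ (m : ℝ) ^ 6 := by
      calc (64 : ℝ) = 2 ^ 6 := by norm_num
        _ ≤ (m : ℝ) ^ 6 := pow_le_pow_left₀ (by norm_num) hm2 6
    have h11 : 0 < (m : ℝ) ^ 2 := by positivity
    rw [h9] at h8
    have h12 : (m : ℝ) ^ 2 * 64 ≤ (m : ℝ) ^ 2 * (m : ℝ) ^ 6 :=
      mul_le_mul_of_nonneg_left h10 h11.le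
    have h13 : 2 * (m : ℝ) * (8 * m) = 16 * (m : ℝ) ^ 2 := by ring
    rw [h13] at h8
    have h14 : (m : ℝ) ^ 2 * (m : ℝ) ^ 6 ≤ 32 * (m : ℝ) ^ 2 := by linarith only [h8]
    have h15 : (m : ℝ) ^ 2 * 64 ≤ 32 * (m : ℝ) ^ 2 := h12.trans h14
    linarith only [hnR, h8, h9, h12]
  have h7 : Nat.nth Nat.Prime (2 * m) < n + 1 := by
    apply Nat.nth_lt_of_lt_count
    rw [← Nat.primeCounting', Nat.primeCounting'] at *
    exact h6
  omega

theorem asymp (K : ℕ) (hK : 1 ≤ K) : ∃ c : ℝ, 0 < c ∧ ∃ n0 : ℕ, ∀ n : ℕ, n0 ≤ n →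
    ∃ L : ℕ, K ≤ L ∧ 2 ≤ L ∧ L ^ (K * L ^ 2) ≤ n ∧
      Real.exp (c * Real.sqrt (Real.log n * Real.log (Real.log n))) ≤
        ((L : ℝ) / 4) ^ L / (L : ℝ) ^ K := by
  classical
  set L0 : ℕ := 256 + 8 * K with hL0
  have hKR : (1 : ℝ) ≤ K := by exact_mod_cast hK
  have hsqrt_pos : 0 < √(32 * (K : ℝ)) := Real.sqrt_pos.2 (by (clear * - hK; positivity))
  refine ⟨1 / (2 * √(32 * K)), by positivity, L0 ^ (K * L0 ^ 2), ?_⟩
  intro n hn
  have hself : ∀ x : ℕ, 1 ≤ x → x ≤ x ^ (K * x ^ 2) := by
    intro x hx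
    calc x = x ^ 1 := (pow_one x).symm
      _ ≤ x ^ (K * x ^ 2) := Nat.pow_le_pow_right hx (Nat.mul_pos hK (pow_pos hx 2))
  set L : ℕ := Nat.findGreatest (fun x => x ^ (K * x ^ 2) ≤ n) n with hLdef
  have hL0n : L0 ≤ n := (hself L0 (by omega)).trans hn
  have hL1 : L0 ≤ L := Nat.le_findGreatest hL0n hn
  have hL2 : L ^ (K * L ^ 2) ≤ n := Nat.findGreatest_spec (P := fun x => x ^ (K * x ^ 2) ≤ n) hL0n hn
  have hL3 : n < (L + 1) ^ (K * (L + 1) ^ 2) := by
    by_contra hcon
    have hle := not_lt.1 hcon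
    have h1 : L + 1 ≤ n := (hself (L + 1) (by omega)).trans hle
    have h2 : L + 1 ≤ L := Nat.le_findGreatest h1 hle
    omega
  refine ⟨L, by omega, by omega, hL2, ?_⟩
  have hLR : (256 : ℝ) ≤ L := by
    have : 256 ≤ L := by omega
    exact_mod_cast this
  have hLK : 8 * (K : ℝ) ≤ L := by
    have : 8 * K ≤ L := by omega
    exact_mod_cast this
  have hLpos : (0 : ℝ) < L := by linarith only [hLR]
  have hlogL : 4 * log 4 ≤ log L := by
    rw [show 4 * log 4 = log ((4 : ℝ) ^ 4) by rw [log_pow]; norm_num]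
    apply log_le_log (by norm_num)
    have h44 : (4 : ℝ) ^ 4 = 256 := by norm_num
    rw [h44]
    exact hLR
  have hlog4 : 0 < log 4 := log_pos (by norm_num)
  have hlogLpos : 0 < log (L : ℝ) := by linarith only [hlogL, hlog4]
  have hlogL1 : 1 < log (L : ℝ) := by
    have : (1 : ℝ) ≤ log 4 := by
      rw [Real.le_log_iff_exp_le (by norm_num)]
      have := Real.exp_one_lt_d9
      linarith only [this]
    linarith only [hlogL, this]
  -- bound for log n
  have hnL : L0 ≤ n := hL0n
  have hn1 : (256 : ℝ) ≤ n := by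
    have : 256 ≤ n := by omega
    exact_mod_cast this
  have hlogn : log (n : ℝ) ≤ 8 * K * (L : ℝ) ^ 2 * log L := by
    have h1 : log (n : ℝ) ≤ log (((L + 1 : ℕ) : ℝ) ^ (K * (L + 1) ^ 2)) := by
      apply log_le_log (by linarith only [hn1])
      exact_mod_cast hL3.le
    rw [log_pow] at h1
    have h2 : log ((L + 1 : ℕ) : ℝ) ≤ 2 * log L := by
      rw [show 2 * log (L : ℝ) = log ((L : ℝ) ^ 2) by rw [log_pow]; norm_num]
      apply log_le_log (by positivity)
      push_cast
      nlinarith only [hLR]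
    have h3 : ((K * (L + 1) ^ 2 : ℕ) : ℝ) ≤ 4 * K * (L : ℝ) ^ 2 := by
      push_cast
      have : ((L : ℝ) + 1) ^ 2 ≤ 4 * (L : ℝ) ^ 2 := by nlinarith only [hLR]
      calc (K : ℝ) * ((L : ℝ) + 1) ^ 2 ≤ K * (4 * (L : ℝ) ^ 2) :=
            mul_le_mul_of_nonneg_left this (by positivity)
        _ = _ := by ring
    calc log (n : ℝ) ≤ ((K * (L + 1) ^ 2 : ℕ) : ℝ) * log ((L + 1 : ℕ) : ℝ) := h1
      _ ≤ (4 * K * (L : ℝ) ^ 2) * (2 * log L) := by
          apply mul_le_mul h3 h2
          · apply log_nonneg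
            push_cast
            linarith only []
          · (clear * - hK hLR; positivity)
      _ = _ := by ring
  have hlogn_pos : 1 < log (n : ℝ) := by
    have h1 : log (4 : ℝ) < log n := log_lt_log (by norm_num) (by linarith only [hn1])
    have : (1 : ℝ) ≤ log 4 := by
      rw [Real.le_log_iff_exp_le (by norm_num)]
      have := Real.exp_one_lt_d9
      linarith only [this]
    linarith only [h1, this]
  have hloglog : log (log (n : ℝ)) ≤ 4 * log L := by
    have h1 : log (log (n : ℝ)) ≤ log ((L : ℝ) ^ 4) := by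
      apply log_le_log (by linarith only [hlogn_pos])
      refine hlogn.trans ?_
      have h2 : log (L : ℝ) ≤ L := (log_le_sub_one_of_pos hLpos).trans (by linarith only [])
      calc 8 * (K : ℝ) * (L : ℝ) ^ 2 * log L ≤ L * (L : ℝ) ^ 2 * L := by
            apply mul_le_mul _ h2 hlogLpos.le (by (clear * - hLR; positivity))
            exact mul_le_mul_of_nonneg_right hLK (by (clear * - hLR; positivity))
        _ = (L : ℝ) ^ 4 := by ring
    rw [log_pow] at h1
    exact_mod_cast h1
  have hloglog_pos : 0 ≤ log (log (n : ℝ)) := log_nonneg hlogn_pos.le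
  have hsq : √(log (n : ℝ) * log (log (n : ℝ))) ≤ √(32 * K) * (L * log L) := by
    apply Real.sqrt_le_iff.2
    refine ⟨by (clear * - hK hLR hlogLpos; positivity), ?_⟩
    rw [mul_pow, Real.sq_sqrt (by positivity)]
    calc log (n : ℝ) * log (log (n : ℝ)) ≤ (8 * K * (L : ℝ) ^ 2 * log L) * (4 * log L) :=
          mul_le_mul hlogn hloglog hloglog_pos (by (clear * - hK hLR hlogLpos; positivity))
      _ = 32 * K * (L * log L) ^ 2 := by ring
  have hexp : 1 / (2 * √(32 * K)) * √(log (n : ℝ) * log (log (n : ℝ))) ≤ L * log L / 2 := by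
    calc 1 / (2 * √(32 * (K : ℝ))) * √(log (n : ℝ) * log (log (n : ℝ)))
        ≤ 1 / (2 * √(32 * (K : ℝ))) * (√(32 * K) * (L * log L)) :=
          mul_le_mul_of_nonneg_left hsq (by positivity)
      _ = L * log L / 2 := by
          field_simp
  refine (Real.exp_le_exp.2 hexp).trans ?_
  have hrhs : ((L : ℝ) / 4) ^ L / (L : ℝ) ^ K =
      Real.exp (L * (log L - log 4) - K * log L) := by
    rw [Real.exp_sub, ← Real.log_div (by (clear * - hLR; positivity)) (by norm_num), mul_comm (L : ℝ),
      mul_comm (K : ℝ), Real.exp_mul, Real.exp_mul, Real.exp_log (by (clear * - hLR; positivity)),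
      Real.exp_log hLpos, Real.rpow_natCast, Real.rpow_natCast]
  rw [hrhs]
  apply Real.exp_le_exp.2
  have h1 : (L : ℝ) * log 4 ≤ L * log L / 4 := by nlinarith only [hlogL]
  have h2 : (K : ℝ) * log L ≤ L * log L / 8 := by nlinarith only [hLK, hlogL, hlog4]
  have h3 : 0 ≤ (L : ℝ) * log L := by (clear * - hLR hlogLpos; positivity)
  nlinarith only [h1, h2, h3]

end Vale.Agent.P238.Full
end
end

section

section

namespace Vale.Agent.P238.Full

open Vale.Agent.P238

section fourier

variable {G : Type} [AddCommGroup G] [Fintype G]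

theorem parseval (f : G → ℝ) : ∑ χ : AddChar G ℂ, ‖∑ x, (f x : ℂ) * χ x‖ ^ 2 =
    Fintype.card G * ∑ x, (f x) ^ 2 := by
  classical
  have key : ((∑ χ : AddChar G ℂ, ‖∑ x, (f x : ℂ) * χ x‖ ^ 2 : ℝ) : ℂ) =
      ((Fintype.card G * ∑ x, (f x) ^ 2 : ℝ) : ℂ) := by
    push_cast
    have h1 : ∀ χ : AddChar G ℂ, ((‖∑ x, (f x : ℂ) * χ x‖ : ℝ) : ℂ) ^ 2 =
        ∑ x, ∑ y, (f x : ℂ) * f y * χ (x - y) := by
      intro χ
      rw [← Complex.mul_conj', map_sum, Finset.sum_mul_sum]
      apply Finset.sum_congr rfl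
      intro x _
      apply Finset.sum_congr rfl
      intro y _
      rw [map_mul, Complex.conj_ofReal, sub_eq_add_neg, AddChar.map_add_eq_mul,
        AddChar.map_neg_eq_conj]
      ring
    simp_rw [h1]
    rw [Finset.sum_comm, Finset.mul_sum]
    apply Finset.sum_congr rfl
    intro x _
    rw [Finset.sum_comm]
    have h2 : ∀ y, ∑ χ : AddChar G ℂ, (f x : ℂ) * f y * χ (x - y) =
        if x = y then (f x : ℂ) ^ 2 * Fintype.card G else 0 := by
      intro y
      rw [← Finset.mul_sum, AddChar.sum_apply_eq_ite]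
      by_cases h : x = y
      · subst h
        simp only [sub_self, ↓reduceIte, mul_eq_mul_right_iff, Nat.cast_eq_zero, Fintype.card_ne_zero, or_false]
        ring
      · have h' : ¬ (x - y = 0) := by
          rw [sub_eq_zero]; exact h
        simp [h, h']
    simp_rw [h2]
    rw [Finset.sum_ite_eq]
    simp only [Finset.mem_univ, ↓reduceIte]
    ring
  exact_mod_cast key

theorem coeff_shift (F : G → ℝ) (g : G) (χ : AddChar G ℂ) :
    ∑ x, ((F x - F (x + g) : ℝ) : ℂ) * χ x = (1 - χ (-g)) * ∑ x, (F x : ℂ) * χ x := by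
  have h1 : ∑ x, (F (x + g) : ℂ) * χ x = χ (-g) * ∑ x, (F x : ℂ) * χ x := by
    rw [← Equiv.sum_comp (Equiv.addRight g) (fun x => (F x : ℂ) * χ x), Finset.mul_sum]
    apply Finset.sum_congr rfl
    intro x _
    simp only [Equiv.coe_addRight]
    have : χ x = χ (-g) * χ (x + g) := by
      rw [← AddChar.map_add_eq_mul]
      congr 1
      abel
    rw [this]
    ring
  push_cast
  simp_rw [sub_mul]
  rw [Finset.sum_sub_distrib, h1]
  ring

theorem norm_one_sub_neg (g : G) (χ : AddChar G ℂ) : ‖1 - χ (-g)‖ = ‖1 - χ g‖ := by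
  rw [AddChar.map_neg_eq_conj]
  have : (1 : ℂ) - (starRingEnd ℂ) (χ g) = (starRingEnd ℂ) (1 - χ g) := by simp only [map_sub, map_one]
  rw [this, RCLike.norm_conj]

theorem energy_eq (F : G → ℝ) (g : G) :
    ∑ χ : AddChar G ℂ, ‖1 - χ g‖ ^ 2 * ‖∑ x, (F x : ℂ) * χ x‖ ^ 2 =
      Fintype.card G * ∑ x, (F x - F (x + g)) ^ 2 := by
  rw [← parseval]
  apply Finset.sum_congr rfl
  intro χ _
  rw [coeff_shift, norm_mul, mul_pow, norm_one_sub_neg]

theorem poincare {A : Type} [Fintype A] (v : G) (g : A → G) (w : A → ℝ)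
    (hK : ∀ χ : AddChar G ℂ, χ v ≠ 1 → 1 ≤ ∑ a, w a * ‖1 - χ (g a)‖ ^ 2)
    (hw : ∀ a, 0 ≤ w a) (F : G → ℝ) :
    ∑ x, (F x - F (x + v)) ^ 2 ≤ 4 * ∑ a, w a * ∑ x, (F x - F (x + g a)) ^ 2 := by
  have hcard : (0 : ℝ) < Fintype.card G := by
    exact_mod_cast Fintype.card_pos
  have h1 := energy_eq F v
  have h2 : ∀ χ : AddChar G ℂ, ‖1 - χ v‖ ^ 2 * ‖∑ x, (F x : ℂ) * χ x‖ ^ 2 ≤
      4 * ∑ a, w a * (‖1 - χ (g a)‖ ^ 2 * ‖∑ x, (F x : ℂ) * χ x‖ ^ 2) := by
    intro χ
    have h3 : ∑ a, w a * (‖1 - χ (g a)‖ ^ 2 * ‖∑ x, (F x : ℂ) * χ x‖ ^ 2) =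
        (∑ a, w a * ‖1 - χ (g a)‖ ^ 2) * ‖∑ x, (F x : ℂ) * χ x‖ ^ 2 := by
      rw [Finset.sum_mul]
      apply Finset.sum_congr rfl
      intro a _
      ring
    rw [h3, ← mul_assoc]
    apply mul_le_mul_of_nonneg_right _ (by positivity)
    by_cases hχ : χ v = 1
    · rw [hχ]
      simp only [sub_self, norm_zero]
      have : 0 ≤ ∑ a, w a * ‖1 - χ (g a)‖ ^ 2 :=
        Finset.sum_nonneg fun a _ => mul_nonneg (hw a) (by (clear * -; positivity))
      nlinarith only [this]
    · have h4 : ‖1 - χ v‖ ≤ 2 := by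
        refine (norm_sub_le _ _).trans ?_
        rw [norm_one, AddChar.norm_apply]
        norm_num
      have h5 : ‖1 - χ v‖ ^ 2 ≤ 4 := by
        have := norm_nonneg (1 - χ v)
        nlinarith only [h4, this]
      have := hK χ hχ
      linarith only [h5, this]
  have h6 : (Fintype.card G : ℝ) * ∑ x, (F x - F (x + v)) ^ 2 ≤
      Fintype.card G * (4 * ∑ a, w a * ∑ x, (F x - F (x + g a)) ^ 2) := by
    rw [← h1]
    refine (Finset.sum_le_sum fun χ _ => h2 χ).trans (le_of_eq ?_)
    rw [← Finset.mul_sum, Finset.sum_comm]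
    have h7 : ∀ a, ∑ χ : AddChar G ℂ, w a * (‖1 - χ (g a)‖ ^ 2 * ‖∑ x, (F x : ℂ) * χ x‖ ^ 2) =
        w a * (Fintype.card G * ∑ x, (F x - F (x + g a)) ^ 2) := by
      intro a
      rw [← Finset.mul_sum, energy_eq]
    simp_rw [h7]
    rw [Finset.mul_sum, Finset.mul_sum, Finset.mul_sum]
    apply Finset.sum_congr rfl
    intro a _
    ring
  exact le_of_mul_le_mul_left h6 hcard

/-- The Poincare inequality in `ℓ₁`. -/
theorem poincare_l1 {A : Type} [Fintype A] (v : G) (g : A → G) (w : A → ℝ)
    (hK : ∀ χ : AddChar G ℂ, χ v ≠ 1 → 1 ≤ ∑ a, w a * ‖1 - χ (g a)‖ ^ 2)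
    (hw : ∀ a, 0 ≤ w a) (H : G → lp (fun _ : ℕ => ℝ) 1) :
    ∑ x, ‖H x - H (x + v)‖ ≤ 4 * ∑ a, w a * ∑ x, ‖H x - H (x + g a)‖ := by
  classical
  let Λ : (G × G → ℝ) →ₗ[ℝ] ℝ :=
    (4 : ℝ) • ∑ a, w a • ∑ x, LinearMap.proj (R := ℝ) (φ := fun _ : G × G => ℝ) (x, x + g a) -
      ∑ x, LinearMap.proj (R := ℝ) (φ := fun _ : G × G => ℝ) (x, x + v)
  have hΛ : ∀ h : G × G → ℝ, Λ h = 4 * ∑ a, w a * ∑ x, h (x, x + g a) - ∑ x, h (x, x + v) := by
    intro h
    simp [Λ, LinearMap.sum_apply]
  have h1 := cut_to_l1 Λ (by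
    intro f hf
    rw [hΛ]
    have h2 := poincare v g w hK hw f
    have h3 : ∀ x y, |f x - f y| = (f x - f y) ^ 2 := by
      intro x y
      rcases hf x with hx | hx <;> rcases hf y with hy | hy <;> simp [hx, hy]
    simp only [h3]
    linarith only [h2]) H
  rw [hΛ] at h1
  linarith

end fourier

end Vale.Agent.P238.Full
end
end

section

section

namespace Vale.Agent.P238.Full

open Vale.Agent.P238

theorem win_lt {f : ℕ → ℕ} {q : ℕ} (h : ∀ p, f p < q) (a l : ℕ) : ∀ b ∈ win f a l, b < q := by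
  intro b hb
  unfold win at hb
  rw [List.mem_map] at hb
  obtain ⟨p, _, rfl⟩ := hb
  exact h p

theorem binED_self' {n : ℕ} (x : Fin n → Bool) : binED n x x = 0 := by
  unfold binED
  rw [ED_self]
  simp

theorem binED_pos' {n : ℕ} (x y : Fin n → Bool) (h : x ≠ y) : 0 < binED n x y := by
  unfold binED
  have : 0 < ED (List.ofFn x) (List.ofFn y) := by
    rw [Nat.pos_iff_ne_zero]
    intro h0
    exact h (List.ofFn_injective (ED_eq_zero h0))
  exact_mod_cast this

/-- From the data to the distortion of binary edit distance. -/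
theorem c1_ge_of_data {N q d n : ℕ} {κ δ : ℝ} (hN : 1 ≤ N) (hκ : 0 < κ)
    (D : Data 2 N κ δ q) (hq : q ≤ 2 ^ d) (hn : (2 * d + 3) * N ≤ n) :
    δ / (8 * (2 * d + 3 : ℕ) * κ) ≤ c1 (binED n) := by
  apply le_c1 (binED n) binED_self' binED_pos'
  intro F L M hL hM hFL hFM
  set W : D.G → List ℕ := fun x => win (D.X x) 0 N with hWdef
  have hWlen : ∀ x, (W x).length = N := fun x => win_length _ _ _
  have hWlt : ∀ x, ∀ b ∈ W x, b < 2 ^ d := fun x b hb =>
    lt_of_lt_of_le (win_lt (D.hX x) 0 N b hb) hq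
  have hn' : ∀ x, (2 * d + 3) * (W x).length ≤ n := fun x => by rw [hWlen]; exact hn
  set H : D.G → lp (fun _ : ℕ => ℝ) 1 := fun x => F (encFn d n (W x)) with hHdef
  have hP := poincare_l1 D.v D.g D.w D.hK D.hw H
  have hcard : (0 : ℝ) < (Fintype.card D.G : ℝ) := by
    have : 0 < Fintype.card D.G := Fintype.card_pos_iff.2 ⟨0⟩
    exact_mod_cast this
  -- lower bound
  have h1 : (Fintype.card D.G : ℝ) * (δ * N) ≤ 2 * M * ∑ x, ‖H x - H (x + D.v)‖ := by
    rw [Finset.mul_sum]
    have : (Fintype.card D.G : ℝ) * (δ * N) = ∑ _x : D.G, δ * N := by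
      rw [Finset.sum_const, Finset.card_univ, nsmul_eq_mul]
    rw [this]
    apply Finset.sum_le_sum
    intro x _
    have e1 := D.hF x 1 (by decide) 0 N (by omega)
    rw [one_zsmul] at e1
    have e2 := binED_encFn_ge (n := n) (hWlt x) (hWlt (x + D.v)) (by rw [hWlen, hWlen]) (hn' x)
    have e3 := hFM (encFn d n (W x)) (encFn d n (W (x + D.v)))
    calc δ * N ≤ (ED (W x) (W (x + D.v)) : ℝ) := e1
      _ ≤ 2 * binED n (encFn d n (W x)) (encFn d n (W (x + D.v))) := e2
      _ ≤ 2 * (M * ‖F (encFn d n (W x)) - F (encFn d n (W (x + D.v)))‖) := by linarith only [e3]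
      _ = 2 * M * ‖H x - H (x + D.v)‖ := by rw [hHdef]; ring
  -- upper bound
  have h2 : ∀ a, ∑ x, ‖H x - H (x + D.g a)‖ ≤
      (Fintype.card D.G : ℝ) * (L * ((2 * d + 3 : ℕ) * D.d a)) := by
    intro a
    have : (Fintype.card D.G : ℝ) * (L * ((2 * d + 3 : ℕ) * D.d a)) =
        ∑ _x : D.G, L * ((2 * d + 3 : ℕ) * D.d a) := by
      rw [Finset.sum_const, Finset.card_univ, nsmul_eq_mul]
    rw [this]
    apply Finset.sum_le_sum
    intro x _
    have e1 := hFL (encFn d n (W x)) (encFn d n (W (x + D.g a)))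
    have e2 := binED_encFn_le (n := n) (d := d) (x := W x) (y := W (x + D.g a))
      (by rw [hWlen, hWlen]) (hn' x)
    have e3 := D.hC a x
    calc ‖H x - H (x + D.g a)‖ ≤ L * binED n (encFn d n (W x)) (encFn d n (W (x + D.g a))) := e1
      _ ≤ L * ((2 * d + 3 : ℕ) * (ED (W x) (W (x + D.g a)) : ℝ)) :=
          mul_le_mul_of_nonneg_left e2 hL
      _ ≤ L * ((2 * d + 3 : ℕ) * D.d a) := by
          apply mul_le_mul_of_nonneg_left _ hL
          exact mul_le_mul_of_nonneg_left e3 (Nat.cast_nonneg _)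
  have h3 : ∑ a, D.w a * ∑ x, ‖H x - H (x + D.g a)‖ ≤
      (Fintype.card D.G : ℝ) * (L * ((2 * d + 3 : ℕ) * (κ * N))) := by
    calc ∑ a, D.w a * ∑ x, ‖H x - H (x + D.g a)‖
        ≤ ∑ a, D.w a * ((Fintype.card D.G : ℝ) * (L * ((2 * d + 3 : ℕ) * D.d a))) :=
          Finset.sum_le_sum fun a _ => mul_le_mul_of_nonneg_left (h2 a) (D.hw a)
      _ = (Fintype.card D.G : ℝ) * (L * ((2 * d + 3 : ℕ) * ∑ a, D.w a * D.d a)) := by
          rw [Finset.mul_sum, Finset.mul_sum, Finset.mul_sum]
          apply Finset.sum_congr rfl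
          intro a _
          ring
      _ ≤ (Fintype.card D.G : ℝ) * (L * ((2 * d + 3 : ℕ) * (κ * N))) := by
          apply mul_le_mul_of_nonneg_left _ hcard.le
          apply mul_le_mul_of_nonneg_left _ hL
          exact mul_le_mul_of_nonneg_left D.hD (Nat.cast_nonneg _)
  have h4 : (Fintype.card D.G : ℝ) * (δ * N) ≤
      2 * M * (4 * ((Fintype.card D.G : ℝ) * (L * ((2 * d + 3 : ℕ) * (κ * N))))) := by
    refine h1.trans ?_
    apply mul_le_mul_of_nonneg_left _ (by (clear * - hM; positivity))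
    refine hP.trans ?_
    linarith only [h3]
  have hN' : (0 : ℝ) < N := by exact_mod_cast hN
  have h5 : δ ≤ L * M * (8 * (2 * d + 3 : ℕ) * κ) := by
    have h6 : (Fintype.card D.G : ℝ) * N * δ ≤
        (Fintype.card D.G : ℝ) * N * (L * M * (8 * (2 * d + 3 : ℕ) * κ)) := by
      linarith only [h4]
    exact le_of_mul_le_mul_left h6 (by positivity)
  rw [div_le_iff₀ (by positivity)]
  exact h5

end Vale.Agent.P238.Full
end
end

section

section

namespace Vale.Agent.P238.Full

open Vale.Agent.P238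

/-- Filtering a window: only the positions in `[s, s + n)` survive. -/
theorem win_filterMap {f h : ℕ → ℕ} {g : ℕ → Option ℕ} {b s n : ℕ} : ∀ m : ℕ,
    (∀ p, b ≤ p → p < b + m → s ≤ p → p < s + n → g (f p) = some (h (p - s))) →
    (∀ p, b ≤ p → p < b + m → (p < s ∨ s + n ≤ p) → g (f p) = none) →
    (win f b m).filterMap g =
      win h (max b s - s) (min (b + m) (s + n) - max b s) := by
  intro m
  induction m with
  | zero =>
    intro _ _
    have e : min (b + 0) (s + n) - max b s = 0 := by omega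
    rw [e]
    simp only [win, List.range'_zero, List.map_nil, List.filterMap_nil]
  | succ m ih =>
    intro h1 h2
    have ih' := ih (fun p hp1 hp2 => h1 p hp1 (by omega)) (fun p hp1 hp2 => h2 p hp1 (by omega))
    rw [win_append, List.filterMap_append, ih']
    have e1 : win f (b + m) 1 = [f (b + m)] := by simp [win]
    rw [e1]
    by_cases hp : s ≤ b + m ∧ b + m < s + n
    · have e2 := h1 (b + m) (by omega) (by omega) hp.1 hp.2
      have e3 : min (b + (m + 1)) (s + n) - max b s =
          (min (b + m) (s + n) - max b s) + 1 := by omega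
      have e4 : max b s - s + (min (b + m) (s + n) - max b s) = b + m - s := by (clear * - hp; omega)
      rw [e3, win_append, e4]
      simp only [win, e2, Option.some.injEq, List.filterMap_cons_some, List.filterMap_nil, List.range'_one, List.map_cons, List.map_nil]
    · have e2 := h2 (b + m) (by omega) (by omega) (by omega)
      have e3 : min (b + (m + 1)) (s + n) - max b s = min (b + m) (s + n) - max b s := by omega
      rw [e3]
      simp only [e2, List.filterMap_cons_none, List.filterMap_nil, List.append_nil]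

/-- Projection to the letters of class `j`. -/
def cls (k j : ℕ) (x : ℕ) : Option ℕ := if x % k = j then some (x / k) else none

theorem cls_self {k j : ℕ} (hj : j < k) (z : ℕ) : cls k j (j + k * z) = some z := by
  have h1 : (j + k * z) % k = j := by
    rw [Nat.add_mul_mod_self_left, Nat.mod_eq_of_lt hj]
  have h2 : (j + k * z) / k = z := by
    rw [Nat.add_mul_div_left _ _ (by omega), Nat.div_eq_of_lt hj, zero_add]
  unfold cls
  rw [if_pos h1, h2]

theorem cls_other {k j j' : ℕ} (hj' : j' < k) (h : j' ≠ j) (z : ℕ) :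
    cls k j (j' + k * z) = none := by
  have h1 : (j' + k * z) % k = j' := by
    rw [Nat.add_mul_mod_self_left, Nat.mod_eq_of_lt hj']
  unfold cls
  rw [if_neg (by rw [h1]; exact h)]

/-- Every position has the form `(ρ k + j) n + i`. -/
theorem pos_form {k n : ℕ} (hk : 0 < k) (hn : 0 < n) (p : ℕ) :
    ∃ ρ j i, j < k ∧ i < n ∧ p = (ρ * k + j) * n + i := by
  refine ⟨p / n / k, p / n % k, p % n, Nat.mod_lt _ hk, Nat.mod_lt _ hn, ?_⟩
  rw [Nat.div_add_mod' (p / n) k, Nat.div_add_mod' p n]

theorem row_lemma (k n : ℕ) (hk : 4 ≤ k) (hn : 1 ≤ n) (δ : ℝ) (hδ0 : 0 < δ) (hδ1 : δ ≤ 1)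
    (R Y : ℕ → ℕ) (e : ℕ → ℕ → ℕ) (y : ℕ → ℕ → ℕ → ℕ)
    (hR : ∀ j < k, ∀ i < n, R (j * n + i) = j + k * e j i)
    (hY : ∀ ρ, ∀ j < k, ∀ i < n, Y ((ρ * k + j) * n + i) = j + k * y ρ j i)
    (bad : ℕ → ℕ → Prop)
    (hbad : ∀ j < k, ∀ ρ, bad j ρ → ∀ a l, a + l ≤ n →
      δ * n ≤ (ED (win (e j) 0 n) (win (y ρ j) a l) : ℝ)) (a l : ℕ) :
    (k : ℝ) / 2 * δ * n ≤ (ED (win R 0 (k * n)) (win Y a l) : ℝ) ∨
      ∃ ρ, ρ * k * n < a + l ∧ ∃ J : Finset ℕ, J ⊆ Finset.range k ∧ k < 2 * J.card ∧
        ∀ j ∈ J, ¬ bad j ρ := by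
  classical
  by_contra hcon
  rw [not_or, not_le] at hcon
  obtain ⟨hlt, hnex⟩ := hcon
  obtain ⟨b, hb0, hbk, hmono, hbd, hsum⟩ := ED_win_split R Y n k 0 a l
  obtain ⟨c, hc⟩ : ∃ c : ℕ → ℕ, c = fun i =>
    ED (win R (0 + i * n) n) (win Y (b i) (b (i + 1) - b i)) := ⟨_, rfl⟩
  have hsum' : ∑ i ∈ Finset.range k, c i ≤ ED (win R 0 (k * n)) (win Y a l) := by
    rw [hc]; exact hsum
  have hsumR : ∑ i ∈ Finset.range k, (c i : ℝ) < (k : ℝ) / 2 * δ * n := by
    refine lt_of_le_of_lt ?_ hlt
    exact_mod_cast hsum'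
  have hn0 : (0 : ℝ) < n := by exact_mod_cast hn
  have hδn : δ * n ≤ n := by nlinarith only [hδ1]
  -- monotonicity of the cuts
  have hbm : ∀ i j, i ≤ j → j ≤ k → b i ≤ b j := by
    intro i j hij
    induction j, hij using Nat.le_induction with
    | base => intro _; exact le_refl _
    | succ j hij ih => intro hj; exact (ih (by omega)).trans (hmono j (by omega))
  -- the good columns
  obtain ⟨J, hJ⟩ : ∃ J : Finset ℕ, J = (Finset.range k).filter fun j => (c j : ℝ) < δ * n :=
    ⟨_, rfl⟩
  have hJk : ∀ j ∈ J, j < k := by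
    intro j hj
    rw [hJ, Finset.mem_filter, Finset.mem_range] at hj
    exact hj.1
  have hJc : ∀ j ∈ J, (c j : ℝ) < δ * n := by
    intro j hj
    rw [hJ, Finset.mem_filter] at hj
    exact hj.2
  have hJcard : k < 2 * J.card := by
    by_contra hle
    rw [not_lt] at hle
    have h1 : ((Finset.range k).filter fun j => ¬ (c j : ℝ) < δ * n).card + J.card = k := by
      rw [hJ, add_comm, Finset.card_filter_add_card_filter_not, Finset.card_range]
    have h2 : ∑ i ∈ (Finset.range k).filter (fun j => ¬ (c j : ℝ) < δ * n), δ * n ≤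
        ∑ i ∈ Finset.range k, (c i : ℝ) := by
      refine le_trans (Finset.sum_le_sum fun i hi => ?_)
        (Finset.sum_le_sum_of_subset_of_nonneg (Finset.filter_subset _ _)
          fun i _ _ => Nat.cast_nonneg _)
      rw [Finset.mem_filter, not_lt] at hi
      exact hi.2
    rw [Finset.sum_const, nsmul_eq_mul] at h2
    have h3 : (k : ℝ) / 2 ≤
        (((Finset.range k).filter fun j => ¬ (c j : ℝ) < δ * n).card : ℝ) := by
      have h4 : k ≤ 2 * ((Finset.range k).filter fun j => ¬ (c j : ℝ) < δ * n).card := by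
        omega
      have h5 : (k : ℝ) ≤ 2 * (((Finset.range k).filter fun j => ¬ (c j : ℝ) < δ * n).card : ℝ) := by
        exact_mod_cast h4
      linarith only [h5]
    have h6 : (k : ℝ) / 2 * (δ * n) ≤
        (((Finset.range k).filter fun j => ¬ (c j : ℝ) < δ * n).card : ℝ) * (δ * n) :=
      mul_le_mul_of_nonneg_right h3 (by positivity)
    linarith only [hsumR, h2, h6]
  -- the row block of column `j`
  have hRj : ∀ j, j < k → (win R (0 + j * n) n).filterMap (cls k j) = win (e j) 0 n := by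
    intro j hj
    have h := win_filterMap (f := R) (h := e j) (g := cls k j) (b := 0 + j * n) (s := j * n)
      (n := n) n
      (by
        intro p _ _ hp1 hp2
        have h1 := hR j hj (p - j * n) (by omega)
        rw [show j * n + (p - j * n) = p by omega] at h1
        rw [h1, cls_self hj])
      (by intro p hp1 hp2 hp3; omega)
    rw [h]
    congr 1 <;> omega
  have hproj : ∀ j, j < k → ED (win (e j) 0 n)
      ((win Y (b j) (b (j + 1) - b j)).filterMap (cls k j)) ≤ c j := by
    intro j hj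
    rw [← hRj j hj, hc]
    exact ED_filterMap_le _ _ _
  -- every good column has a hit
  have hhit : ∀ j ∈ J, ∃ ρ i, i < n ∧ b j ≤ (ρ * k + j) * n + i ∧
      (ρ * k + j) * n + i < b (j + 1) := by
    intro j hj
    by_contra hno
    push Not at hno
    have hjk := hJk j hj
    have h1 : (win Y (b j) (b (j + 1) - b j)).filterMap (cls k j) = [] := by
      rw [List.filterMap_eq_nil_iff]
      intro x hx
      unfold win at hx
      rw [List.mem_map] at hx
      obtain ⟨p, hp, rfl⟩ := hx
      rw [List.mem_range'_1] at hp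
      obtain ⟨ρ, j', i, hj', hi, rfl⟩ := pos_form (k := k) (n := n) (by omega) (by omega) p
      rw [hY ρ j' hj' i hi]
      apply cls_other hj'
      rintro rfl
      have := hno ρ i hi hp.1
      omega
    have h2 := hproj j hjk
    rw [h1] at h2
    have h3 := length_le_left (win (e j) 0 n) []
    rw [win_length] at h3
    simp only [List.length_nil, zero_add] at h3
    have h4 := hJc j hj
    have h5 : (n : ℝ) ≤ c j := by exact_mod_cast h3.trans h2
    linarith only [hδn, h4, h5]
  -- the partial sums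
  have hpart : ∀ j j', j ≤ j' → j' < k → ((b (j' + 1) : ℝ) - b j) - ((j' : ℝ) - j + 1) * n ≤
      ∑ i ∈ Finset.range k, (c i : ℝ) := by
    intro j j' hjj hj'
    have hsingle : ∀ i, i < k → (b (i + 1) : ℝ) - b i - n ≤ c i := by
      intro i hi
      have h1 := length_le_right (win R (0 + i * n) n) (win Y (b i) (b (i + 1) - b i))
      rw [win_length, win_length] at h1
      have h2 := hmono i hi
      have h3 : b (i + 1) ≤ b i + (n + c i) := by
        rw [hc]
        simp only
        omega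
      have h4 : (b (i + 1) : ℝ) ≤ b i + (n + c i) := by exact_mod_cast h3
      linarith only [h4]
    have h1 : ∀ j', j ≤ j' → j' < k → ((b (j' + 1) : ℝ) - b j) - ((j' : ℝ) - j + 1) * n ≤
        ∑ i ∈ Finset.Ico j (j' + 1), (c i : ℝ) := by
      intro j' hjj
      induction j', hjj using Nat.le_induction with
      | base =>
        intro hj
        rw [Finset.sum_Ico_succ_top (le_refl _), Finset.Ico_self, Finset.sum_empty]
        have := hsingle j hj
        linarith only [this]
      | succ i hi ih =>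
        intro hik
        rw [Finset.sum_Ico_succ_top (by omega)]
        have h2 := ih (by omega)
        have h3 := hsingle (i + 1) hik
        push_cast
        linarith only [h2, h3]
    refine (h1 j' hjj hj').trans ?_
    apply Finset.sum_le_sum_of_subset_of_nonneg
    · intro i hi
      rw [Finset.mem_Ico] at hi
      rw [Finset.mem_range]
      omega
    · intro i _ _
      exact Nat.cast_nonneg _
  -- two hits have the same row
  have hrow : ∀ j j' ρ ρ' i i', j ≤ j' → j' < k → i < n → i' < n →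
      b j ≤ (ρ * k + j) * n + i → (ρ' * k + j') * n + i' < b (j' + 1) → ¬ ρ < ρ' := by
    intro j j' ρ ρ' i i' hjj hj' hi hi' h1 h2 hρ
    have h3 := hpart j j' hjj hj'
    have h4 : (ρ : ℝ) + 1 ≤ ρ' := by exact_mod_cast hρ
    have h5 : (b j : ℝ) ≤ ((ρ : ℝ) * k + j) * n + i := by exact_mod_cast h1
    have h6 : ((ρ' : ℝ) * k + j') * n + i' + 1 ≤ b (j' + 1) := by exact_mod_cast h2
    have h7 : (i : ℝ) + 1 ≤ n := by exact_mod_cast hi
    have h8 : (0 : ℝ) ≤ i' := Nat.cast_nonneg _
    have hk4 : (4 : ℝ) ≤ k := by exact_mod_cast hk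
    have h9 : (k : ℝ) * n ≤ (ρ' : ℝ) * k * n - (ρ : ℝ) * k * n := by
      have h10 : 0 ≤ ((ρ' : ℝ) - ρ - 1) * (k * n) := by
        apply mul_nonneg
        · linarith only [h4]
        · positivity
      nlinarith only [h10]
    have h11 : (k : ℝ) / 2 * δ * n ≤ (k : ℝ) / 2 * n := by
      have : (k : ℝ) / 2 * (δ * n) ≤ (k : ℝ) / 2 * n :=
        mul_le_mul_of_nonneg_left hδn (by positivity)
      linarith only [this]
    have h12 : 0 ≤ ((k : ℝ) / 2 - 2) * n := mul_nonneg (by linarith only [hk4]) hn0.le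
    linarith
  -- choose the row
  have hJne : J.Nonempty := by
    rw [← Finset.card_pos]
    omega
  obtain ⟨j0, hj0⟩ := hJne
  obtain ⟨ρ, i0, hi0, hh1, hh2⟩ := hhit j0 hj0
  apply hnex
  refine ⟨ρ, ?_, J, ?_, hJcard, ?_⟩
  · have h1 := hbd (j0 + 1) (by have := hJk j0 hj0; omega)
    have h2 : (ρ * k + j0) * n + i0 = ρ * k * n + j0 * n + i0 := by ring
    omega
  · intro j hj
    rw [Finset.mem_range]
    exact hJk j hj
  · intro j hj hbadj
    have hjk := hJk j hj
    -- all hits of column j lie in row ρ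
    have hall : ∀ ρ' i, i < n → b j ≤ (ρ' * k + j) * n + i → (ρ' * k + j) * n + i < b (j + 1) →
        ρ' = ρ := by
      intro ρ' i hi h1 h2
      rcases le_total j j0 with hjj | hjj
      · -- j ≤ j0
        have a1 := hrow j j0 ρ' ρ i i0 hjj (hJk j0 hj0) hi hi0 h1 hh2
        have a2 : ¬ ρ < ρ' := by
          rcases Nat.eq_or_lt_of_le hjj with h | h
          · subst h
            exact hrow j j ρ ρ' i0 i (le_refl _) hjk hi0 hi hh1 h2
          · intro hρ
            have h3 : b (j + 1) ≤ b j0 := hbm _ _ h (by have := hJk j0 hj0; omega)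
            have h4 : ρ * k + k ≤ ρ' * k := by
              have := Nat.mul_le_mul_right k hρ
              rwa [Nat.succ_mul] at this
            have h5 : (ρ * k + j0 + 1) * n ≤ (ρ' * k + j) * n :=
              Nat.mul_le_mul_right n (by have := hJk j0 hj0; omega)
            rw [Nat.succ_mul] at h5
            omega
        omega
      · have a1 := hrow j0 j ρ ρ' i0 i hjj hjk hi0 hi hh1 h2
        have a2 : ¬ ρ' < ρ := by
          rcases Nat.eq_or_lt_of_le hjj with h | h
          · subst h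
            exact hrow j0 j0 ρ' ρ i i0 (le_refl _) hjk hi hi0 h1 hh2
          · intro hρ
            have h3 : b (j0 + 1) ≤ b j := hbm _ _ h (by omega)
            have h4 : ρ' * k + k ≤ ρ * k := by
              have := Nat.mul_le_mul_right k hρ
              rwa [Nat.succ_mul] at this
            have h5 : (ρ' * k + j + 1) * n ≤ (ρ * k + j0) * n :=
              Nat.mul_le_mul_right n (by omega)
            rw [Nat.succ_mul] at h5
            omega
        omega
    have h := win_filterMap (f := Y) (h := y ρ j) (g := cls k j) (b := b j)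
      (s := (ρ * k + j) * n) (n := n) (b (j + 1) - b j)
      (by
        intro p _ _ hp1 hp2
        have h1 := hY ρ j hjk (p - (ρ * k + j) * n) (by omega)
        rw [show (ρ * k + j) * n + (p - (ρ * k + j) * n) = p by omega] at h1
        rw [h1, cls_self hjk])
      (by
        intro p hp1 hp2 hp3
        obtain ⟨ρ', j', i, hj', hi, rfl⟩ := pos_form (k := k) (n := n) (by omega) (by omega) p
        rw [hY ρ' j' hj' i hi]
        apply cls_other hj'
        rintro rfl
        have h1 := hall ρ' i hi hp1 (by have := hmono j' hjk; omega)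
        subst h1
        omega)
    have h1 := hproj j hjk
    rw [h] at h1
    have h2 := hbad j hjk ρ hbadj (max (b j) ((ρ * k + j) * n) - (ρ * k + j) * n)
      (min (b j + (b (j + 1) - b j)) ((ρ * k + j) * n + n) - max (b j) ((ρ * k + j) * n))
      (by
        obtain ⟨ρ1, i1, hi1, g1, g2⟩ := hhit j hj
        have h1 := hall ρ1 i1 hi1 g1 g2
        subst h1
        (clear * - hn hi1 g1 g2; omega))
    have h3 := hJc j hj
    have h4 : (ED (win (e j) 0 n) (win (y ρ j) (max (b j) ((ρ * k + j) * n) - (ρ * k + j) * n)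
      (min (b j + (b (j + 1) - b j)) ((ρ * k + j) * n + n) - max (b j) ((ρ * k + j) * n))) : ℝ) ≤
        c j := by exact_mod_cast h1
    linarith only [h2, h3, h4]

end Vale.Agent.P238.Full
end
end

section

section

namespace Vale.Agent.P238.Full

open Vale.Agent.P238

theorem norm_one_sub_sq {z : ℂ} (hz : ‖z‖ = 1) : ‖1 - z‖ ^ 2 = 2 - 2 * z.re := by
  have h1 : Complex.normSq z = 1 := by
    rw [Complex.normSq_eq_norm_sq, hz]
    norm_num
  rw [← Complex.normSq_eq_norm_sq, Complex.normSq_sub]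
  simp only [map_one, h1, one_mul, Complex.conj_re, sub_left_inj]
  ring

/-- The trivial words of length one. -/
theorem base (Q : ℕ) (hQ : 1 ≤ Q) {q : ℕ} (hq : Q ≤ q) : Nonempty (Data Q 1 1 1 q) := by
  have : NeZero Q := ⟨by omega⟩
  have hQ0 : (0 : ℝ) < Q := by exact_mod_cast hQ
  refine ⟨{
    G := ZMod Q
    grp := inferInstance
    fin := inferInstance
    v := 1
    X := fun x _ => x.val
    A := ZMod Q
    finA := inferInstance
    g := fun a => a
    w := fun _ => 1 / Q
    d := fun _ => 1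
    hv := by simp
    hX := fun x p => lt_of_lt_of_le (ZMod.val_lt x) hq
    hw := fun _ => by positivity
    hd := fun _ => by positivity
    hK := ?_
    hC := ?_
    hD := ?_
    hF := ?_ }⟩
  · intro χ hχ
    have h0 : χ ≠ 0 := by
      intro h
      apply hχ
      rw [h]
      simp
    have hs : ∑ a, χ a = 0 := AddChar.sum_eq_zero_iff_ne_zero.2 h0
    have h1 : ∑ a : ZMod Q, 1 / (Q : ℝ) * ‖1 - χ a‖ ^ 2 = 1 / (Q : ℝ) * (2 * Q - 2 * (∑ a, χ a).re) := by
      rw [← Finset.mul_sum, Complex.re_sum]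
      congr 1
      have h2 : ∀ a : ZMod Q, ‖1 - χ a‖ ^ 2 = 2 - 2 * (χ a).re := fun a =>
        norm_one_sub_sq (AddChar.norm_apply χ a)
      simp_rw [h2]
      rw [Finset.sum_sub_distrib, ← Finset.mul_sum]
      simp only [Finset.sum_const, Finset.card_univ, ZMod.card, nsmul_eq_mul, sub_left_inj]
      ring
    rw [h1, hs]
    field_simp
    simp only [Complex.zero_re, sub_zero]
    linarith only []
  · intro a x
    have h := ED_sub_le [] [] x.val (x + a).val
    simp only [List.nil_append] at h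
    simp only [win, List.range'_one, List.map_cons, List.map_nil]
    exact_mod_cast h
  · simp only [one_div, mul_one, Finset.sum_const, Finset.card_univ, ZMod.card, nsmul_eq_mul, mul_inv_cancel_of_invertible, Nat.cast_one, Std.le_refl]
  · intro x t ht a l hal
    simp only [Nat.cast_one, mul_one]
    have : 1 ≤ ED (win (fun _ => x.val) 0 1) (win (fun _ => (x + t • (1 : ZMod Q)).val) a l) := by
      rw [Nat.one_le_iff_ne_zero]
      intro h0
      have h1 := ED_eq_zero h0
      have h2 := congrArg List.length h1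
      rw [win_length, win_length] at h2
      subst h2
      simp only [win, List.range'_one, List.map_cons, List.map_nil, List.cons.injEq,
        and_true] at h1
      have h3 := ZMod.val_injective Q h1
      have h4 : (t : ZMod Q) = 0 := by
        have : t • (1 : ZMod Q) = 0 := by
          have := h3.symm
          rwa [add_eq_left] at this
        simpa only [zsmul_eq_mul, mul_one] using this
      exact ht ((ZMod.intCast_zmod_eq_zero_iff_dvd t Q).1 h4)
    exact_mod_cast this

theorem win_congr {f g : ℕ → ℕ} {a b l : ℕ} (h : ∀ i < l, f (a + i) = g (b + i)) :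
    win f a l = win g b l := by
  induction l with
  | zero => simp [win]
  | succ l ih =>
    rw [win_append, win_append, ih (fun i hi => h i (by omega))]
    have := h l (by omega)
    simp [win, this]

theorem win_map (f g : ℕ → ℕ) (a l : ℕ) : win (fun i => g (f i)) a l = (win f a l).map g := by
  simp [win, List.map_map, Function.comp_def]

section step

variable {Q n k q : ℕ} {κ δ : ℝ} {p : Fin k → ℕ} (D : ∀ j, Data (Q * p j) n κ δ q)

/-- The letter at position `i` of the block in column `j` and row `r`. -/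
def ent (x : ∀ j, (D j).G) (j : ℕ) (r : ℤ) (i : ℕ) : ℕ :=
  if h : j < k then (D ⟨j, h⟩).X (x ⟨j, h⟩ + r • (D ⟨j, h⟩).v) i else 0

/-- The composed words. -/
def sX (x : ∀ j, (D j).G) (m : ℕ) : ℕ :=
  (m / n) % k + k * ent D x ((m / n) % k) ((m / n / k : ℕ) : ℤ) (m % n)

/-- The diagonal translation. -/
def su : ∀ j, (D j).G := fun j => (D j).v

theorem ent_of_lt (x : ∀ j, (D j).G) (j : Fin k) (r : ℤ) (i : ℕ) :
    ent D x (j : ℕ) r i = (D j).X (x j + r • (D j).v) i := by
  simp only [ent, Fin.is_lt, ↓reduceDIte, Fin.eta]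

theorem ent_shift (x : ∀ j, (D j).G) (s : ℤ) (j : ℕ) (r : ℤ) (i : ℕ) :
    ent D (x + s • su D) j r i = ent D x j (s + r) i := by
  unfold ent
  by_cases h : j < k
  · simp only [h, dite_true]
    congr 1
    simp only [Pi.add_apply, Pi.smul_apply, su]
    rw [add_smul, add_assoc]
  · simp [h]

theorem sX_block (x : ∀ j, (D j).G) (r : ℕ) {j i : ℕ} (hj : j < k) (hi : i < n) :
    sX D x ((r * k + j) * n + i) = j + k * ent D x j (r : ℤ) i := by
  have hn : 0 < n := by omega
  have hk : 0 < k := by omega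
  have h1 : ((r * k + j) * n + i) / n = r * k + j := by
    rw [add_comm, Nat.add_mul_div_right _ _ hn, Nat.div_eq_of_lt hi, zero_add]
  have h2 : ((r * k + j) * n + i) % n = i := by
    rw [add_comm, Nat.add_mul_mod_self_right, Nat.mod_eq_of_lt hi]
  have h3 : (r * k + j) % k = j := by
    rw [add_comm, Nat.add_mul_mod_self_right, Nat.mod_eq_of_lt hj]
  have h4 : (r * k + j) / k = r := by
    rw [add_comm, Nat.add_mul_div_right _ _ hk, Nat.div_eq_of_lt hj, zero_add]
  unfold sX
  rw [h1, h2, h3, h4]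

theorem sX_shift (hn : 0 < n) (hk : 0 < k) (x : ∀ j, (D j).G) (s m : ℕ) :
    sX D (x + (s : ℤ) • su D) m = sX D x (s * (k * n) + m) := by
  have h1 : (s * (k * n) + m) / n = s * k + m / n := by
    rw [← mul_assoc, add_comm, Nat.add_mul_div_right _ _ hn, add_comm]
  have h2 : (s * (k * n) + m) % n = m % n := by
    rw [← mul_assoc, add_comm, Nat.add_mul_mod_self_right]
  have h3 : (s * k + m / n) % k = (m / n) % k := by
    rw [add_comm, Nat.add_mul_mod_self_right]
  have h4 : (s * k + m / n) / k = s + m / n / k := by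
    rw [add_comm, Nat.add_mul_div_right _ _ hk, add_comm]
  unfold sX
  rw [h1, h2, h3, h4, ent_shift]
  push_cast
  rfl

theorem sX_lt (x : ∀ j, (D j).G) (hk : 0 < k) (m : ℕ) : sX D x m < k * q := by
  have h1 : (m / n) % k < k := Nat.mod_lt _ hk
  have h2 : ent D x ((m / n) % k) ((m / n / k : ℕ) : ℤ) (m % n) < q := by
    unfold ent
    simp only [h1, dite_true]
    exact (D _).hX _ _
  unfold sX
  generalize ent D x ((m / n) % k) ((m / n / k : ℕ) : ℤ) (m % n) = y at h2
  calc (m / n) % k + k * y < k + k * y := by omega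
    _ = k * (y + 1) := by ring
    _ ≤ k * q := Nat.mul_le_mul_left k h2

theorem sX_win_block (x : ∀ j, (D j).G) (r : ℕ) {j : ℕ} (hj : j < k) :
    win (sX D x) ((r * k + j) * n) n = (win (ent D x j (r : ℤ)) 0 n).map (fun a => j + k * a) := by
  rw [← win_map (ent D x j (r : ℤ)) (fun a => j + k * a)]
  apply win_congr
  intro i hi
  rw [sX_block D x r hj hi, zero_add]

/-- A perturbation of a single coordinate is cheap. -/
theorem ED_single_le (x : ∀ j, (D j).G) (N : ℕ) (j : Fin k) (a : (D j).A) :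
    (ED (win (sX D x) 0 (N * (k * n))) (win (sX D (x + Pi.single j ((D j).g a))) 0 (N * (k * n)))
      : ℝ) ≤ N * (D j).d a := by
  have h1 := ED_win_blocks_le (sX D x) (sX D (x + Pi.single j ((D j).g a))) 0 (k * n) N
  have h2 : ∀ r, (ED (win (sX D x) (0 + r * (k * n)) (k * n))
      (win (sX D (x + Pi.single j ((D j).g a))) (0 + r * (k * n)) (k * n)) : ℝ) ≤ (D j).d a := by
    intro r
    have h3 := ED_win_blocks_le (sX D x) (sX D (x + Pi.single j ((D j).g a)))
      (0 + r * (k * n)) n k
    have h4 : ∀ j' ∈ Finset.range k, (ED (win (sX D x) (0 + r * (k * n) + j' * n) n)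
        (win (sX D (x + Pi.single j ((D j).g a))) (0 + r * (k * n) + j' * n) n) : ℝ) ≤
        if j' = (j : ℕ) then (D j).d a else 0 := by
      intro j' hj'
      rw [Finset.mem_range] at hj'
      have e : 0 + r * (k * n) + j' * n = (r * k + j') * n := by ring
      rw [e, sX_win_block D x r hj', sX_win_block D _ r hj']
      by_cases hjj : j' = (j : ℕ)
      · subst hjj
        simp only [if_true]
        have h5 := ED_map_le (fun a => (j : ℕ) + k * a) (win (ent D x j (r : ℤ)) 0 n)
          (win (ent D (x + Pi.single j ((D j).g a)) j (r : ℤ)) 0 n)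
        have h6 : (fun i => ent D x (j : ℕ) (r : ℤ) i) = (D j).X (x j + (r : ℤ) • (D j).v) := by
          funext i
          exact ent_of_lt D x j r i
        have h7 : (fun i => ent D (x + Pi.single j ((D j).g a)) (j : ℕ) (r : ℤ) i) =
            (D j).X (x j + (r : ℤ) • (D j).v + (D j).g a) := by
          funext i
          rw [ent_of_lt]
          congr 1
          simp only [Pi.add_apply, Pi.single_eq_same]
          abel
        have h8 := (D j).hC a (x j + (r : ℤ) • (D j).v)
        rw [← h6, ← h7] at h8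
        refine le_trans ?_ h8
        exact_mod_cast h5
      · have h6 : ent D x j' (r : ℤ) = ent D (x + Pi.single j ((D j).g a)) j' (r : ℤ) := by
          funext i
          unfold ent
          simp only [hj', dite_true]
          congr 1
          have h9 : (⟨j', hj'⟩ : Fin k) ≠ j := by
            intro h
            apply hjj
            rw [← h]
          simp only [Pi.add_apply, Pi.single_eq_of_ne h9, add_zero]
        rw [h6, ED_self]
        simp [hjj]
    have h5 : (ED (win (sX D x) (0 + r * (k * n)) (k * n))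
      (win (sX D (x + Pi.single j ((D j).g a))) (0 + r * (k * n)) (k * n)) : ℝ) ≤
        ∑ j' ∈ Finset.range k, (ED (win (sX D x) (0 + r * (k * n) + j' * n) n)
        (win (sX D (x + Pi.single j ((D j).g a))) (0 + r * (k * n) + j' * n) n) : ℝ) := by
      exact_mod_cast h3
    refine h5.trans ((Finset.sum_le_sum h4).trans ?_)
    rw [Finset.sum_ite_eq']
    simp
  have h3 : (ED (win (sX D x) 0 (N * (k * n)))
      (win (sX D (x + Pi.single j ((D j).g a))) 0 (N * (k * n))) : ℝ) ≤
      ∑ r ∈ Finset.range N, (ED (win (sX D x) (0 + r * (k * n)) (k * n))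
      (win (sX D (x + Pi.single j ((D j).g a))) (0 + r * (k * n)) (k * n)) : ℝ) := by
    exact_mod_cast h1
  refine h3.trans ((Finset.sum_le_sum fun r _ => h2 r).trans ?_)
  simp

/-- The diagonal perturbation is cheap. -/
theorem ED_diag_le (hn : 0 < n) (hk : 0 < k) (x : ∀ j, (D j).G) (M s : ℕ) :
    ED (win (sX D x) 0 M) (win (sX D (x + (s : ℤ) • su D)) 0 M) ≤ 2 * (s * (k * n)) := by
  have h1 : sX D (x + (s : ℤ) • su D) = fun m => sX D x (s * (k * n) + m) := by
    funext m
    exact sX_shift D hn hk x s m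
  rw [h1, win_shift, add_comm (s * (k * n)) 0]
  exact ED_win_shift _ _ _ _

/-- The perturbations of the composed words. -/
def sg (S : ℕ) : ((Σ j, (D j).A) ⊕ Fin S) → ∀ j, (D j).G :=
  Sum.elim (fun ja => Pi.single ja.1 ((D ja.1).g ja.2)) (fun s => ((s : ℕ) : ℤ) • su D)

/-- The weights of the perturbations of the composed words. -/
noncomputable def sw (w S : ℕ) : ((Σ j, (D j).A) ⊕ Fin S) → ℝ :=
  Sum.elim (fun ja => (D ja.1).w ja.2 / w) (fun _ => 1 / S)

/-- The costs of the perturbations of the composed words. -/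
def sd (N S : ℕ) : ((Σ j, (D j).A) ⊕ Fin S) → ℝ :=
  Sum.elim (fun ja => N * (D ja.1).d ja.2) (fun s => 2 * ((s : ℕ) * (k * n)))

theorem sum_norm_ge {z : ℂ} {m S : ℕ} (hz : z ≠ 1) (hm : z ^ m = 1) (hm1 : 1 ≤ m)
    (hmS : m ≤ S) : (S : ℝ) ≤ ∑ s ∈ Finset.range S, ‖1 - z ^ s‖ ^ 2 := by
  have hn : ‖z‖ = 1 := Complex.norm_eq_one_of_pow_eq_one hm (by omega)
  obtain ⟨c, hc⟩ : ∃ c, c = m * (S / m) := ⟨_, rfl⟩
  have hcS : c ≤ S := by
    rw [hc]
    exact Nat.mul_div_le S m
  have hmc : m ≤ c := by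
    rw [hc]
    have : 1 ≤ S / m := (Nat.one_le_div_iff (by omega)).2 hmS
    nlinarith only [this]
  have hSc : S < c + m := by
    have h1 := Nat.div_add_mod S m
    have h2 := Nat.mod_lt S (show 0 < m by omega)
    omega
  have hzc : z ^ c = 1 := by rw [hc, pow_mul, hm, one_pow]
  have h1 : ∑ s ∈ Finset.range c, z ^ s = 0 := by
    have h := geom_sum_mul z c
    rw [hzc, sub_self] at h
    exact (mul_eq_zero.1 h).resolve_right (sub_ne_zero.2 hz)
  have h2 : ∑ s ∈ Finset.range c, ‖1 - z ^ s‖ ^ 2 = 2 * c := by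
    have h3 : ∀ s : ℕ, ‖1 - z ^ s‖ ^ 2 = 2 - 2 * (z ^ s).re := fun s =>
      norm_one_sub_sq (by rw [norm_pow, hn, one_pow])
    simp_rw [h3]
    rw [Finset.sum_sub_distrib, ← Finset.mul_sum, ← Complex.re_sum, h1]
    simp only [Finset.sum_const, Finset.card_range, nsmul_eq_mul, Complex.zero_re, mul_zero, sub_zero]
    ring
  have h3 : ∑ s ∈ Finset.range c, ‖1 - z ^ s‖ ^ 2 ≤ ∑ s ∈ Finset.range S, ‖1 - z ^ s‖ ^ 2 := by
    apply Finset.sum_le_sum_of_subset_of_nonneg
    · intro s hs
      rw [Finset.mem_range] at hs ⊢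
      omega
    · intro s _ _
      (clear * -; positivity)
  have h4 : (S : ℝ) ≤ 2 * c := by
    have : S ≤ 2 * c := by omega
    exact_mod_cast this
  linarith only [h2, h3, h4]

theorem sw_nonneg (w S : ℕ) (b : (Σ j, (D j).A) ⊕ Fin S) : 0 ≤ sw D w S b := by
  rcases b with ⟨j, a⟩ | s
  · simp only [sw, Sum.elim_inl]
    exact div_nonneg ((D j).hw a) (by positivity)
  · simp only [sw, Sum.elim_inr]
    positivity

theorem sd_nonneg (N S : ℕ) (b : (Σ j, (D j).A) ⊕ Fin S) : 0 ≤ sd D N S b := by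
  rcases b with ⟨j, a⟩ | s
  · simp only [sd, Sum.elim_inl]
    exact mul_nonneg (by positivity) ((D j).hd a)
  · simp only [sd, Sum.elim_inr]
    positivity

theorem chi_sum {H : Type} [AddCommGroup H] (χ : AddChar H ℂ) {ι : Type} [DecidableEq ι]
    (s : Finset ι) (f : ι → H) : χ (∑ i ∈ s, f i) = ∏ i ∈ s, χ (f i) := by
  induction s using Finset.induction_on with
  | empty => simp only [Finset.sum_empty, AddChar.map_zero_eq_one, Finset.prod_empty]
  | insert a s ha ih => rw [Finset.sum_insert ha, Finset.prod_insert ha, AddChar.map_add_eq_mul, ih]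

theorem chi_su (χ : AddChar (∀ j, (D j).G) ℂ) : χ (su D) = ∏ j, χ (Pi.single j (D j).v) := by
  rw [← chi_sum]
  congr 1
  exact (Finset.univ_sum_single (su D)).symm

theorem step_K {w S : ℕ} (hw : 1 ≤ w) (hQ : 1 ≤ Q) (hp1 : ∀ j, 1 ≤ p j)
    (hS : ∀ A : Finset (Fin k), A.card < w → Q * ∏ j ∈ A, p j ≤ S)
    (χ : AddChar (∀ j, (D j).G) ℂ) (hχ : χ ((∏ j, p j) • su D) ≠ 1) :
    1 ≤ ∑ b, sw D w S b * ‖1 - χ (sg D S b)‖ ^ 2 := by
  classical
  have hw0 : (0 : ℝ) < w := by exact_mod_cast hw
  have hz : χ (su D) ≠ 1 := by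
    intro h
    apply hχ
    rw [AddChar.map_nsmul_eq_pow, h, one_pow]
  obtain ⟨A, hA⟩ : ∃ A : Finset (Fin k), A =
    Finset.univ.filter (fun j => χ (Pi.single j (D j).v) ≠ 1) := ⟨_, rfl⟩
  rw [Fintype.sum_sum_type]
  have hnn1 : 0 ≤ ∑ b : (Σ j, (D j).A), sw D w S (Sum.inl b) * ‖1 - χ (sg D S (Sum.inl b))‖ ^ 2 :=
    Finset.sum_nonneg fun b _ => mul_nonneg (sw_nonneg D w S _) (by (clear * -; positivity))
  have hnn2 : 0 ≤ ∑ b : Fin S, sw D w S (Sum.inr b) * ‖1 - χ (sg D S (Sum.inr b))‖ ^ 2 :=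
    Finset.sum_nonneg fun b _ => mul_nonneg (sw_nonneg D w S _) (by (clear * -; positivity))
  by_cases hcard : w ≤ A.card
  · have h1 : 1 ≤ ∑ b : (Σ j, (D j).A), sw D w S (Sum.inl b) *
        ‖1 - χ (sg D S (Sum.inl b))‖ ^ 2 := by
      rw [Fintype.sum_sigma]
      have h2 : ∀ j ∈ A, (1 : ℝ) / w ≤ ∑ a : (D j).A, sw D w S (Sum.inl ⟨j, a⟩) *
          ‖1 - χ (sg D S (Sum.inl ⟨j, a⟩))‖ ^ 2 := by
        intro j hj
        rw [hA, Finset.mem_filter] at hj
        have h3 := (D j).hK (χ.compAddMonoidHom (AddMonoidHom.single (fun j => (D j).G) j))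
          (by simpa only [AddChar.compAddMonoidHom_apply, AddMonoidHom.single_apply, ne_eq] using hj.2)
        simp only [AddChar.compAddMonoidHom_apply, AddMonoidHom.single_apply] at h3
        have h4 : ∑ a : (D j).A, sw D w S (Sum.inl ⟨j, a⟩) *
          ‖1 - χ (sg D S (Sum.inl ⟨j, a⟩))‖ ^ 2 = (∑ a : (D j).A, (D j).w a *
          ‖1 - χ (Pi.single j ((D j).g a))‖ ^ 2) / w := by
          rw [Finset.sum_div]
          apply Finset.sum_congr rfl
          intro a _
          simp only [sw, sg, Sum.elim_inl]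
          ring
        rw [h4]
        exact div_le_div_of_nonneg_right h3 hw0.le
      calc (1 : ℝ) ≤ A.card * (1 / w) := by
            rw [mul_one_div, le_div_iff₀ hw0, one_mul]
            exact_mod_cast hcard
        _ = ∑ j ∈ A, (1 : ℝ) / w := by simp only [one_div, Finset.sum_const, nsmul_eq_mul]
        _ ≤ ∑ j ∈ A, ∑ a : (D j).A, sw D w S (Sum.inl ⟨j, a⟩) *
          ‖1 - χ (sg D S (Sum.inl ⟨j, a⟩))‖ ^ 2 := Finset.sum_le_sum h2
        _ ≤ _ := by
            apply Finset.sum_le_sum_of_subset_of_nonneg (Finset.subset_univ _)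
            intro j _ _
            exact Finset.sum_nonneg fun a _ => mul_nonneg (sw_nonneg D w S _) (by (clear * -; positivity))
    linarith only [hnn2, h1]
  · have hm := hS A (by omega)
    have hzm : χ (su D) ^ (Q * ∏ j ∈ A, p j) = 1 := by
      rw [chi_su]
      have h1 : ∏ j, χ (Pi.single j (D j).v) = ∏ j ∈ A, χ (Pi.single j (D j).v) := by
        symm
        apply Finset.prod_subset (Finset.subset_univ _)
        intro j _ hj
        by_contra h
        apply hj
        rw [hA, Finset.mem_filter]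
        exact ⟨Finset.mem_univ _, h⟩
      rw [h1, ← Finset.prod_pow]
      apply Finset.prod_eq_one
      intro j hj
      obtain ⟨c, hc⟩ := Finset.dvd_prod_of_mem p hj
      rw [hc, ← mul_assoc, pow_mul]
      have h2 : χ (Pi.single j (D j).v) ^ (Q * p j) = 1 := by
        rw [← AddChar.map_nsmul_eq_pow, ← Pi.single_smul, (D j).hv, Pi.single_zero,
          AddChar.map_zero_eq_one]
      rw [h2, one_pow]
    have hpos : 1 ≤ Q * ∏ j ∈ A, p j :=
      Nat.mul_pos hQ (Finset.prod_pos fun j _ => hp1 j)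
    have h1 := sum_norm_ge hz hzm hpos hm
    have hS0 : (0 : ℝ) < S := by
      have : 0 < S := by omega
      exact_mod_cast this
    have h2 : ∑ b : Fin S, sw D w S (Sum.inr b) * ‖1 - χ (sg D S (Sum.inr b))‖ ^ 2 =
        (1 / S) * ∑ s ∈ Finset.range S, ‖1 - χ (su D) ^ s‖ ^ 2 := by
      rw [Finset.mul_sum, ← Fin.sum_univ_eq_sum_range (fun s => (1 / (S : ℝ)) * ‖1 - χ (su D) ^ s‖ ^ 2)]
      apply Finset.sum_congr rfl
      intro s _
      simp only [sw, sg, Sum.elim_inr]
      rw [natCast_zsmul, AddChar.map_nsmul_eq_pow]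
    have h3 : 1 ≤ ∑ b : Fin S, sw D w S (Sum.inr b) * ‖1 - χ (sg D S (Sum.inr b))‖ ^ 2 := by
      rw [h2, one_div, ← div_eq_inv_mul, le_div_iff₀ hS0, one_mul]
      exact h1
    linarith only [hnn1, h3]

theorem step_D {w S N : ℕ} (hw : 1 ≤ w) (hN1 : 1 ≤ N) :
    ∑ b, sw D w S b * sd D N S b ≤ (κ / w + S / N) * ((N * (k * n) : ℕ) : ℝ) := by
  have hw0 : (0 : ℝ) < w := by exact_mod_cast hw
  have hN0 : (0 : ℝ) < N := by exact_mod_cast hN1
  rw [Fintype.sum_sum_type]
  have h1 : ∑ b : (Σ j, (D j).A), sw D w S (Sum.inl b) * sd D N S (Sum.inl b) ≤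
      N / w * (k * (κ * n)) := by
    rw [Fintype.sum_sigma]
    have h2 : ∀ j : Fin k, ∑ a : (D j).A, sw D w S (Sum.inl ⟨j, a⟩) * sd D N S (Sum.inl ⟨j, a⟩) ≤
        N / w * (κ * n) := by
      intro j
      have h3 : ∑ a : (D j).A, sw D w S (Sum.inl ⟨j, a⟩) * sd D N S (Sum.inl ⟨j, a⟩) =
          N / w * ∑ a, (D j).w a * (D j).d a := by
        rw [Finset.mul_sum]
        apply Finset.sum_congr rfl
        intro a _
        simp only [sw, sd, Sum.elim_inl]
        ring
      rw [h3]
      exact mul_le_mul_of_nonneg_left (D j).hD (by positivity)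
    refine (Finset.sum_le_sum fun j _ => h2 j).trans (le_of_eq ?_)
    simp only [Finset.sum_const, Finset.card_univ, Fintype.card_fin, nsmul_eq_mul]
    ring
  have h2 : ∑ b : Fin S, sw D w S (Sum.inr b) * sd D N S (Sum.inr b) ≤ S * (k * n) := by
    have h3 : ∀ b : Fin S, sw D w S (Sum.inr b) * sd D N S (Sum.inr b) =
        (k * n) * (1 / S * (2 * ((b : ℕ) : ℝ))) := by
      intro b
      simp only [sw, sd, Sum.elim_inr]
      ring
    simp_rw [h3]
    rw [← Finset.mul_sum, ← Finset.mul_sum, ← Finset.mul_sum]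
    have h4 : ∑ i : Fin S, ((i : ℕ) : ℝ) = ∑ i ∈ Finset.range S, (i : ℝ) :=
      Fin.sum_univ_eq_sum_range (fun i => (i : ℝ)) S
    rw [h4]
    rcases Nat.eq_zero_or_pos S with hS | hS
    · subst hS
      simp
    · have hS0 : (0 : ℝ) < S := by exact_mod_cast hS
      have h5 : 2 * ∑ i ∈ Finset.range S, (i : ℝ) ≤ S * S := by
        have h6 := Finset.sum_range_id_mul_two S
        have h7 : ((∑ i ∈ Finset.range S, i : ℕ) : ℝ) * 2 = ((S * (S - 1) : ℕ) : ℝ) := by
          exact_mod_cast h6
        have h8 : ((S * (S - 1) : ℕ) : ℝ) ≤ S * S := by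
          have : S * (S - 1) ≤ S * S := Nat.mul_le_mul_left S (by omega)
          exact_mod_cast this
        push_cast at h7
        push_cast at h8
        linarith only [h7, h8]
      have h6 : 1 / (S : ℝ) * (2 * ∑ i ∈ Finset.range S, (i : ℝ)) ≤ S := by
        rw [one_div, ← div_eq_inv_mul, div_le_iff₀ hS0]
        exact h5
      calc (k : ℝ) * n * (1 / (S : ℝ) * (2 * ∑ i ∈ Finset.range S, (i : ℝ))) ≤ k * n * S :=
            mul_le_mul_of_nonneg_left h6 (by (clear * -; positivity))
        _ = S * (k * n) := by ring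
  have h3 : (κ / w + S / N) * ((N * (k * n) : ℕ) : ℝ) =
      N / w * (k * (κ * n)) + S * (k * n) := by
    push_cast
    field_simp
  rw [h3]
  linarith only [h1, h2]

theorem step_F {N : ℕ} (hk : 4 ≤ k) (hn : 1 ≤ n) (hδ0 : 0 < δ) (hδ1 : δ ≤ 1)
    (hp : ∀ i j, i ≠ j → Nat.Coprime (p i) (p j)) (hpQ : ∀ j, Nat.Coprime (p j) Q)
    (hN : ∀ A : Finset (Fin k), k < 2 * A.card → N ≤ ∏ j ∈ A, p j) (x : ∀ j, (D j).G) (t : ℤ)
    (ht : ¬ (Q : ℤ) ∣ t) (a l : ℕ) (hal : a + l ≤ N * (k * n)) :
    δ / 2 * ((N * (k * n) : ℕ) : ℝ) ≤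
      (ED (win (sX D x) 0 (N * (k * n)))
        (win (sX D (x + t • ((∏ j, p j) • su D))) a l) : ℝ) := by
  obtain ⟨x', hx'⟩ : ∃ x', x' = x + t • ((∏ j, p j) • su D) := ⟨_, rfl⟩
  rw [← hx']
  obtain ⟨b, hb0, hbN, hmono, hbd, hsum⟩ := ED_win_split (sX D x) (sX D x') (k * n) N 0 a l
  have hrow : ∀ r ∈ Finset.range N, (k : ℝ) / 2 * δ * n ≤
      (ED (win (sX D x) (0 + r * (k * n)) (k * n))
        (win (sX D x') (b r) (b (r + 1) - b r)) : ℝ) := by
    intro r hr
    rw [Finset.mem_range] at hr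
    have h := row_lemma k n hk hn δ hδ0 hδ1 (fun m => sX D x (r * (k * n) + m)) (sX D x')
      (fun j i => ent D x j r i) (fun ρ j i => ent D x' j ρ i)
      (by
        intro j hj i hi
        have e : r * (k * n) + (j * n + i) = (r * k + j) * n + i := by ring
        simp only [e]
        exact sX_block D x r hj hi)
      (by
        intro ρ j hj i hi
        exact sX_block D x' ρ hj hi)
      (fun j ρ => ∃ h : j < k, ¬ ((Q * p ⟨j, h⟩ : ℕ) : ℤ) ∣
        ((ρ : ℤ) - r + t * ((∏ j, p j : ℕ) : ℤ)))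
      (by
        rintro j hj ρ ⟨h, hbad⟩ a l hal
        have h1 := (D ⟨j, h⟩).hF (x ⟨j, h⟩ + (r : ℤ) • (D ⟨j, h⟩).v) _ hbad a l hal
        have h2 : ent D x j (r : ℤ) = (D ⟨j, h⟩).X (x ⟨j, h⟩ + (r : ℤ) • (D ⟨j, h⟩).v) := by
          funext i
          exact ent_of_lt D x ⟨j, h⟩ r i
        have h3 : ent D x' j (ρ : ℤ) = (D ⟨j, h⟩).X (x ⟨j, h⟩ + (r : ℤ) • (D ⟨j, h⟩).v +
            ((ρ : ℤ) - r + t * ((∏ j, p j : ℕ) : ℤ)) • (D ⟨j, h⟩).v) := by
          funext i
          rw [show ent D x' j (ρ : ℤ) i = ent D x' (⟨j, h⟩ : Fin k) (ρ : ℤ) i from rfl,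
            ent_of_lt D x' ⟨j, h⟩ ρ i, hx']
          congr 1
          simp only [Pi.add_apply, Pi.smul_apply, su]
          rw [add_smul, sub_smul, mul_smul, natCast_zsmul (D ⟨j, h⟩).v (∏ j, p j)]
          abel
        rw [h2, h3]
        exact h1)
      (b r) (b (r + 1) - b r)
    rw [win_shift, add_comm (r * (k * n)) 0] at h
    rcases h with h | ⟨ρ, hρ, J, hJk, hJc, hJ⟩
    · exact h
    · exfalso
      have h1 := hmono r hr
      have h2 := hbd (r + 1) (by omega)
      have hρN : ρ < N := by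
        have h3 : ρ * (k * n) < N * (k * n) := by
          rw [← mul_assoc]
          omega
        exact lt_of_mul_lt_mul_right h3 (by omega)
      obtain ⟨A, hA⟩ : ∃ A : Finset (Fin k), A = Finset.univ.filter (fun j : Fin k => (j : ℕ) ∈ J) :=
        ⟨_, rfl⟩
      have hAJ : A.map Fin.valEmbedding = J := by
        ext j
        rw [Finset.mem_map, hA]
        constructor
        · rintro ⟨i, hi, rfl⟩
          exact (Finset.mem_filter.1 hi).2
        · intro hj
          exact ⟨⟨j, Finset.mem_range.1 (hJk hj)⟩, by simpa only [Finset.mem_filter, Finset.mem_univ, true_and] using hj, rfl⟩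
      have hcard : A.card = J.card := by
        rw [← hAJ, Finset.card_map]
      have hdvd : ∀ j ∈ A, ((Q * p j : ℕ) : ℤ) ∣ ((ρ : ℤ) - r + t * ((∏ j, p j : ℕ) : ℤ)) := by
        intro j hj
        rw [hA, Finset.mem_filter] at hj
        have h3 := hJ _ hj.2
        by_contra h4
        exact h3 ⟨j.2, h4⟩
      have hdvd2 : ∀ j ∈ A, ((p j : ℕ) : ℤ) ∣ ((ρ : ℤ) - r) := by
        intro j hj
        have h3 : ((p j : ℕ) : ℤ) ∣ t * ((∏ j, p j : ℕ) : ℤ) :=
          Dvd.dvd.mul_left (Int.natCast_dvd_natCast.2 (Finset.dvd_prod_of_mem p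
            (Finset.mem_univ j))) t
        have h4 : ((p j : ℕ) : ℤ) ∣ ((ρ : ℤ) - r + t * ((∏ j, p j : ℕ) : ℤ)) :=
          (Int.natCast_dvd_natCast.2 (Dvd.intro_left Q rfl)).trans (hdvd j hj)
        exact (dvd_add_left h3).1 h4
      have hprod : ((∏ j ∈ A, p j : ℕ) : ℤ) ∣ ((ρ : ℤ) - r) := by
        push_cast
        apply Finset.prod_dvd_of_coprime
        · intro i _ j _ hij
          exact Nat.isCoprime_iff_coprime.2 (hp i j hij)
        · exact hdvd2
      have hNA := hN A (by omega)
      have hs : (ρ : ℤ) - r = 0 := by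
        apply Int.eq_zero_of_abs_lt_dvd hprod
        rw [abs_lt]
        have h5 : (N : ℤ) ≤ ((∏ j ∈ A, p j : ℕ) : ℤ) := by exact_mod_cast hNA
        constructor <;> omega
      have hA0 : A.Nonempty := by
        rw [← Finset.card_pos]
        omega
      obtain ⟨j, hj⟩ := hA0
      have h6 := hdvd j hj
      rw [hs, zero_add] at h6
      have h7 : (Q : ℤ) ∣ t * ((∏ j, p j : ℕ) : ℤ) :=
        (Int.natCast_dvd_natCast.2 (Dvd.intro _ rfl)).trans h6
      apply ht
      have h8 : IsCoprime (Q : ℤ) ((∏ j, p j : ℕ) : ℤ) := by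
        rw [Nat.isCoprime_iff_coprime]
        exact Nat.Coprime.prod_right fun j _ => (hpQ j).symm
      exact h8.dvd_of_dvd_mul_right h7
  have h1 : ∑ r ∈ Finset.range N, ((k : ℝ) / 2 * δ * n) ≤
      ∑ r ∈ Finset.range N, (ED (win (sX D x) (0 + r * (k * n)) (k * n))
        (win (sX D x') (b r) (b (r + 1) - b r)) : ℝ) := Finset.sum_le_sum hrow
  have h2 : ∑ r ∈ Finset.range N, (ED (win (sX D x) (0 + r * (k * n)) (k * n))
        (win (sX D x') (b r) (b (r + 1) - b r)) : ℝ) ≤
      (ED (win (sX D x) 0 (N * (k * n))) (win (sX D x') a l) : ℝ) := by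
    exact_mod_cast hsum
  refine le_trans (le_of_eq ?_) (h1.trans h2)
  rw [Finset.sum_const, Finset.card_range, nsmul_eq_mul]
  push_cast
  ring

end step

/-- The composition step. -/
theorem step {Q n k N S w q : ℕ} {κ δ : ℝ} (p : Fin k → ℕ) (hk : 4 ≤ k) (hn : 1 ≤ n)
    (hQ : 1 ≤ Q) (hw : 1 ≤ w) (hδ0 : 0 < δ) (hδ1 : δ ≤ 1)
    (hp : ∀ i j, i ≠ j → Nat.Coprime (p i) (p j)) (hpQ : ∀ j, Nat.Coprime (p j) Q)
    (hp1 : ∀ j, 1 ≤ p j)
    (hS : ∀ A : Finset (Fin k), A.card < w → Q * ∏ j ∈ A, p j ≤ S)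
    (hN : ∀ A : Finset (Fin k), k < 2 * A.card → N ≤ ∏ j ∈ A, p j) (hN1 : 1 ≤ N)
    (D : ∀ j, Nonempty (Data (Q * p j) n κ δ q)) :
    Nonempty (Data Q (N * k * n) (κ / w + S / N) (δ / 2) (k * q)) := by
  classical
  obtain ⟨D⟩ : Nonempty (∀ j, Data (Q * p j) n κ δ q) := ⟨fun j => Classical.choice (D j)⟩
  have e : N * k * n = N * (k * n) := by ring
  rw [e]
  exact ⟨{
    G := ∀ j, (D j).G
    grp := inferInstance
    fin := inferInstance
    v := (∏ j, p j) • su D
    X := sX D
    A := (Σ j, (D j).A) ⊕ Fin S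
    finA := inferInstance
    g := sg D S
    w := sw D w S
    d := sd D N S
    hv := by
      funext j
      obtain ⟨c, hc⟩ := Finset.dvd_prod_of_mem p (Finset.mem_univ j)
      simp only [Pi.smul_apply, su, Pi.zero_apply]
      rw [hc, ← mul_smul, ← mul_assoc, mul_comm (Q * p j) c, mul_smul, (D j).hv, smul_zero]
    hX := fun x m => sX_lt D x (by omega) m
    hw := sw_nonneg D w S
    hd := sd_nonneg D N S
    hK := fun χ hχ => step_K D hw hQ hp1 hS χ hχ
    hC := by
      intro b x
      rcases b with ⟨j, a⟩ | s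
      · simp only [sg, sd, Sum.elim_inl]
        exact ED_single_le D x N j a
      · simp only [sg, sd, Sum.elim_inr]
        have h := ED_diag_le D (by omega) (by omega) x (N * (k * n)) s
        have h2 : (ED (win (sX D x) 0 (N * (k * n)))
            (win (sX D (x + ((s : ℕ) : ℤ) • su D)) 0 (N * (k * n))) : ℝ) ≤
            ((2 * ((s : ℕ) * (k * n)) : ℕ) : ℝ) := by
          exact_mod_cast h
        refine h2.trans (le_of_eq ?_)
        push_cast
        ring
    hD := step_D D hw hN1
    hF := fun x t ht a l hal => step_F D hk hn hδ0 hδ1 hp hpQ hN x t ht a l hal }⟩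

end Vale.Agent.P238.Full
end
end

section

section

namespace Vale.Agent.P238.Full

open Vale.Agent.P238

/-- The parameters of the data may be relaxed. -/
theorem Data.relax {Q n q : ℕ} {κ κ' δ : ℝ} (h : κ ≤ κ') (D : Data Q n κ δ q) :
    Nonempty (Data Q n κ' δ q) :=
  ⟨{ D with hD := D.hD.trans (mul_le_mul_of_nonneg_right h (Nat.cast_nonneg _)) }⟩

/-- The induction over the levels. Parameters: `P ≤ p a ≤ B` for `a < L * k`. -/
theorem levels {L k P B q0 : ℕ} (p : ℕ → ℕ) (hL : 1 ≤ L) (hk : 4 ≤ k) (hP : 1 ≤ P) (hB : 2 ≤ B)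
    (hPL : B ^ (2 * L) * L ^ L ≤ P ^ (k / 2))
    (hpP : ∀ a, a < L * k → P ≤ p a) (hpB : ∀ a, a < L * k → p a ≤ B)
    (hcop : ∀ a b, a < L * k → b < L * k → a ≠ b → Nat.Coprime (p a) (p b))
    (hq0 : 2 * B ^ L ≤ q0) :
    ∀ i, i ≤ L → ∀ Q, 1 ≤ Q → Q ≤ 2 * B ^ (L - i) → (∀ a, a < i * k → Nat.Coprime (p a) Q) →
      Nonempty (Data Q ((B ^ (2 * L) * L ^ L * k) ^ i) ((2 / (L : ℝ)) ^ i) ((1 / 2 : ℝ) ^ i)
        (k ^ i * q0)) := by
  intro i
  induction i with
  | zero =>
    intro _ Q hQ1 hQ _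
    have h := base Q hQ1 (q := q0) (by
      refine hQ.trans (le_trans ?_ hq0)
      simp)
    simpa using h
  | succ i ih =>
    intro hi Q hQ1 hQ hQc
    set N := B ^ (2 * L) * L ^ L with hNdef
    have hN1 : 1 ≤ N := Nat.one_le_iff_ne_zero.2 (by positivity)
    have hik : i * k + k ≤ L * k := by
      have := Nat.mul_le_mul_right k hi
      rwa [Nat.succ_mul] at this
    have hlt : ∀ j : Fin k, i * k + (j : ℕ) < L * k := fun j => by
      have := j.2
      omega
    have hD : ∀ j : Fin k, Nonempty (Data (Q * p (i * k + j)) ((N * k) ^ i)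
        ((2 / (L : ℝ)) ^ i) ((1 / 2 : ℝ) ^ i) (k ^ i * q0)) := by
      intro j
      apply ih (by omega) (Q * p (i * k + j))
      · exact Nat.mul_pos hQ1 (lt_of_lt_of_le hP (hpP _ (hlt j)))
      · have e : L - i = (L - (i + 1)) + 1 := by omega
        rw [e, pow_succ, ← mul_assoc]
        exact Nat.mul_le_mul hQ (hpB _ (hlt j))
      · intro a ha
        apply Nat.Coprime.mul_right
        · exact hQc a (by rw [Nat.succ_mul]; omega)
        · apply hcop a _ (by have := j.2; omega) (hlt j)
          omega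
    have hstep := step (Q := Q) (n := (N * k) ^ i) (k := k) (N := N) (S := B ^ (2 * L)) (w := L)
      (q := k ^ i * q0) (κ := (2 / (L : ℝ)) ^ i) (δ := (1 / 2 : ℝ) ^ i)
      (fun j => p (i * k + j)) hk (Nat.one_le_iff_ne_zero.2 (by positivity)) hQ1 hL
      (by positivity) (pow_le_one₀ (by norm_num) (by norm_num))
      (fun j j' hjj => hcop _ _ (hlt j) (hlt j') (by
        intro h
        apply hjj
        apply Fin.ext
        omega))
      (fun j => hQc _ (by have := j.2; rw [Nat.succ_mul]; omega))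
      (fun j => hP.trans (hpP _ (hlt j)))
      (by
        intro A hA
        have h1 : ∏ j ∈ A, p (i * k + j) ≤ B ^ A.card := by
          apply Finset.prod_le_pow_card
          intro j _
          exact hpB _ (hlt j)
        have h2 : B ^ A.card ≤ B ^ (L - 1) := Nat.pow_le_pow_right (by omega) (by omega)
        have h3 : B ^ (L - (i + 1)) ≤ B ^ (L - 1) := Nat.pow_le_pow_right (by omega) (by omega)
        calc Q * ∏ j ∈ A, p (i * k + j) ≤ (2 * B ^ (L - 1)) * B ^ (L - 1) :=
              Nat.mul_le_mul (hQ.trans (Nat.mul_le_mul_left 2 h3)) (h1.trans h2)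
          _ ≤ (B * B ^ (L - 1)) * (B * B ^ (L - 1)) := by
              apply Nat.mul_le_mul
              · exact Nat.mul_le_mul_right _ hB
              · exact Nat.le_mul_of_pos_left _ (by omega)
          _ = B ^ (2 * L) := by
              rw [← pow_succ', ← pow_add]
              congr 1
              omega)
      (by
        intro A hA
        have h1 : P ^ A.card ≤ ∏ j ∈ A, p (i * k + j) := by
          rw [← Finset.prod_const]
          apply Finset.prod_le_prod'
          intro j _
          exact hpP _ (hlt j)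
        have h2 : P ^ (k / 2) ≤ P ^ A.card := Nat.pow_le_pow_right hP (by omega)
        exact hPL.trans (h2.trans h1))
      hN1 hD
    obtain ⟨D⟩ := hstep
    have hκ : (2 / (L : ℝ)) ^ i / L + ((B ^ (2 * L) : ℕ) : ℝ) / (N : ℝ) ≤
        (2 / (L : ℝ)) ^ (i + 1) := by
      have hLpos : (0 : ℝ) < L := by exact_mod_cast hL
      have hBpos : (0 : ℝ) < (B : ℝ) ^ (2 * L) := by
        have : (0 : ℝ) < B := by
          have : 0 < B := by omega
          exact_mod_cast this
        positivity
      have e1 : ((B ^ (2 * L) : ℕ) : ℝ) / (N : ℝ) = 1 / (L : ℝ) ^ L := by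
        rw [hNdef]
        push_cast
        rw [div_mul_eq_div_div, div_self hBpos.ne']
      have e2 : 1 / (L : ℝ) ^ L ≤ (2 / (L : ℝ)) ^ i / L := by
        rw [div_pow, div_div, ← pow_succ]
        have h1 : (L : ℝ) ^ (i + 1) ≤ (L : ℝ) ^ L :=
          pow_le_pow_right₀ (by exact_mod_cast hL) hi
        have h2 : (1 : ℝ) ≤ 2 ^ i := one_le_pow₀ (by norm_num)
        exact div_le_div₀ (by positivity) h2 (by positivity) h1
      rw [e1, pow_succ]
      have e3 : (2 / (L : ℝ)) ^ i * (2 / L) = (2 / (L : ℝ)) ^ i / L + (2 / (L : ℝ)) ^ i / L := by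
        ring
      rw [e3]
      linarith only [e2]
    have h := Data.relax hκ D
    have e1 : (N * k) ^ (i + 1) = N * k * (N * k) ^ i := pow_succ' _ _
    have e2 : ((1 / 2 : ℝ)) ^ (i + 1) = (1 / 2 : ℝ) ^ i / 2 := by rw [pow_succ]; ring
    have e3 : k ^ (i + 1) * q0 = k * (k ^ i * q0) := by rw [pow_succ']; ring
    rw [e1, e2, e3]
    exact h

/-- The data exist with `L` levels. -/
theorem exists_data (C : ℕ) (hC : 1 ≤ C)
    (hpr : ∀ m : ℕ, 2 ≤ m → Nat.nth Nat.Prime (2 * m) ≤ m ^ C) (L : ℕ) (hL : 4 * C + 2 ≤ L) :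
    ∃ N d q : ℕ, 1 ≤ N ∧ q ≤ 2 ^ d ∧
      Nonempty (Data 2 N ((2 / (L : ℝ)) ^ L) ((1 / 2 : ℝ) ^ L) q) ∧
      8 * (2 * d + 3) ≤ L ^ (6 * C + 17) ∧ (2 * d + 3) * N ≤ L ^ ((6 * C + 17) * L ^ 2) := by
  obtain ⟨k, hk⟩ : ∃ k, k = (4 * C + 2) * L := ⟨_, rfl⟩
  obtain ⟨P, hP⟩ : ∃ P, P = L * k := ⟨_, rfl⟩
  obtain ⟨B, hB⟩ : ∃ B, B = P ^ C := ⟨_, rfl⟩
  have hL6 : 6 ≤ L := by omega
  have hk6 : 6 ≤ k := by
    rw [hk]
    nlinarith only [hC, hL]
  have hkP : k ≤ P := by rw [hP]; exact Nat.le_mul_of_pos_left _ (by omega)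
  have hLP : L ≤ P := by rw [hP]; exact Nat.le_mul_of_pos_right _ (by omega)
  have hP6 : 6 ≤ P := hk6.trans hkP
  have hPB : P ≤ B := by rw [hB]; exact Nat.le_self_pow (by omega) P
  have hmono : StrictMono (Nat.nth Nat.Prime) := Nat.nth_strictMono Nat.infinite_setOfPred_prime
  have hprime : ∀ a, Nat.Prime (Nat.nth Nat.Prime a) := fun a =>
    Nat.nth_mem_of_infinite Nat.infinite_setOfPred_prime a
  have hge : ∀ a, a ≤ Nat.nth Nat.Prime a := fun a => hmono.le_apply
  have hlev := levels (L := L) (k := k) (P := P) (B := B) (q0 := 2 * B ^ L)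
    (fun a => Nat.nth Nat.Prime (P + a)) (by omega) (by omega) (by omega) (by omega)
    (by
      have e1 : k / 2 = 2 * C * L + L := by
        rw [hk]
        have : (4 * C + 2) * L = (2 * C * L + L) * 2 := by ring
        rw [this, Nat.mul_div_cancel _ (by norm_num)]
      rw [e1, pow_add, hB, ← pow_mul]
      have e2 : C * (2 * L) = 2 * C * L := by ring
      rw [e2]
      exact Nat.mul_le_mul_left _ (Nat.pow_le_pow_left hLP L))
    (fun a _ => (Nat.le_add_right P a).trans (hge _))
    (fun a ha => by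
      rw [← hP] at ha
      rw [hB]
      exact (hmono.monotone (by omega)).trans (hpr P (by omega)))
    (fun a b _ _ hab => (Nat.coprime_primes (hprime _) (hprime _)).2 (fun h => by
      have := hmono.injective h
      omega))
    (le_refl _) L (le_refl _) 2 (by norm_num) (by simp)
    (fun a _ => (Nat.coprime_primes (hprime _) Nat.prime_two).2 (fun h => by
      have := hge (P + a)
      omega))
  have hPL3 : P ≤ L ^ 3 := by
    rw [hP, hk]
    calc L * ((4 * C + 2) * L) ≤ L * (L * L) :=
          Nat.mul_le_mul_left _ (Nat.mul_le_mul_right _ hL)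
      _ = L ^ 3 := by ring
  have hE : (C + 1) * L + 1 ≤ L ^ 2 := by
    nlinarith only [hL]
  refine ⟨(B ^ (2 * L) * L ^ L * k) ^ L, P * ((C + 1) * L + 1), k ^ L * (2 * B ^ L), ?_, ?_,
    hlev, ?_, ?_⟩
  · have hB0 : 0 < B := by omega
    have hL0 : 0 < L := by omega
    have hk0 : 0 < k := by omega
    exact Nat.one_le_iff_ne_zero.2 (by (clear * - hB0 hL6 hk6; positivity))
  · calc k ^ L * (2 * B ^ L) ≤ P ^ L * (P * (P ^ C) ^ L) := by
          rw [hB]
          exact Nat.mul_le_mul (Nat.pow_le_pow_left hkP L) (Nat.mul_le_mul_right _ (by omega))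
      _ = P ^ ((C + 1) * L + 1) := by
          rw [← pow_mul, ← pow_succ', ← pow_add]
          congr 1
          ring
      _ ≤ (2 ^ P) ^ ((C + 1) * L + 1) := Nat.pow_le_pow_left (Nat.lt_two_pow_self).le _
      _ = 2 ^ (P * ((C + 1) * L + 1)) := by rw [pow_mul]
  · have h1 : P * ((C + 1) * L + 1) ≤ L ^ 5 := by
      calc P * ((C + 1) * L + 1) ≤ L ^ 3 * L ^ 2 := Nat.mul_le_mul hPL3 hE
        _ = L ^ 5 := by ring
    have h2 : 1 ≤ L ^ 5 := Nat.one_le_pow _ _ (by omega)
    have h3 : 2 ^ 6 ≤ L ^ 6 := Nat.pow_le_pow_left (by omega) 6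
    calc 8 * (2 * (P * ((C + 1) * L + 1)) + 3) ≤ 2 ^ 6 * L ^ 5 := by omega
      _ ≤ L ^ 6 * L ^ 5 := Nat.mul_le_mul_right _ h3
      _ = L ^ 11 := by ring
      _ ≤ L ^ (6 * C + 17) := Nat.pow_le_pow_right (by omega) (by omega)
  · have h1 : P * ((C + 1) * L + 1) ≤ L ^ 5 := by
      calc P * ((C + 1) * L + 1) ≤ L ^ 3 * L ^ 2 := Nat.mul_le_mul hPL3 hE
        _ = L ^ 5 := by ring
    have h2 : 1 ≤ L ^ 5 := Nat.one_le_pow _ _ (by omega)
    have h3 : 2 ^ 6 ≤ L ^ 6 := Nat.pow_le_pow_left (by omega) 6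
    have h4 : 2 * (P * ((C + 1) * L + 1)) + 3 ≤ L ^ (11 * L ^ 2) := by
      calc 2 * (P * ((C + 1) * L + 1)) + 3 ≤ 2 ^ 6 * L ^ 5 := by omega
        _ ≤ L ^ 6 * L ^ 5 := Nat.mul_le_mul_right _ h3
        _ = L ^ 11 := by ring
        _ ≤ L ^ (11 * L ^ 2) := Nat.pow_le_pow_right (by omega) (by nlinarith only [hE])
    have h5 : (B ^ (2 * L) * L ^ L * k) ^ L ≤ L ^ ((6 * C + 6) * L ^ 2) := by
      calc (B ^ (2 * L) * L ^ L * k) ^ L ≤ ((P ^ C) ^ (2 * L) * P ^ L * P) ^ L := by
            rw [hB]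
            apply Nat.pow_le_pow_left
            exact Nat.mul_le_mul (Nat.mul_le_mul_left _ (Nat.pow_le_pow_left hLP L)) hkP
        _ = P ^ ((2 * C * L + L + 1) * L) := by
            rw [← pow_mul, ← pow_add, ← pow_succ, ← pow_mul]
            congr 1
            ring
        _ ≤ (L ^ 3) ^ ((2 * C * L + L + 1) * L) := Nat.pow_le_pow_left hPL3 _
        _ = L ^ (3 * ((2 * C * L + L + 1) * L)) := by rw [← pow_mul]
        _ ≤ L ^ ((6 * C + 6) * L ^ 2) := Nat.pow_le_pow_right (by omega) (by nlinarith only [hE])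
    calc (2 * (P * ((C + 1) * L + 1)) + 3) * (B ^ (2 * L) * L ^ L * k) ^ L
        ≤ L ^ (11 * L ^ 2) * L ^ ((6 * C + 6) * L ^ 2) := Nat.mul_le_mul h4 h5
      _ = L ^ ((6 * C + 17) * L ^ 2) := by
          rw [← pow_add]
          congr 1
          ring

/-- The lower bound matching Ostrovsky and Rabani, up to the constant in the exponent. -/
theorem full_lower : ∃ c : ℝ, 0 < c ∧ ∃ n0 : ℕ, ∀ n : ℕ, n0 ≤ n →
    Real.exp (c * Real.sqrt (Real.log n * Real.log (Real.log n))) ≤ c1 (binED n) := by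
  obtain ⟨C, hC, hpr⟩ := primes_exist
  obtain ⟨c, hc, n0, h⟩ := asymp (6 * C + 17) (by omega)
  refine ⟨c, hc, n0, fun n hn => ?_⟩
  obtain ⟨L, hL, hL2, hLn, hexp⟩ := h n hn
  obtain ⟨N, d, q, hN, hq, ⟨D⟩, hd, hdN⟩ := exists_data C hC hpr L (by omega)
  have hLpos : (0 : ℝ) < L := by
    have : 0 < L := by omega
    exact_mod_cast this
  have hκ : (0 : ℝ) < (2 / (L : ℝ)) ^ L := by positivity
  have h1 := c1_ge_of_data hN hκ D hq (hdN.trans hLn)
  refine hexp.trans (le_trans ?_ h1)
  have e1 : (1 / 2 : ℝ) ^ L / (8 * ((2 * d + 3 : ℕ) : ℝ) * (2 / (L : ℝ)) ^ L) =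
      ((L : ℝ) / 4) ^ L / ((8 * (2 * d + 3) : ℕ) : ℝ) := by
    have e2 : ((L : ℝ) / 4) ^ L = (1 / 2 : ℝ) ^ L / (2 / (L : ℝ)) ^ L := by
      rw [← div_pow]
      congr 1
      field_simp
      norm_num
    rw [e2]
    push_cast
    (clear * - hL2; field_simp)
  rw [e1]
  apply div_le_div_of_nonneg_left (by positivity) (by positivity)
  exact_mod_cast hd

end Vale.Agent.P238.Full
end
end
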